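import Vale.Agent.P153.R2.INTF.Markov
import Vale.Agent.P153.R2.PLAN.Mean

/-!
P153, block OBSV: the mean height in arc domains, and the form of the landing estimate.
-/

set_option autoImplicit false
set_option linter.all false

namespace Vale.Agent.P153.R2.OBSV

open Set
open Vale.Agent.P153 Vale.Agent.P153.R2
open Vale.Agent.P153.Topo (Conn)
open Vale.Agent.P153.R2.INTF (CA mem_CA CA_finite eta eta_mem eta_not eta_or Arcs)

variable {F P M : Set Pt} {v : Pt}

/-- The mean height. -/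
noncomputable def mh (F M : Set Pt) (v : Pt) : ℝ := Ex (CA F M) fun h => (h v : ℝ)

theorem eta_odd (M : Set Pt) (x : Pt) : Odd (eta M x) := by
  rcases eta_or M x with h | h <;> rw [h] <;> decide

theorem eta_mem_CA (F M : Set Pt) : eta M ∈ CA F M := by
  refine mem_CA.2 ⟨eta_odd M, fun x _ => rfl, fun x _ y _ => ?_⟩
  rcases eta_or M x with h | h <;> rcases eta_or M y with h' | h' <;> rw [h, h'] <;> norm_num

theorem CA_nonempty (F M : Set Pt) : (CA F M).Nonempty := ⟨_, eta_mem_CA F M⟩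

theorem exa_dat (hF : F.Finite) : Dat F (exa F (eta M)) := by
  refine ⟨hF, fun x hx => ?_, ?_⟩
  · rw [exa, if_neg hx]; exact finite_singleton _
  · refine hF.subset fun x hx => ?_
    by_contra hc
    exact hx (by rw [exa, if_neg hc]; exact subsingleton_singleton)

theorem mh_off (hF : F.Finite) (hv : v ∉ F) : mh F M v = eta M v := by
  unfold mh
  rw [Ex_congr (G := fun _ => ((eta M v : ℤ) : ℝ)), Ex_const (CA_finite hF) (CA_nonempty F M)]
  intro h hh
  rw [(mem_CA.1 hh).2.1 v hv]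

theorem mh_le (hF : F.Finite) : mh F M v ≤ 1 := by
  by_cases hv : v ∈ F
  · have := PLAN.mean_le (c := 1) (V := F) (I := exa F (eta M)) (v := v) (by decide)
      (exa_dat hF) (CA_nonempty F M) (fun x hx => Or.inl (by rw [exa, if_pos hx]))
      (fun x hx b hb => by
        rw [exa, if_neg hx.1, mem_singleton_iff] at hb
        rw [hb]
        rcases eta_or M x with h | h <;> rw [h]
        norm_num) hv
    push_cast at this
    exact this
  · rw [mh_off hF hv]
    rcases eta_or M v with h | h <;> rw [h] <;> norm_num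

open Classical in
/-- Change of sign in arc domains. -/
noncomputable def sw (F P : Set Pt) (h : Hg) : Hg := fun x => if x ∈ F then - h x else eta P x

theorem sw_mem (hA : Arcs F P M) {h : Hg} (hh : h ∈ CA F M) : sw F P h ∈ CA F P := by
  obtain ⟨h1, h2, h3⟩ := mem_CA.1 hh
  refine mem_CA.2 ⟨fun x => ?_, fun x hx => ?_, fun x hx y hxy => ?_⟩
  · unfold sw
    split_ifs
    · exact (h1 x).neg
    · exact eta_odd P x
  · unfold sw
    rw [if_neg hx]
  · unfold sw
    rw [if_pos hx]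
    by_cases hy : y ∈ F
    · rw [if_pos hy]
      have := h3 x hx y hxy
      rw [abs_sub_comm] at this
      rwa [show -h x - -h y = h y - h x by ring]
    · rw [if_neg hy]
      have h4 := h3 x hx y hxy
      rw [h2 y hy] at h4
      rcases hA.bd x hx y hxy with h5 | h5 | h5
      · exact absurd h5 hy
      · rw [eta_mem h5]
        rw [eta_not (fun hc => Set.disjoint_left.1 hA.dPM h5 hc)] at h4
        rw [abs_le] at h4 ⊢
        omega
      · rw [eta_not (fun hc => Set.disjoint_left.1 hA.dPM hc h5)]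
        rw [eta_mem h5] at h4
        rw [abs_le] at h4 ⊢
        omega

theorem sw_sw (hA : Arcs F P M) {h : Hg} (hh : h ∈ CA F M) : sw F M (sw F P h) = h := by
  funext x
  unfold sw
  by_cases hx : x ∈ F
  · rw [if_pos hx, if_pos hx, neg_neg]
  · rw [if_neg hx, (mem_CA.1 hh).2.1 x hx]

theorem sw_bij (hA : Arcs F P M) : BijOn (sw F P) (CA F M) (CA F P) := by
  refine ⟨fun h hh => sw_mem hA hh, fun a ha b hb hab => ?_, fun h hh => ?_⟩
  · rw [← sw_sw hA ha, hab, sw_sw hA hb]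
  · exact ⟨sw F M h, sw_mem hA.symm hh, sw_sw hA.symm hh⟩

theorem mh_symm (hA : Arcs F P M) (hv : v ∈ F) : mh F P v = - mh F M v := by
  unfold mh
  rw [Ex_bij _ (sw_bij hA), ← Ex_neg]
  refine Ex_congr fun h _ => ?_
  unfold sw
  rw [if_pos hv]
  push_cast
  ring

theorem mh_abs (hA : Arcs F P M) (v : Pt) : |mh F M v| ≤ 1 := by
  rw [abs_le]
  refine ⟨?_, mh_le hA.fin⟩
  by_cases hv : v ∈ F
  · have h1 := mh_le (F := F) (M := P) (v := v) hA.fin
    rw [mh_symm hA hv] at h1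
    linarith
  · rw [mh_off hA.fin hv]
    rcases eta_or M v with h | h <;> rw [h] <;> norm_num

/-- **Landing** (input): the mean height is close to one at the vertices which are close to the
walls and see no negative wall. -/
def S_landv : Prop := ∀ η : ℝ, 0 < η → ∃ c : ℝ, 0 < c ∧ ∃ N₀ : ℤ, 1 ≤ N₀ ∧
  ∀ F P M : Set Pt, Arcs F P M → ∀ v ∈ F, ∀ R : ℤ, N₀ ≤ R → bx v N₀ ⊆ F →
    (∃ y, y ∉ F ∧ ∃ r : ℤ, (r : ℝ) ≤ c * R ∧ y ∈ bx v r) →
    (∀ x ∈ Cl (F ∩ bx v R) {v}, ∀ y ∈ M, ¬ Adj x y) → 1 - η ≤ mh F M v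

/-- The landing estimate for the other sign. -/
theorem landv_neg {η c : ℝ} {N₀ : ℤ}
    (h : ∀ F P M : Set Pt, Arcs F P M → ∀ v ∈ F, ∀ R : ℤ, N₀ ≤ R → bx v N₀ ⊆ F →
    (∃ y, y ∉ F ∧ ∃ r : ℤ, (r : ℝ) ≤ c * R ∧ y ∈ bx v r) →
    (∀ x ∈ Cl (F ∩ bx v R) {v}, ∀ y ∈ M, ¬ Adj x y) → 1 - η ≤ mh F M v)
    (hA : Arcs F P M) (hv : v ∈ F) {R : ℤ} (hR : N₀ ≤ R) (hN : bx v N₀ ⊆ F)
    (hy : ∃ y, y ∉ F ∧ ∃ r : ℤ, (r : ℝ) ≤ c * R ∧ y ∈ bx v r)
    (hP : ∀ x ∈ Cl (F ∩ bx v R) {v}, ∀ y ∈ P, ¬ Adj x y) : mh F M v ≤ -1 + η := by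
  have h1 := h F M P hA.symm v hv R hR hN hy hP
  rw [mh_symm hA hv] at h1
  linarith

end Vale.Agent.P153.R2.OBSV
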