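import Vale.Agent.P153.Bd5.B9

/-!
P153, block OBSV: rounding to the lattice of mesh `δ`; integrals of functions which are constant on
the cells of the lattice.
-/

set_option autoImplicit false
set_option linter.all false

namespace Vale.Agent.P153.R2.OBSV

open Filter Topology Set Metric MeasureTheory
open Vale.Agent.P153.F.Top
open Vale.Agent.P153

/-- The lattice point near `y`. -/
noncomputable def rd (δ : ℝ) (y : ℝ × ℝ) : ℤ × ℤ :=
  (⌊y.1 / δ - y.2 / δ / √3 + 1 / 2⌋, ⌊2 * (y.2 / δ) / √3 + 1 / 2⌋)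

theorem s3 : (0 : ℝ) < √3 := by positivity

theorem s3_sq : √3 * √3 = (3 : ℝ) := Real.mul_self_sqrt (by norm_num)

theorem s3_lt : √3 < (2 : ℝ) := by
  rw [Real.sqrt_lt' (by norm_num)]; norm_num

/-- Rounding moves the points by at most `δ`. -/
theorem rd_dist {δ : ℝ} (hδ : 0 < δ) (y : ℝ × ℝ) : dist (dp δ (rd δ y)) y ≤ δ := by
  have h3 := s3
  have h4 := s3_lt
  set a : ℝ := y.1 / δ - y.2 / δ / √3 with ha
  set b : ℝ := 2 * (y.2 / δ) / √3 with hb
  have e2 : y.2 = δ * (√3 / 2 * b) := by rw [hb]; field_simp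
  have e1 : y.1 = δ * (a + b / 2) := by rw [ha, hb]; field_simp; ring
  have f1 := Int.floor_le (a + 1 / 2)
  have f2 := Int.lt_floor_add_one (a + 1 / 2)
  have f3 := Int.floor_le (b + 1 / 2)
  have f4 := Int.lt_floor_add_one (b + 1 / 2)
  have hr : rd δ y = (⌊a + 1 / 2⌋, ⌊b + 1 / 2⌋) := rfl
  rw [hr]
  set k : ℝ := (⌊a + 1 / 2⌋ : ℝ) with hk
  set l : ℝ := (⌊b + 1 / 2⌋ : ℝ) with hl
  rw [Prod.dist_eq, max_le_iff, Real.dist_eq, Real.dist_eq]
  have g1 : (dp δ (⌊a + 1 / 2⌋, ⌊b + 1 / 2⌋)).1 - y.1 = δ * ((k - a) + (l - b) / 2) := by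
    rw [e1]; simp only [dp]; rw [← hk, ← hl]; ring
  have g2 : (dp δ (⌊a + 1 / 2⌋, ⌊b + 1 / 2⌋)).2 - y.2 = δ * (√3 / 2 * (l - b)) := by
    rw [e2]; simp only [dp]; rw [← hl]; ring
  rw [g1, g2, abs_mul, abs_mul, abs_of_pos hδ]
  constructor
  · have : |k - a + (l - b) / 2| ≤ 1 := by
      rw [abs_le]; constructor <;> linarith
    nlinarith
  · have : |√3 / 2 * (l - b)| ≤ 1 := by
      rw [abs_mul, abs_of_pos (by positivity)]
      have h5 : |l - b| ≤ 1 := by rw [abs_le]; constructor <;> linarith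
      nlinarith [abs_nonneg (l - b)]
    nlinarith

theorem rd_meas (δ : ℝ) : Measurable (rd δ) := by
  unfold rd
  refine Measurable.prodMk ?_ ?_
  · exact (Int.measurable_floor.comp (by fun_prop))
  · exact (Int.measurable_floor.comp (by fun_prop))

/-- A function of the rounded point is measurable. -/
theorem um_meas (δ : ℝ) (m : ℤ × ℤ → ℝ) : Measurable fun y => m (rd δ y) :=
  (measurable_of_countable m).comp (rd_meas δ)

theorem cell_iff {δ : ℝ} (hδ : 0 < δ) (v : ℤ × ℤ) (y : ℝ × ℝ) : rd δ y = v ↔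
    y.1 ∈ Ico (δ * (v.1 - 1 / 2) + y.2 / √3) (δ * (v.1 - 1 / 2) + y.2 / √3 + δ) ∧
      y.2 ∈ Ico (δ * √3 / 2 * (v.2 - 1 / 2)) (δ * √3 / 2 * (v.2 - 1 / 2) + δ * √3 / 2) := by
  have h3 := s3
  unfold rd
  rw [Prod.ext_iff, Int.floor_eq_iff, Int.floor_eq_iff, mem_Ico, mem_Ico]
  have e1 : y.1 = δ * (y.1 / δ - y.2 / δ / √3) + y.2 / √3 := by field_simp; ring
  have e2 : y.2 = δ * √3 / 2 * (2 * (y.2 / δ) / √3) := by field_simp
  set a := y.1 / δ - y.2 / δ / √3
  set b := 2 * (y.2 / δ) / √3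
  have k1 : (δ * (v.1 - 1 / 2) + y.2 / √3 ≤ y.1) ↔ (v.1 : ℝ) ≤ a + 1 / 2 := by
    rw [e1]
    constructor
    · intro h
      have : δ * (v.1 - 1 / 2 - a) ≤ 0 := by linarith
      have := (mul_nonpos_iff_pos_imp_nonpos).1 this
      by_contra hc
      push Not at hc
      have h5 : 0 < δ * (v.1 - 1 / 2 - a) := mul_pos hδ (by linarith)
      linarith
    · intro h
      have : δ * (v.1 - 1 / 2) ≤ δ * a := mul_le_mul_of_nonneg_left (by linarith) hδ.le
      linarith
  have k2 : (y.1 < δ * (v.1 - 1 / 2) + y.2 / √3 + δ) ↔ a + 1 / 2 < v.1 + 1 := by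
    rw [e1]
    constructor
    · intro h
      by_contra hc
      push Not at hc
      have h5 : 0 ≤ δ * (a - v.1 - 1 / 2) := mul_nonneg hδ.le (by linarith)
      linarith
    · intro h
      have : δ * a < δ * (v.1 + 1 / 2) := mul_lt_mul_of_pos_left (by linarith) hδ
      linarith
  have hd : 0 < δ * √3 / 2 := by positivity
  have k3 : (δ * √3 / 2 * (v.2 - 1 / 2) ≤ y.2) ↔ (v.2 : ℝ) ≤ b + 1 / 2 := by
    rw [e2, mul_le_mul_iff_right₀ hd]
    constructor <;> intro h <;> linarith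
  have k4 : (y.2 < δ * √3 / 2 * (v.2 - 1 / 2) + δ * √3 / 2) ↔ b + 1 / 2 < v.2 + 1 := by
    have : δ * √3 / 2 * (v.2 - 1 / 2) + δ * √3 / 2 = δ * √3 / 2 * (v.2 + 1 / 2) := by ring
    rw [this, e2, mul_lt_mul_iff_right₀ hd]
    constructor <;> intro h <;> linarith
  rw [k1, k2, k3, k4]

/-- The volume of a cell of the lattice. -/
theorem cell_vol {δ : ℝ} (hδ : 0 < δ) (v : ℤ × ℤ) :
    volume {y | rd δ y = v} = ENNReal.ofReal (δ ^ 2 * (√3 / 2)) := by
  have h3 := s3
  have hm : MeasurableSet {y | rd δ y = v} := rd_meas δ (measurableSet_singleton v)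
  rw [Measure.volume_eq_prod, Measure.prod_apply_symm hm]
  have e : ∀ b : ℝ, volume ((fun a : ℝ => (a, b)) ⁻¹' {y | rd δ y = v}) =
      (Ico (δ * √3 / 2 * (v.2 - 1 / 2)) (δ * √3 / 2 * (v.2 - 1 / 2) + δ * √3 / 2)).indicator
        (fun _ => ENNReal.ofReal δ) b := by
    intro b
    by_cases hb : b ∈ Ico (δ * √3 / 2 * ((v.2 : ℝ) - 1 / 2))
        (δ * √3 / 2 * (v.2 - 1 / 2) + δ * √3 / 2)
    · rw [indicator_of_mem hb]
      have : (fun a : ℝ => (a, b)) ⁻¹' {y | rd δ y = v} =
          Ico (δ * (v.1 - 1 / 2) + b / √3) (δ * (v.1 - 1 / 2) + b / √3 + δ) := by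
        ext a
        rw [mem_preimage, mem_ofPred_eq, cell_iff hδ]
        exact and_iff_left hb
      rw [this, Real.volume_Ico]
      congr 1
      ring
    · rw [indicator_of_notMem hb]
      have : (fun a : ℝ => (a, b)) ⁻¹' {y | rd δ y = v} = ∅ := by
        ext a
        rw [mem_preimage, mem_ofPred_eq, cell_iff hδ, mem_empty_iff_false, iff_false]
        exact fun h => hb h.2
      rw [this, measure_empty]
  simp_rw [e]
  rw [lintegral_indicator measurableSet_Ico, setLIntegral_const, Real.volume_Ico,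
    ← ENNReal.ofReal_mul hδ.le]
  congr 1
  ring

/-- The integral of a function which is constant on the cells. -/
theorem int_cells {δ : ℝ} (hδ : 0 < δ) {g : ℤ × ℤ → ℝ} {s : Finset (ℤ × ℤ)}
    (hg : ∀ v, v ∉ s → g v = 0) :
    ∫ y, g (rd δ y) = δ ^ 2 * (√3 / 2) * ∑ v ∈ s, g v := by
  classical
  have hm : ∀ v, MeasurableSet {y | rd δ y = v} := fun v => rd_meas δ (measurableSet_singleton v)
  have e : (fun y => g (rd δ y)) =
      fun y => ∑ v ∈ s, ({y | rd δ y = v}).indicator (fun _ => g v) y := by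
    funext y
    by_cases h : rd δ y ∈ s
    · rw [Finset.sum_eq_single (rd δ y)]
      · rw [indicator_of_mem (by exact rfl)]
      · intro v _ hv
        rw [indicator_of_notMem]
        exact fun h => hv h.symm
      · exact fun h' => absurd h h'
    · rw [hg _ h, Finset.sum_eq_zero]
      intro v hv
      rw [indicator_of_notMem]
      intro h'
      have : rd δ y = v := h'
      exact h (this ▸ hv)
  have hfin : ∀ v, volume {y | rd δ y = v} ≠ ⊤ := fun v => by
    rw [cell_vol hδ]; exact ENNReal.ofReal_ne_top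
  rw [e, integral_finset_sum]
  · rw [Finset.mul_sum]
    refine Finset.sum_congr rfl fun v _ => ?_
    rw [integral_indicator_const _ (hm v), Measure.real, cell_vol hδ,
      ENNReal.toReal_ofReal (by positivity), smul_eq_mul]
  · intro v _
    exact (integrable_indicator_iff (hm v)).2 (integrableOn_const (hfin v))

/-- **Riemann sums**: uniformly in the weights `m`. -/
theorem um_hv {f : ℝ × ℝ → ℝ} (hf : Continuous f) (hc : HasCompactSupport f) {ε : ℝ} (hε : 0 < ε) :
    ∃ δ₀ : ℝ, 0 < δ₀ ∧ ∀ δ, 0 < δ → δ < δ₀ → ∀ m : ℤ × ℤ → ℝ, (∀ v, |m v| ≤ 1) →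
      |(∫ y, m (rd δ y) * f y) - hv δ f m| ≤ ε := by
  obtain ⟨R, hR⟩ := hc.isBounded.subset_closedBall (0 : ℝ × ℝ)
  have hz : ∀ z : ℝ × ℝ, R < ‖z‖ → f z = 0 := fun z hz => by
    by_contra hne
    have := hR (subset_tsupport _ (Function.mem_support.2 hne))
    rw [mem_closedBall_zero_iff] at this
    linarith
  set V : ℝ := volume.real (closedBall (0 : ℝ × ℝ) (|R| + 1)) with hV
  have hV0 : 0 ≤ V := measureReal_nonneg
  have huc : UniformContinuous f := hc.uniformContinuous_of_continuous hf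
  obtain ⟨δ₁, hδ₁, hmod⟩ := Metric.uniformContinuous_iff.1 huc (ε / (V + 1)) (by positivity)
  refine ⟨min (δ₁ / 2) 1, by positivity, fun δ hδ hδ0 m hm => ?_⟩
  have hd1 : δ < δ₁ := by
    have := hδ0.trans_le (min_le_left _ _)
    linarith
  have hd2 : δ < 1 := hδ0.trans_le (min_le_right _ _)
  -- the set of vertices near the support
  have hsfin : {v : ℤ × ℤ | f (dp δ v) ≠ 0}.Finite := by
    have hbd : ∀ v : ℤ × ℤ, f (dp δ v) ≠ 0 → |(v.1 : ℝ)| ≤ 3 * (|R| / δ) ∧
        |(v.2 : ℝ)| ≤ 3 * (|R| / δ) := by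
      intro v hv
      have h1 : ‖dp δ v‖ ≤ |R| := by
        by_contra hcon
        push Not at hcon
        exact hv (hz _ ((le_abs_self R).trans_lt hcon))
      rw [Prod.norm_def, max_le_iff, Real.norm_eq_abs, Real.norm_eq_abs] at h1
      obtain ⟨h1, h2⟩ := h1
      simp only [dp] at h1 h2
      rw [abs_mul, abs_of_pos hδ, ← le_div_iff₀' hδ] at h1 h2
      rw [abs_mul, abs_of_pos (show (0 : ℝ) < √3 / 2 by positivity)] at h2
      have h3 : (1 : ℝ) ≤ √3 := by
        rw [Real.one_le_sqrt]; norm_num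
      have h4 : |(v.2 : ℝ)| ≤ 2 * (|R| / δ) := by
        nlinarith [abs_nonneg (v.2 : ℝ)]
      have h0 : 0 ≤ |R| / δ := by positivity
      refine ⟨?_, by linarith⟩
      have h5 : |(v.1 : ℝ)| ≤ |(v.1 : ℝ) + v.2 / 2| + |(v.2 : ℝ) / 2| := by
        have := abs_sub ((v.1 : ℝ) + v.2 / 2) (v.2 / 2)
        have e : (v.1 : ℝ) + v.2 / 2 - v.2 / 2 = v.1 := by ring
        rw [e] at this
        exact this
      rw [abs_div, abs_two] at h5
      linarith
    refine (((Set.finite_Icc (-⌈3 * (|R| / δ)⌉) ⌈3 * (|R| / δ)⌉).prod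
      (Set.finite_Icc (-⌈3 * (|R| / δ)⌉) ⌈3 * (|R| / δ)⌉))).subset fun v hv => ?_
    obtain ⟨h1, h2⟩ := hbd v hv
    have h3 := Int.le_ceil (3 * (|R| / δ))
    rw [abs_le] at h1 h2
    refine ⟨⟨?_, ?_⟩, ?_, ?_⟩
    · have : -(⌈3 * (|R| / δ)⌉ : ℝ) ≤ v.1 := by linarith
      exact_mod_cast this
    · have : (v.1 : ℝ) ≤ ⌈3 * (|R| / δ)⌉ := by linarith
      exact_mod_cast this
    · have : -(⌈3 * (|R| / δ)⌉ : ℝ) ≤ v.2 := by linarith
      exact_mod_cast this
    · have : (v.2 : ℝ) ≤ ⌈3 * (|R| / δ)⌉ := by linarith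
      exact_mod_cast this
  -- the sum is an integral
  have e1 : hv δ f m = ∫ y, m (rd δ y) * f (dp δ (rd δ y)) := by
    rw [int_cells hδ (g := fun v => m v * f (dp δ v)) (s := hsfin.toFinset) (fun v hv => by
      have : f (dp δ v) = 0 := by
        by_contra h
        exact hv (hsfin.mem_toFinset.2 h)
      simp only [this, mul_zero])]
    unfold hv
    rw [finsum_eq_sum_of_support_subset (s := hsfin.toFinset), mul_assoc, Finset.mul_sum,
      Finset.mul_sum, Finset.mul_sum]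
    · refine Finset.sum_congr rfl fun v _ => ?_
      have : tl f (δ * v.1, δ * v.2) = √3 / 2 * f (dp δ v) := by
        unfold tl dp
        congr 2
        ext <;> simp <;> ring
      rw [this]
      ring
    · intro v hv
      rw [Finset.mem_coe, hsfin.mem_toFinset]
      intro h
      refine hv ?_
      have : tl f (δ * v.1, δ * v.2) = √3 / 2 * f (dp δ v) := by
        unfold tl dp
        congr 2
        ext <;> simp <;> ring
      simp only [this, h, mul_zero]
  have hI1 : Integrable fun y => m (rd δ y) * f y := by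
    refine (hf.integrable_of_hasCompactSupport hc).bdd_mul (c := 1)
      (um_meas δ m).aestronglyMeasurable (ae_of_all _ fun y => ?_)
    rw [Real.norm_eq_abs]; exact hm _
  have hzero : ∀ y : ℝ × ℝ, y ∉ closedBall (0 : ℝ × ℝ) (|R| + 1) → f y = 0 ∧
      f (dp δ (rd δ y)) = 0 := by
    intro y hy
    rw [mem_closedBall_zero_iff, not_le] at hy
    have h1 := rd_dist hδ y
    rw [dist_eq_norm] at h1
    have h2 : ‖y‖ ≤ ‖dp δ (rd δ y)‖ + ‖dp δ (rd δ y) - y‖ := by
      have := norm_sub_le (dp δ (rd δ y)) (dp δ (rd δ y) - y)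
      rwa [sub_sub_cancel] at this
    have h3 := le_abs_self R
    exact ⟨hz _ (by linarith), hz _ (by linarith)⟩
  have hclose : ∀ y, |f y - f (dp δ (rd δ y))| ≤ ε / (V + 1) := by
    intro y
    have h1 := rd_dist hδ y
    have h2 := hmod (a := y) (b := dp δ (rd δ y)) (by rw [dist_comm]; linarith)
    rw [Real.dist_eq] at h2
    exact h2.le
  have hI2 : Integrable fun y => m (rd δ y) * f (dp δ (rd δ y)) := by
    have hB : Integrable ((closedBall (0 : ℝ × ℝ) (|R| + 1)).indicator fun _ =>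
        (sSup (range fun z => |f z|))) := by
      refine (integrable_indicator_iff isClosed_closedBall.measurableSet).2
        (integrableOn_const ?_)
      exact measure_closedBall_lt_top.ne
    have hbdd : BddAbove (range fun z => |f z|) := by
      obtain ⟨C, hC⟩ := hc.exists_bound_of_continuous hf
      exact ⟨C, by rintro _ ⟨z, rfl⟩; exact hC z⟩
    refine hB.mono' ((um_meas δ fun v => m v * f (dp δ v)).aestronglyMeasurable)
      (ae_of_all _ fun y => ?_)
    by_cases hy : y ∈ closedBall (0 : ℝ × ℝ) (|R| + 1)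
    · rw [indicator_of_mem hy, norm_mul, Real.norm_eq_abs, Real.norm_eq_abs]
      have h1 := hm (rd δ y)
      have h2 : |f (dp δ (rd δ y))| ≤ sSup (range fun z => |f z|) :=
        le_csSup hbdd (mem_range_self _)
      nlinarith [abs_nonneg (m (rd δ y)), abs_nonneg (f (dp δ (rd δ y)))]
    · rw [indicator_of_notMem hy, (hzero y hy).2, mul_zero, norm_zero]
  rw [e1, ← integral_sub hI1 hI2]
  have hbd : ∀ y, ‖m (rd δ y) * f y - m (rd δ y) * f (dp δ (rd δ y))‖ ≤
      (closedBall (0 : ℝ × ℝ) (|R| + 1)).indicator (fun _ => ε / (V + 1)) y := by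
    intro y
    rw [← mul_sub, norm_mul, Real.norm_eq_abs, Real.norm_eq_abs]
    by_cases hy : y ∈ closedBall (0 : ℝ × ℝ) (|R| + 1)
    · rw [indicator_of_mem hy]
      have h1 := hm (rd δ y)
      have h2 := hclose y
      nlinarith [abs_nonneg (m (rd δ y)), abs_nonneg (f y - f (dp δ (rd δ y)))]
    · rw [indicator_of_notMem hy, (hzero y hy).1, (hzero y hy).2, sub_zero, abs_zero, mul_zero]
  have hfin : volume (closedBall (0 : ℝ × ℝ) (|R| + 1)) ≠ ⊤ := measure_closedBall_lt_top.ne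
  have hI3 : Integrable ((closedBall (0 : ℝ × ℝ) (|R| + 1)).indicator
      fun _ => ε / (V + 1)) :=
    (integrable_indicator_iff isClosed_closedBall.measurableSet).2 (integrableOn_const hfin)
  rw [← Real.norm_eq_abs]
  refine (norm_integral_le_of_norm_le hI3 (ae_of_all _ hbd)).trans ?_
  rw [integral_indicator_const _ isClosed_closedBall.measurableSet, smul_eq_mul, ← hV,
    mul_div_assoc']
  rw [div_le_iff₀ (by positivity)]
  nlinarith

end Vale.Agent.P153.R2.OBSV
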