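import Vale.Agent.P153.R2.OBSV.Core
import Vale.Agent.P153.R2.OBSV.Round
import Vale.Agent.P153.R2.OBSV.MeanH
import Vale.Agent.P153.R2.INTF.Aff

/-!
P153, block OBSV: the observable in arc domains of the lattice.
-/

set_option autoImplicit false
set_option linter.all false

namespace Vale.Agent.P153.R2.OBSV

open Filter Topology Set Metric MeasureTheory
open Vale.Agent.P145.PT Vale.Agent.P153.F.Top
open Vale.Agent.P153 Vale.Agent.P153.R2
open Vale.Agent.P153.Topo (Conn)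
open Vale.Agent.P153.R2.INTF (PP Arcs CA)

/-! ### Distances -/

theorem PP_eq (δ : ℝ) (v : ℤ × ℤ) : PP δ v = tc (dp δ v) := by
  apply Complex.ext
  · simp [PP, Final.toC, Final.pt, tc, dp]
  · simp [PP, Final.toC, Final.pt, tc, dp]

theorem PP_sub (δ : ℝ) (v v' : ℤ × ℤ) : PP δ v' - PP δ v =
    ((δ * (((v'.1 - v.1 : ℤ) : ℝ) + ((v'.2 - v.2 : ℤ) : ℝ) / 2) : ℝ) : ℂ) +
      ((δ * (√3 / 2 * ((v'.2 - v.2 : ℤ) : ℝ)) : ℝ) : ℂ) * Complex.I := by
  rw [PP_eq, PP_eq]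
  apply Complex.ext
  · simp [tc, dp]; ring
  · simp [tc, dp]; ring

theorem norm_sq_PP (δ : ℝ) (v v' : ℤ × ℤ) : ‖PP δ v' - PP δ v‖ ^ 2 =
    δ ^ 2 * (((v'.1 - v.1 : ℤ) : ℝ) ^ 2 + ((v'.1 - v.1 : ℤ) : ℝ) * ((v'.2 - v.2 : ℤ) : ℝ) +
      ((v'.2 - v.2 : ℤ) : ℝ) ^ 2) := by
  rw [PP_sub, ← Complex.normSq_eq_norm_sq, Complex.normSq_add_mul_I]
  have h3 := s3_sq
  generalize ((v'.1 - v.1 : ℤ) : ℝ) = a
  generalize ((v'.2 - v.2 : ℤ) : ℝ) = b
  have : (δ * (a + b / 2)) ^ 2 + (δ * (√3 / 2 * b)) ^ 2 =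
      δ ^ 2 * (a ^ 2 + a * b + b ^ 2 / 4) + δ ^ 2 * b ^ 2 / 4 * (√3 * √3) := by ring
  rw [this, h3]
  ring

/-- Vertices of a box are close. -/
theorem norm_PP_le {δ : ℝ} (hδ : 0 < δ) {v v' : ℤ × ℤ} {N : ℤ} (h : v' ∈ bx v N) :
    ‖PP δ v' - PP δ v‖ ≤ 2 * δ * N := by
  obtain ⟨h1, h2⟩ := h
  have h1' : |((v'.1 - v.1 : ℤ) : ℝ)| ≤ N := by exact_mod_cast h1
  have h2' : |((v'.2 - v.2 : ℤ) : ℝ)| ≤ N := by exact_mod_cast h2
  have hN : (0 : ℝ) ≤ N := (abs_nonneg _).trans h1'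
  refine abs_le_of_sq_le_sq' ?_ (by positivity) |>.2
  rw [norm_sq_PP]
  generalize ((v'.1 - v.1 : ℤ) : ℝ) = a at *
  generalize ((v'.2 - v.2 : ℤ) : ℝ) = b at *
  have k1 : a ^ 2 ≤ (N : ℝ) ^ 2 := by rw [← sq_abs a]; gcongr
  have k2 : b ^ 2 ≤ (N : ℝ) ^ 2 := by rw [← sq_abs b]; gcongr
  have k3 : a * b ≤ (N : ℝ) ^ 2 := by nlinarith [sq_nonneg (a - b)]
  have : a ^ 2 + a * b + b ^ 2 ≤ 4 * (N : ℝ) ^ 2 := by nlinarith
  calc δ ^ 2 * (a ^ 2 + a * b + b ^ 2) ≤ δ ^ 2 * (4 * (N : ℝ) ^ 2) := by gcongr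
    _ = (2 * δ * N) ^ 2 := by ring

/-- Close vertices are in a small box. -/
theorem mem_bx_of_norm {δ : ℝ} (hδ : 0 < δ) {v v' : ℤ × ℤ} {t : ℝ} (ht : 0 ≤ t)
    (h : ‖PP δ v' - PP δ v‖ ≤ δ * t) : v' ∈ bx v ⌊2 * t⌋ := by
  have h1 : ‖PP δ v' - PP δ v‖ ^ 2 ≤ (δ * t) ^ 2 := by gcongr
  rw [norm_sq_PP] at h1
  have h2 : ((v'.1 - v.1 : ℤ) : ℝ) ^ 2 + ((v'.1 - v.1 : ℤ) : ℝ) * ((v'.2 - v.2 : ℤ) : ℝ) +
      ((v'.2 - v.2 : ℤ) : ℝ) ^ 2 ≤ t ^ 2 := by
    have : δ ^ 2 * (((v'.1 - v.1 : ℤ) : ℝ) ^ 2 + ((v'.1 - v.1 : ℤ) : ℝ) *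
        ((v'.2 - v.2 : ℤ) : ℝ) + ((v'.2 - v.2 : ℤ) : ℝ) ^ 2) ≤ δ ^ 2 * t ^ 2 := by
      rw [mul_pow] at h1; exact h1
    exact le_of_mul_le_mul_left this (by positivity)
  refine ⟨?_, ?_⟩
  · rw [Int.le_floor]
    push_cast
    push_cast at h2
    refine abs_le_of_sq_le_sq' ?_ (by positivity) |>.2
    rw [sq_abs]
    nlinarith [sq_nonneg (((v'.1 : ℝ) - v.1) + 2 * ((v'.2 : ℝ) - v.2))]
  · rw [Int.le_floor]
    push_cast
    push_cast at h2
    refine abs_le_of_sq_le_sq' ?_ (by positivity) |>.2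
    rw [sq_abs]
    nlinarith [sq_nonneg (2 * ((v'.1 : ℝ) - v.1) + ((v'.2 : ℝ) - v.2))]

theorem norm_rd {δ : ℝ} (hδ : 0 < δ) (z : ℂ) : ‖PP δ (rd δ (tp z)) - z‖ ≤ 2 * δ := by
  have h1 := rd_dist hδ (tp z)
  rw [PP_eq]
  exact norm_tc_sub (mem_closedBall.2 h1)

/-! ### Arc domains and conformal maps -/

/-- An arc domain of the lattice with mesh `δ`, and the conformal map `G` of the upper half-plane
onto a domain of the plane whose lattice points are, up to `2 δ`, the vertices in `F`. The walls `P`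
are on the negative side, the walls `M` on the positive side. -/
structure Slt (δ : ℝ) (F P M : Set Pt) (G : ℂ → ℂ) (w z₀ : ℂ) (R₀ c₀ : ℝ) : Prop where
  dpos : 0 < δ
  arcs : Arcs F P M
  diff : DifferentiableOn ℂ G HP
  inj : InjOn G HP
  bdd : ∀ z ∈ HP, ‖G z‖ ≤ R₀
  pt : 0 < w.im
  val : G w = z₀
  sub : ball z₀ c₀ ⊆ G '' HP
  bF : ∀ v ∈ F, ‖dp δ v‖ ≤ R₀
  inn : ∀ v, v ∉ F → ∃ y, y ∉ G '' HP ∧ ‖y - PP δ v‖ ≤ 2 * δ
  out : ∀ y, y ∉ G '' HP → ∃ v, v ∉ F ∧ ‖y - PP δ v‖ ≤ 2 * δ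
  sP : ∀ v ∈ F, ∀ (R : ℤ) (v' m : Pt), Conn (F ∩ bx v R) v v' → Adj v' m → m ∈ P →
    Wall G Real.pi (PP δ v) (2 * δ * (R + 2))
  sM : ∀ v ∈ F, ∀ (R : ℤ) (v' m : Pt), Conn (F ∩ bx v R) v v' → Adj v' m → m ∈ M →
    Wall G 0 (PP δ v) (2 * δ * (R + 2))

variable {ι : Type*} {l : Filter ι} {δ : ι → ℝ} {F P M : ι → Set Pt} {G : ι → ℂ → ℂ}
  {w : ι → ℂ} {z₀ : ℂ} {R₀ c₀ : ℝ}

/-- Minus the mean height, as a function in the plane. -/
noncomputable def um (δ : ℝ) (F M : Set Pt) (y : ℝ × ℝ) : ℝ := - mh F M (rd δ y)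

theorem Slt.bas {δ : ℝ} {F P M : Set Pt} {G : ℂ → ℂ} {w z₀ : ℂ} {R₀ c₀ : ℝ}
    (h : Slt δ F P M G w z₀ R₀ c₀) : Bas G w z₀ R₀ c₀ (um δ F M) where
  diff := h.diff
  inj := h.inj
  bdd := h.bdd
  pt := h.pt
  val := h.val
  sub := h.sub
  meas := (um_meas δ (mh F M)).neg
  le := fun z => by
    unfold um
    rw [abs_neg]
    exact mh_abs h.arcs _

theorem Slt.box {δ : ℝ} {F P M : Set Pt} {G : ℂ → ℂ} {w z₀ : ℂ} {R₀ c₀ : ℝ}
    (h : Slt δ F P M G w z₀ R₀ c₀) {z : ℂ} {s : ℝ} (hs : ball z s ⊆ G '' HP) {N : ℤ}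
    (hN : 0 ≤ N) (hδ : δ * (2 * N + 4) < s) : bx (rd δ (tp z)) N ⊆ F := by
  intro v' hv'
  by_contra hc
  obtain ⟨y, hy, hyv⟩ := h.inn v' hc
  refine hy (hs ?_)
  rw [mem_ball, dist_eq_norm]
  have h1 := norm_PP_le h.dpos hv'
  have h2 := norm_rd h.dpos z
  have h3 : ‖y - z‖ ≤ ‖y - PP δ v'‖ + ‖PP δ v' - PP δ (rd δ (tp z))‖ +
      ‖PP δ (rd δ (tp z)) - z‖ := by
    have e : y - z = (y - PP δ v') + (PP δ v' - PP δ (rd δ (tp z))) +
        (PP δ (rd δ (tp z)) - z) := by ring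
    rw [e]
    exact norm_add₃_le
  have h4 : 2 * δ + 2 * δ * N + 2 * δ = δ * (2 * N + 4) := by ring
  linarith

/-- Landing in the plane from landing on the lattice, one sign. -/
theorem land_aux (hS : ∀ᶠ i in l, Slt (δ i) (F i) (P i) (M i) (G i) (w i) z₀ R₀ c₀)
    (hδ : Tendsto δ l (𝓝 0)) {θ₀ σ : ℝ} {X : ι → Set Pt}
    (hX : ∀ i, Slt (δ i) (F i) (P i) (M i) (G i) (w i) z₀ R₀ c₀ →
      ∀ v ∈ F i, ∀ (R : ℤ) (v' m : Pt), Conn (F i ∩ bx v R) v v' → Adj v' m → m ∈ X i →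
        Wall (G i) θ₀ (PP (δ i) v) (2 * δ i * (R + 2)))
    (hL : ∀ η : ℝ, 0 < η → ∃ c : ℝ, 0 < c ∧ ∃ N₀ : ℤ, 1 ≤ N₀ ∧ ∀ i,
      Slt (δ i) (F i) (P i) (M i) (G i) (w i) z₀ R₀ c₀ → ∀ v ∈ F i, ∀ R : ℤ, N₀ ≤ R →
        bx v N₀ ⊆ F i → (∃ y, y ∉ F i ∧ ∃ r : ℤ, (r : ℝ) ≤ c * R ∧ y ∈ bx v r) →
        (∀ x ∈ Cl (F i ∩ bx v R) {v}, ∀ y ∈ X i, ¬ Adj x y) →
          1 - η ≤ σ * (- mh (F i) (M i) v)) :
    Land l G (fun i => um (δ i) (F i) (M i)) θ₀ σ := by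
  intro η hη
  obtain ⟨c, hc, N₀, hN₀, h1⟩ := hL η hη
  refine ⟨c / 64, by positivity, fun R hR s hs => ?_⟩
  have hN0 : (1 : ℝ) ≤ N₀ := by exact_mod_cast hN₀
  -- smallness of the mesh
  set e : ℝ := min (s / (2 * N₀ + 4)) (min (R / (16 * (N₀ + 1))) (min (c * R / (64 * (c + 8)))
    (min (s / 4) (R / 32)))) with he
  have he0 : 0 < e := by
    refine lt_min (by positivity) (lt_min (by positivity) (lt_min (by positivity)
      (lt_min (by positivity) (by positivity))))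
  have hev : ∀ᶠ i in l, δ i < e := hδ.eventually (gt_mem_nhds he0)
  filter_upwards [hS, hev] with i hi hie z hz1 hz2 hz3
  have hd := hi.dpos
  have a1 : δ i < s / (2 * N₀ + 4) := hie.trans_le (min_le_left _ _)
  have a2 : δ i < R / (16 * (N₀ + 1)) := hie.trans_le ((min_le_right _ _).trans (min_le_left _ _))
  have a3 : δ i < c * R / (64 * (c + 8)) := hie.trans_le
    ((min_le_right _ _).trans ((min_le_right _ _).trans (min_le_left _ _)))
  have a4 : δ i < s / 4 := hie.trans_le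
    ((min_le_right _ _).trans ((min_le_right _ _).trans ((min_le_right _ _).trans
      (min_le_left _ _))))
  have a5 : δ i < R / 32 := hie.trans_le
    ((min_le_right _ _).trans ((min_le_right _ _).trans ((min_le_right _ _).trans
      (min_le_right _ _))))
  rw [lt_div_iff₀ (by positivity)] at a1 a2 a3
  set v := rd (δ i) (tp z) with hv
  set Rl : ℤ := ⌊R / (16 * δ i)⌋ with hRl
  have hRl1 : (Rl : ℝ) ≤ R / (16 * δ i) := Int.floor_le _
  have hRl2 : R / (16 * δ i) < Rl + 1 := Int.lt_floor_add_one _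
  have hbox : bx v N₀ ⊆ F i := hi.box hz1 (by omega) a1
  have hvF : v ∈ F i := hbox ⟨by simp; omega, by simp; omega⟩
  have hNR : N₀ ≤ Rl := by
    rw [hRl, Int.le_floor, le_div_iff₀ (by positivity)]
    nlinarith
  have hnv := norm_rd hd z
  rw [← hv] at hnv
  have key := h1 i hi v hvF Rl hNR hbox ?_ ?_
  · exact key
  · -- a vertex off `F` close to `v`
    obtain ⟨y, hyb, hyO⟩ := Set.not_subset.1 hz2
    obtain ⟨v', hv', hyv'⟩ := hi.out y hyO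
    rw [mem_ball, dist_eq_norm] at hyb
    have h3 : ‖PP (δ i) v' - PP (δ i) v‖ ≤ δ i * (c * R / (64 * δ i) + 4) := by
      have e1 : PP (δ i) v' - PP (δ i) v = -(y - PP (δ i) v') + (y - z) + -(PP (δ i) v - z) := by
        ring
      rw [e1]
      refine norm_add₃_le.trans ?_
      rw [norm_neg, norm_neg]
      have e2 : δ i * (c * R / (64 * δ i) + 4) = c / 64 * R + 4 * δ i := by
        field_simp
      rw [e2]
      linarith
    have h4 := mem_bx_of_norm hd (by positivity) h3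
    refine ⟨v', hv', _, ?_, h4⟩
    refine (Int.floor_le _).trans ?_
    -- `2 (c R / (64 δ) + 4) ≤ c Rl`
    have h5 : c * (R / (16 * δ i)) - c ≤ c * Rl := by nlinarith
    refine le_trans ?_ h5
    have h6 : c * R / (64 * δ i) = c * (R / (16 * δ i)) / 4 := by
      field_simp; norm_num
    have h7 : 8 + c ≤ c * (R / (16 * δ i)) / 2 := by
      rw [mul_div_assoc', div_div, le_div_iff₀ (by positivity)]
      nlinarith
    rw [h6]
    linarith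
  · intro x hx y hy hxy
    obtain ⟨v0, hv0, hconn⟩ := hx
    rw [mem_singleton_iff] at hv0
    subst hv0
    have hw := hX i hi _ hvF Rl x y hconn hxy hy
    refine hz3 ?_
    set d : ℝ := min s (R / 8) with hdd
    have hd0 : 0 < d := lt_min hs (by positivity)
    have hvz : PP (δ i) v ∈ ball z d := by
      rw [mem_ball, dist_eq_norm]
      refine hnv.trans_lt (lt_min (by linarith) (by linarith))
    have h8 := wall_move hi.diff hi.inj (x₀ := z) (d := d) (z := z) (z' := PP (δ i) v)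
      ((ball_subset_ball (min_le_left _ _)).trans hz1) (mem_ball_self hd0) hvz hw
    refine h8.mono ?_
    have h9 : d ≤ R / 8 := min_le_right _ _
    have h10 : 2 * δ i * Rl ≤ R / 8 := by
      calc 2 * δ i * Rl ≤ 2 * δ i * (R / (16 * δ i)) :=
            mul_le_mul_of_nonneg_left hRl1 (by positivity)
        _ = R / 8 := by field_simp; norm_num
    have h11 : 2 * δ i * (Rl + 2) = 2 * δ i * Rl + 4 * δ i := by ring
    rw [h11]
    linarith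

/-- **The observable**, along a filter. -/
theorem obs_fil (hS : ∀ᶠ i in l, Slt (δ i) (F i) (P i) (M i) (G i) (w i) z₀ R₀ c₀)
    (hδ : Tendsto δ l (𝓝 0)) (hR : 0 < R₀) (hc : 0 < c₀) (hLV : S_landv)
    (hSD : ∀ ψ, TestOn univ ψ → ∀ r : ℝ, 0 < r → ∀ ε : ℝ, 0 < ε → ∀ᶠ i in l,
      (∀ v : Pt, (∃ z ∈ tsupport ψ, dist (dp (δ i) v) z ≤ r) → v ∈ F i) →
        |hv (δ i) (lap ψ) (mh (F i) (M i))| ≤ ε)
    {r₁ : ℝ} (hr : 0 < r₁) (hr2 : 2 * r₁ < c₀) :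
    Tendsto (fun i => hv (δ i) (bump r₁ (tp z₀)) (mh (F i) (M i)) -
      (2 / Real.pi * Complex.arg (w i) - 1)) l (𝓝 0) := by
  have hB : ∀ᶠ i in l, Bas (G i) (w i) z₀ R₀ c₀ (um (δ i) (F i) (M i)) :=
    hS.mono fun i hi => hi.bas
  have hpos : ∀ᶠ i in l, 0 < δ i := hS.mono fun i hi => hi.dpos
  have hriem : ∀ f : ℝ × ℝ → ℝ, Continuous f → HasCompactSupport f → ∀ ε : ℝ, 0 < ε →
      ∀ᶠ i in l, |(∫ y, um (δ i) (F i) (M i) y * f y) + hv (δ i) f (mh (F i) (M i))| ≤ ε := by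
    intro f hf hfc ε hε
    obtain ⟨δ₀, hδ₀, h1⟩ := um_hv hf hfc hε
    filter_upwards [hS, hδ.eventually (gt_mem_nhds hδ₀)] with i hi hid
    have h2 := h1 (δ i) hi.dpos hid (mh (F i) (M i)) (fun v => mh_abs hi.arcs v)
    have e : ∫ y, um (δ i) (F i) (M i) y * f y = - ∫ y, mh (F i) (M i) (rd (δ i) y) * f y := by
      rw [← integral_neg]
      congr 1
      funext y
      unfold um
      ring
    rw [e, ← abs_neg]
    convert h2 using 2
    ring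
  have hW : WHarm l G (fun i => um (δ i) (F i) (M i)) := by
    intro ψ hψ r hr ε hε
    have hr4 : 0 < r / 4 := by positivity
    filter_upwards [hS, hSD ψ hψ (r / 4) hr4 (ε / 2) (by positivity),
      hriem (lap ψ) hψ.lap.cont hψ.lap.cs (ε / 2) (by positivity),
      hδ.eventually (gt_mem_nhds (show (0 : ℝ) < r / 8 by positivity))] with i hi h1 h2 h3 h4
    have h5 := h1 (fun v hv => by
      obtain ⟨z, hz, hvz⟩ := hv
      by_contra hc
      obtain ⟨y, hy, hyv⟩ := hi.inn v hc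
      refine hy (h4 z hz ?_)
      rw [mem_ball, dist_eq_norm]
      have h6 : ‖PP (δ i) v - tc z‖ ≤ 2 * (r / 4) := by
        rw [PP_eq, ← norm_neg, neg_sub]
        have : z ∈ closedBall (tp (tc (dp (δ i) v))) (r / 4) := by
          rw [tp_tc, mem_closedBall, dist_comm]; exact hvz
        exact norm_tc_sub this
      have h7 : ‖y - tc z‖ ≤ ‖y - PP (δ i) v‖ + ‖PP (δ i) v - tc z‖ := by
        have e : y - tc z = (y - PP (δ i) v) + (PP (δ i) v - tc z) := by ring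
        rw [e]; exact norm_add_le _ _
      linarith)
    rw [abs_le] at h5 h2 ⊢
    constructor <;> linarith [h5.1, h5.2, h2.1, h2.2]
  have hL1 : Land l G (fun i => um (δ i) (F i) (M i)) Real.pi 1 := by
    refine land_aux (X := P) hS hδ (fun i hi => hi.sP) fun η hη => ?_
    obtain ⟨c, hc, N₀, hN₀, h1⟩ := hLV η hη
    refine ⟨c, hc, N₀, hN₀, fun i hi v hv R hR hb hy hP => ?_⟩
    have := landv_neg h1 hi.arcs hv hR hb hy hP
    linarith
  have hL2 : Land l G (fun i => um (δ i) (F i) (M i)) 0 (-1) := by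
    refine land_aux (X := M) hS hδ (fun i hi => hi.sM) fun η hη => ?_
    obtain ⟨c, hc, N₀, hN₀, h1⟩ := hLV η hη
    refine ⟨c, hc, N₀, hN₀, fun i hi v hv R hR hb hy hP => ?_⟩
    have := h1 _ _ _ hi.arcs v hv R hR hb hy hP
    linarith
  have key := core hB hR hc hW hL1 hL2 hr hr2
  have hbt : TestOn univ (bump r₁ (tp z₀)) := bump_test hr (subset_univ _)
  have hrm : Tendsto (fun i => (∫ y, um (δ i) (F i) (M i) y * bump r₁ (tp z₀) y) +
      hv (δ i) (bump r₁ (tp z₀)) (mh (F i) (M i))) l (𝓝 0) := by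
    rw [Metric.tendsto_nhds]
    intro ε hε
    filter_upwards [hriem _ hbt.cont hbt.cs (ε / 2) (by positivity)] with i hi
    rw [Real.dist_eq, sub_zero]
    linarith
  have := hrm.sub key
  rw [sub_zero] at this
  refine this.congr fun i => ?_
  ring

end Vale.Agent.P153.R2.OBSV
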