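import Vale.Agent.P153.R2.DRV.Stmt
import Vale.Agent.P153.R2.OBSV.Lat
import Vale.Agent.P153.R2.FLDI.Riem

/-!
P153, block OBSV: the proof of `DRV.S_obs` from the inputs of the other blocks.
-/

set_option autoImplicit false
set_option linter.all false

namespace Vale.Agent.P153.R2.OBSV

open Filter Topology Set Metric MeasureTheory
open Vale.Agent.P145.PT Vale.Agent.P153.F.Top
open Vale.Agent.P153 Vale.Agent.P153.R2
open Vale.Agent.P153.Topo (Conn)
open Vale.Agent.P153.R2.INTF (PP Arcs CA Fk Rk Lk)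
open Vale.Agent.P153.R2.Final (toC region circ IsUniformizer Approx IsPolygon Encloses)
open Vale.Agent.P153.R2.FLDI (inn)
open Vale.Agent.P153.R2.DRV

/-! ### Inputs -/

/-- The domain off the curve up to the step `j`. -/
noncomputable def Os {n : ℕ} (δ : ℝ) (p : ZMod n → ℤ × ℤ) (S : Finset Final.Tri) (h : Hg) (j : ℕ) :
    Set ℂ := (toC '' interior (region δ S)) \ (pl δ (ru p S h) '' Icc (0 : ℝ) j)

/-- The conformal map of the upper half-plane onto the domain off the curve, `0 ↦ tip`. -/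
noncomputable def Fm {n : ℕ} (ψ : ℂ → ℂ) (δ : ℝ) (p : ZMod n → ℤ × ℤ) (S : Finset Final.Tri)
    (h : Hg) (j : ℕ) (w : ℂ) : ℂ :=
  ψ (L1.inv (et ψ δ p S h '' Icc 0 (j : ℝ)) (L2.gg (et ψ δ p S h) j) (w + (wd ψ δ p S h j : ℂ)))

/-- INPUT (helper605): the curve in the half-plane. -/
def S_crv : Prop := ∀ (n k : ℕ) (p : ZMod n → ℤ × ℤ) (S : Finset Final.Tri) (δ : ℝ) (ψ : ℂ → ℂ),
  0 < δ → 0 < k → k < n → IsPolygon p → Encloses p S → UNIQ.IsUnifD p k S δ ψ →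
    ∀ h ∈ Cs p k S, L2.Crv (et ψ δ p S h) (nu p S h) ∧
      ∀ t ∈ Ico (0 : ℝ) (nu p S h), ψ (et ψ δ p S h t) = pl δ (ru p S h) t

/-- INPUT (helper639, helper113): geometry of the slit domains. -/
def S_geo : Prop := ∀ (n k : ℕ) (p : ZMod n → ℤ × ℤ) (S : Finset Final.Tri) (δ : ℝ),
  0 < δ → 0 < k → k < n → IsPolygon p → Encloses p S → ∀ h ∈ Cs p k S, ∀ j : ℕ, j < nu p S h →
    Arcs (Fk (inn p S) h S (st p S) j) (Pn p k S ∪ Lk h S (st p S) j)
      (Mn p k S ∪ Rk h S (st p S) j) ∧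
    (∀ v, v ∉ Fk (inn p S) h S (st p S) j → ∃ y, y ∉ Os δ p S h j ∧ ‖y - PP δ v‖ ≤ 2 * δ) ∧
    (∀ y, y ∉ Os δ p S h j → ∃ v, v ∉ Fk (inn p S) h S (st p S) j ∧ ‖y - PP δ v‖ ≤ 2 * δ) ∧
    ∀ v ∈ Fk (inn p S) h S (st p S) j, PP δ v ∈ closure (toC '' interior (region δ S))

/-- INPUT (helper113): the two sides. -/
def S_side : Prop := ∀ (n k : ℕ) (p : ZMod n → ℤ × ℤ) (S : Finset Final.Tri) (δ : ℝ) (ψ : ℂ → ℂ),
  0 < δ → 0 < k → k < n → IsPolygon p → Encloses p S → UNIQ.IsUnifD p k S δ ψ →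
    ∀ h ∈ Cs p k S, ∀ j : ℕ, j < nu p S h → ∀ v ∈ Fk (inn p S) h S (st p S) j,
      ∀ (R : ℤ) (v' m : Pt), Conn (Fk (inn p S) h S (st p S) j ∩ bx v R) v v' → Adj v' m →
        (m ∈ Pn p k S ∪ Lk h S (st p S) j →
          Wall (Fm ψ δ p S h j) Real.pi (PP δ v) (2 * δ * (R + 2))) ∧
        (m ∈ Mn p k S ∪ Rk h S (st p S) j →
          Wall (Fm ψ δ p S h j) 0 (PP δ v) (2 * δ * (R + 2)))

/-- INPUT (helper506, helper443): the mean heights in arc domains are asymptotically weakly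
harmonic, uniformly. -/
def S_slitsd : Prop := ∀ (R₀ : ℝ) (ψ : ℝ × ℝ → ℝ), TestOn univ ψ → ∀ r : ℝ, 0 < r → ∀ ε : ℝ,
  0 < ε → ∃ δ₀ : ℝ, 0 < δ₀ ∧ ∀ δ, 0 < δ → δ < δ₀ → ∀ F P M : Set Pt, Arcs F P M →
    (∀ v ∈ F, ‖dp δ v‖ ≤ R₀) → (∀ v : Pt, (∃ z ∈ tsupport ψ, dist (dp δ v) z ≤ r) → v ∈ F) →
      |hv δ (lap ψ) (mh F M)| ≤ ε

/-! ### Linearity of the smeared heights -/

theorem exists_sum {f : ℝ × ℝ → ℝ} (hc : HasCompactSupport f) {δ : ℝ} (hδ : 0 < δ) :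
    ∃ s : Finset (ℤ × ℤ), ∀ ω : Om, hv δ f ω = δ ^ 2 * ∑ v ∈ s, ω v * tl f (δ * v.1, δ * v.2) := by
  obtain ⟨R, hR⟩ := hc.isBounded.subset_ball (0 : ℝ × ℝ)
  refine ⟨FLDI.Bx δ R, fun ω => ?_⟩
  rw [FLDI.hv_Bx hδ (R := R) fun z hz => hR (subset_tsupport _ (Function.mem_support.2 hz))]
  rfl

theorem hv_Ex {f : ℝ × ℝ → ℝ} (hc : HasCompactSupport f) {δ : ℝ} (hδ : 0 < δ) (T : Set Hg) :
    hv δ f (fun v => Ex T fun h => (h v : ℝ)) = Ex T fun h => hv δ f fun v => (h v : ℝ) := by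
  obtain ⟨s, hs⟩ := exists_sum hc hδ
  rw [hs]
  simp_rw [hs]
  rw [Ex_const_mul, Ex_sum]
  congr 1
  refine Finset.sum_congr rfl fun v _ => ?_
  rw [mul_comm, ← Ex_const_mul]
  refine Ex_congr fun h _ => ?_
  ring

/-! ### Conformal maps -/

section Maps

variable {Φ : (ℝ × ℝ) ≃ₜ (ℝ × ℝ)} {ψ : ℂ → ℂ} {δ : ℕ → ℝ} {N k : ℕ → ℕ}
  {p : ∀ n, ZMod (N n) → ℤ × ℤ} {S : ℕ → Finset Final.Tri} {ψn : ℕ → ℂ → ℂ}

/-- The points away from `z` are mapped away from `ψ z`. -/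
theorem sep (huinj : UNIQ.I_uinj) (hu : IsUniformizer Φ ψ) {z : ℂ} (hz : 0 < z.im) {r : ℝ}
    (hr : 0 < r) : ∃ d : ℝ, 0 < d ∧ ∀ y : ℂ, 0 ≤ y.im → r ≤ ‖y - z‖ → d ≤ ‖ψ y - ψ z‖ := by
  obtain ⟨hinj, hb⟩ := huinj Φ ψ hu
  obtain ⟨-, -, -, hcont, -, hinf⟩ := hu
  have hbz : 0 < ‖UNIQ.bpt Φ - ψ z‖ := by
    rw [norm_pos_iff, sub_ne_zero]
    exact fun h => hb z hz.le h.symm
  -- near infinity
  have h1 : ∀ᶠ y in Bornology.cobounded ℂ ⊓ 𝓟 {z : ℂ | 0 ≤ z.im},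
      ‖UNIQ.bpt Φ - ψ z‖ / 2 ≤ ‖ψ y - ψ z‖ := by
    have h2 := hinf.eventually (ball_mem_nhds (UNIQ.bpt Φ) (half_pos hbz))
    filter_upwards [h2] with y hy
    rw [dist_eq_norm] at hy
    have h3 : ‖UNIQ.bpt Φ - ψ z‖ ≤ ‖ψ y - UNIQ.bpt Φ‖ + ‖ψ y - ψ z‖ := by
      rw [← norm_neg (ψ y - UNIQ.bpt Φ)]
      have e : UNIQ.bpt Φ - ψ z = -(ψ y - UNIQ.bpt Φ) + (ψ y - ψ z) := by ring
      rw [e]
      exact norm_add_le _ _
    have h4 : ‖ψ y - UNIQ.bpt Φ‖ < ‖UNIQ.bpt Φ - ψ z‖ / 2 := hy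
    linarith
  rw [eventually_inf_principal] at h1
  obtain ⟨R, hR⟩ := (Metric.hasBasis_cobounded_compl_closedBall (0 : ℂ)).eventually_iff.1 h1
    |>.imp fun R h => h.2
  -- the compact part
  set K : Set ℂ := {y | 0 ≤ y.im} ∩ closedBall 0 R ∩ {y | r ≤ ‖y - z‖} with hK
  have hKc : IsCompact K := by
    rw [hK, inter_assoc]
    refine IsCompact.inter_left ?_ (isClosed_le continuous_const Complex.continuous_im)
    exact (isCompact_closedBall _ _).inter_right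
      (isClosed_le continuous_const (continuous_id.sub continuous_const).norm)
  have hKcont : ContinuousOn (fun y => ‖ψ y - ψ z‖) K :=
    ((hcont.mono fun y hy => hy.1.1).sub continuousOn_const).norm
  have hmin : ∃ d : ℝ, 0 < d ∧ ∀ y ∈ K, d ≤ ‖ψ y - ψ z‖ := by
    rcases K.eq_empty_or_nonempty with he | hne
    · exact ⟨1, one_pos, fun y hy => by rw [he] at hy; exact absurd hy (notMem_empty y)⟩
    · obtain ⟨y0, hy0, hm⟩ := hKc.exists_isMinOn hne hKcont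
      refine ⟨‖ψ y0 - ψ z‖, ?_, fun y hy => hm hy⟩
      rw [norm_pos_iff, sub_ne_zero]
      intro h
      have e := hinj hy0.1.1 hz.le h
      have := hy0.2
      rw [mem_ofPred_eq, e, sub_self, norm_zero] at this
      linarith
  obtain ⟨d, hd, hdm⟩ := hmin
  refine ⟨min d (‖UNIQ.bpt Φ - ψ z‖ / 2), lt_min hd (half_pos hbz), fun y hy hyr => ?_⟩
  by_cases hyR : y ∈ closedBall (0 : ℂ) R
  · exact (min_le_left _ _).trans (hdm y ⟨⟨hy, hyR⟩, hyr⟩)
  · exact (min_le_right _ _).trans (hR hyR hy)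

/-- The uniformizer is bounded. -/
theorem unif_bdd (hu : IsUniformizer Φ ψ) : ∃ R₀ : ℝ, 0 < R₀ ∧ ∀ z : ℂ, 0 < z.im → ‖ψ z‖ ≤ R₀ := by
  obtain ⟨-, -, himg, -, -, -⟩ := hu
  obtain ⟨C, hC⟩ := (FLDI.domF_bdd (Φ := Φ)).exists_norm_le
  have hC' : ∀ z ∈ Final.dom Φ, ‖z‖ ≤ C := hC
  refine ⟨2 * |C| + 1, by positivity, fun z hz => ?_⟩
  have h1 : ψ z ∈ toC '' Final.dom Φ := by
    rw [← himg]; exact mem_image_of_mem _ hz
  obtain ⟨y, hy, he⟩ := h1
  rw [← he]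
  have h2 := hC' y hy
  rw [Prod.norm_def, max_le_iff, Real.norm_eq_abs, Real.norm_eq_abs] at h2
  have h3 := Complex.norm_le_abs_re_add_abs_im (toC y)
  have e1 : (toC y).re = y.1 := rfl
  have e2 : (toC y).im = y.2 := rfl
  rw [e1, e2] at h3
  have h4 := le_abs_self C
  linarith [h2.1, h2.2]

/-- Discs in the domain are eventually in the lattice domains. -/
theorem disc_sub (hu : IsUniformizer Φ ψ) (ha : Approx Φ δ N k p S) {z : ℂ} (hz : 0 < z.im) :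
    ∃ e : ℝ, 0 < e ∧ ∀ᶠ n in atTop, ball (ψ z) e ⊆ toC '' interior (region (δ n) (S n)) := by
  obtain ⟨-, -, himg, -, -, -⟩ := hu
  have h1 : ψ z ∈ toC '' Final.dom Φ := by
    rw [← himg]; exact mem_image_of_mem _ hz
  obtain ⟨y, hy, he⟩ := h1
  obtain ⟨e, he0, hes⟩ := Metric.isOpen_iff.1 (FLDI.domF_open (Φ := Φ)) y hy
  have hcomp : IsCompact (closedBall y (e / 2)) := isCompact_closedBall _ _
  have hsub : closedBall y (e / 2) ⊆ Final.dom Φ :=
    (closedBall_subset_ball (by linarith)).trans hes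
  refine ⟨e / 2, by positivity, ?_⟩
  filter_upwards [ha.2.2.2 _ hsub hcomp] with n hn
  intro x hx
  refine ⟨tp x, ?_, rfl⟩
  rw [mem_interior]
  refine ⟨ball y (e / 2), ball_subset_closedBall.trans hn, isOpen_ball, ?_⟩
  rw [mem_ball, dist_eq_norm] at hx ⊢
  rw [← he] at hx
  rw [Prod.norm_def, max_lt_iff, Real.norm_eq_abs, Real.norm_eq_abs]
  have e1 : (tp x - y).1 = (x - toC y).re := rfl
  have e2 : (tp x - y).2 = (x - toC y).im := rfl
  rw [e1, e2]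
  exact ⟨(Complex.abs_re_le_norm _).trans_lt hx, (Complex.abs_im_le_norm _).trans_lt hx⟩

end Maps

/-- The conformal maps onto the slit domains. -/
theorem slit_maps {n k : ℕ} {p : ZMod n → ℤ × ℤ} {S : Finset Final.Tri} {δ : ℝ} {ψ : ℂ → ℂ}
    (hcrv : S_crv) (hδ : 0 < δ) (hk : 0 < k) (hkn : k < n) (hp : IsPolygon p) (hS : Encloses p S)
    (hu : UNIQ.IsUnifD p k S δ ψ) {h : Hg} (hh : h ∈ Cs p k S) {j : ℕ} (hj : j < nu p S h) :
    DifferentiableOn ℂ (Fm ψ δ p S h j) HP ∧ InjOn (Fm ψ δ p S h j) HP ∧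
      Fm ψ δ p S h j '' HP = Os δ p S h j ∧
      ∀ z : ℂ, 0 < z.im → ψ z ∉ pl δ (ru p S h) '' Icc (0 : ℝ) j →
        0 < (gc ψ δ p S h j z).im ∧ Fm ψ δ p S h j (gc ψ δ p S h j z) = ψ z := by
  obtain ⟨hC, hpl⟩ := hcrv n k p S δ ψ hδ hk hkn hp hS hu h hh
  have hjt : (j : ℝ) ∈ Ico (0 : ℝ) (nu p S h) := ⟨Nat.cast_nonneg _, by exact_mod_cast hj⟩
  have hyd := hC.hydro hjt
  set K := et ψ δ p S h '' Icc 0 (j : ℝ) with hK
  set g := L2.gg (et ψ δ p S h) j with hg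
  set W : ℝ := wd ψ δ p S h j with hW
  have hsh : ∀ w ∈ HP, w + (W : ℂ) ∈ L1.HH := fun w hw => by
    rw [L1.mem_HH, Complex.add_im, Complex.ofReal_im, add_zero]; exact hw
  have hsub : Icc (0 : ℝ) j ⊆ Ico (0 : ℝ) (nu p S h) := fun t ht => ⟨ht.1, ht.2.trans_lt hjt.2⟩
  have hKim : ∀ x ∈ K, 0 ≤ x.im := by
    rintro _ ⟨t, ht, rfl⟩
    rcases ht.1.eq_or_lt with h0 | h0
    · rw [← h0, hC.start]
    · exact (hC.im_pos t ⟨h0, (hsub ht).2⟩).le
  have hψK : ψ '' K = pl δ (ru p S h) '' Icc (0 : ℝ) j := by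
    rw [hK, image_image]
    exact image_congr fun t ht => hpl t (hsub ht)
  have hψi : ∀ x : ℂ, 0 < x.im → (ψ x ∈ ψ '' K ↔ x ∈ K) := by
    intro x hx
    constructor
    · rintro ⟨y, hy, he⟩
      have := hu.injOn (hKim y hy) hx.le he
      rwa [← this]
    · exact fun hx' => mem_image_of_mem _ hx'
  have hdiff : DifferentiableOn ℂ (Fm ψ δ p S h j) HP := by
    unfold Fm
    refine hu.diff.comp (t := L1.HH) ?_ ?_
    · exact hyd.inv_diff.comp (by fun_prop) hsh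
    · intro w hw
      exact (hyd.inv_mem (hsh w hw)).1
  refine ⟨hdiff, ?_, ?_, ?_⟩
  · intro a ha b hb hab
    have h1 := hyd.inv_mem (hsh a ha)
    have h2 := hyd.inv_mem (hsh b hb)
    have h3 := hu.injOn (show 0 ≤ (L1.inv K g (a + (W : ℂ))).im from h1.1.le)
      (show 0 ≤ (L1.inv K g (b + (W : ℂ))).im from h2.1.le) hab
    have h4 := congrArg g h3
    rw [hyd.g_inv (hsh a ha), hyd.g_inv (hsh b hb)] at h4
    exact add_right_cancel h4
  · have e1 : Fm ψ δ p S h j '' HP = ψ '' (L1.HH \ K) := by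
      rw [← hyd.inv_image, image_image]
      ext y
      constructor
      · rintro ⟨w, hw, rfl⟩
        exact ⟨w + (W : ℂ), hsh w hw, rfl⟩
      · rintro ⟨w, hw, rfl⟩
        refine ⟨w - (W : ℂ), ?_, ?_⟩
        · rw [HP, mem_ofPred_eq, Complex.sub_im, Complex.ofReal_im, sub_zero]; exact hw
        · unfold Fm
          rw [sub_add_cancel]
    rw [e1, Os, ← hψK, ← hu.image]
    ext y
    constructor
    · rintro ⟨x, ⟨hx1, hx2⟩, rfl⟩
      exact ⟨mem_image_of_mem _ hx1, fun hc => hx2 ((hψi x hx1).1 hc)⟩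
    · rintro ⟨⟨x, hx, rfl⟩, hy⟩
      exact ⟨x, ⟨hx, fun hc => hy ((hψi x hx).2 hc)⟩, rfl⟩
  · intro z hz hzn
    rw [← hψK, hψi z hz] at hzn
    have hzK : z ∈ L1.HH \ K := ⟨hz, hzn⟩
    have h1 : g z ∈ L1.HH := hyd.mapsTo hzK
    constructor
    · unfold gc
      rw [Complex.sub_im, Complex.ofReal_im, sub_zero]
      exact h1
    · unfold gc Fm
      rw [sub_add_cancel]
      congr 1
      exact hyd.inv_g hzK

/-- **The observable**: the input `S_obs` of the block DRV. -/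
theorem s_obs (hcrv : S_crv) (hgeo : S_geo) (hside : S_side) (huinj : UNIQ.I_uinj)
    (hSD : S_slitsd) (hLV : S_landv) : S_obs := by
  intro Φ ψ δ N k p S ψn hset z T R hz hT hR hTz
  obtain ⟨hu, ha, huD, hconv⟩ := hset
  have hpoly : ∀ n, 0 < δ n ∧ 0 < k n ∧ k n < N n ∧ IsPolygon (p n) ∧ Encloses (p n) (S n) := ha.1
  -- constants
  obtain ⟨d, hd, hsep⟩ := sep huinj hu hz (half_pos hz)
  obtain ⟨R₁, hR₁, hbd⟩ := unif_bdd hu
  obtain ⟨e, he, hball⟩ := disc_sub hu ha hz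
  set z₀ := ψ z with hz₀
  set R₀ := R₁ + 1 with hR₀
  set c₀ := min (d / 2) e with hc₀
  have hc₀p : 0 < c₀ := lt_min (by positivity) he
  set r₁ := c₀ / 4 with hr₁
  have hr₁p : 0 < r₁ := by positivity
  -- the points
  set zn : ℕ → ℂ := fun n => Function.invFunOn (ψn n) HP z₀ with hzn
  have hmem : ∀ᶠ n in atTop, zn n ∈ HP ∧ ψn n (zn n) = z₀ := by
    filter_upwards [hball] with n hn
    have h1 : z₀ ∈ ψn n '' HP := by
      have h2 := hn (mem_ball_self he)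
      rw [← (huD n).image] at h2
      exact h2
    exact ⟨Function.invFunOn_mem h1, Function.invFunOn_eq h1⟩
  have htend : Tendsto zn atTop (𝓝 z) := by
    rw [Metric.tendsto_nhds]
    intro ε hε
    obtain ⟨d', hd', hsep'⟩ := sep huinj hu hz hε
    filter_upwards [hmem, hconv d' hd'] with n hn1 hn2
    by_contra hcon
    rw [not_lt, dist_eq_norm] at hcon
    have h1 := hsep' (zn n) (le_of_lt hn1.1) hcon
    have h2 := hn2 (zn n) (le_of_lt hn1.1)
    rw [hn1.2, dist_eq_norm, norm_sub_rev] at h2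
    linarith
  set G : ℕ → Hg → ℝ := fun n h => Real.pi / 2 * (1 + hv (δ n) (bump r₁ (tp z₀))
    fun v => (h v : ℝ)) with hG
  refine ⟨zn, G, htend, fun κ hκ hκn hκb => ?_⟩
  have hbt : TestOn univ (bump r₁ (tp z₀)) := bump_test hr₁p (subset_univ _)
  -- the filter
  set l : Filter (ℕ × Hg) := comap Prod.fst atTop ⊓
    𝓟 {i | i.2 ∈ Cs (p i.1) (k i.1) (S i.1)} with hl
  have hev : ∀ {q : ℕ → Prop}, (∀ᶠ n in atTop, q n) → ∀ᶠ i in l, q i.1 := by
    intro q hq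
    exact (tendsto_comap.mono_left inf_le_left).eventually hq
  have hCs : ∀ᶠ i in l, i.2 ∈ Cs (p i.1) (k i.1) (S i.1) :=
    mem_inf_of_right (mem_principal_self _)
  have hev2 : ∀ {q : ℕ → Hg → Prop}, (∀ᶠ n in atTop, ∀ h ∈ Cs (p n) (k n) (S n), q n h) →
      ∀ᶠ i in l, q i.1 i.2 := by
    intro q hq
    filter_upwards [hev hq, hCs] with i h1 h2
    exact h1 i.2 h2
  have hSlt : ∀ᶠ i in l, Slt (δ i.1) (Fk (inn (p i.1) (S i.1)) i.2 (S i.1) (st (p i.1) (S i.1))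
      (κ i.1 i.2)) (Pn (p i.1) (k i.1) (S i.1) ∪ Lk i.2 (S i.1) (st (p i.1) (S i.1)) (κ i.1 i.2))
      (Mn (p i.1) (k i.1) (S i.1) ∪ Rk i.2 (S i.1) (st (p i.1) (S i.1)) (κ i.1 i.2))
      (Fm (ψn i.1) (δ i.1) (p i.1) (S i.1) i.2 (κ i.1 i.2))
      (gc (ψn i.1) (δ i.1) (p i.1) (S i.1) i.2 (κ i.1 i.2) (zn i.1)) z₀ R₀ c₀ := by
    filter_upwards [hCs, hev hmem, hev (hconv 1 one_pos), hev (hconv (d / 2) (by positivity)),
      hev hball, hev2 hκb] with i hi h1 h2 h3 h4 h5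
    obtain ⟨hδ0, hk0, hkN, hpo, hen⟩ := hpoly i.1
    have hj := hκn i.1 i.2 hi
    obtain ⟨hC, hpl⟩ := hcrv _ _ _ _ _ _ hδ0 hk0 hkN hpo hen (huD i.1) i.2 hi
    obtain ⟨m1, m2, m3, m4⟩ := slit_maps hcrv hδ0 hk0 hkN hpo hen (huD i.1) hi hj
    obtain ⟨g1, g2, g3, g4⟩ := hgeo _ _ _ _ _ hδ0 hk0 hkN hpo hen i.2 hi _ hj
    -- the curve stays away from `z₀`
    have haway : ∀ y ∈ pl (δ i.1) (ru (p i.1) (S i.1) i.2) '' Icc (0 : ℝ) (κ i.1 i.2),
        d / 2 ≤ ‖y - z₀‖ := by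
      rintro _ ⟨t, ht, rfl⟩
      have htn : t ∈ Ico (0 : ℝ) (nu (p i.1) (S i.1) i.2) :=
        ⟨ht.1, ht.2.trans_lt (by exact_mod_cast hj)⟩
      rw [← hpl t htn]
      have hcap : L2.cc (et (ψn i.1) (δ i.1) (p i.1) (S i.1) i.2) t ≤ T + 1 := by
        refine le_trans ?_ h5.1
        exact hC.strictMono.monotoneOn htn ⟨Nat.cast_nonneg _, by exact_mod_cast hj⟩ ht.2
      have him := hC.sq_im_le htn
      set y := et (ψn i.1) (δ i.1) (p i.1) (S i.1) i.2 t with hy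
      have hy0 : 0 ≤ y.im := by
        rcases ht.1.eq_or_lt with h0 | h0
        · rw [hy, ← h0, hC.start]
        · exact (hC.im_pos t ⟨h0, htn.2⟩).le
      have hyim : y.im ≤ z.im / 2 := by
        refine abs_le_of_sq_le_sq' ?_ (by positivity) |>.2
        nlinarith
      have hyz : z.im / 2 ≤ ‖y - z‖ := by
        have h6 := Complex.abs_im_le_norm (y - z)
        rw [Complex.sub_im, abs_sub_comm] at h6
        have h7 := le_abs_self (z.im - y.im)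
        linarith
      have h8 := hsep y hy0 hyz
      have h9 := h3 y hy0
      rw [dist_eq_norm] at h9
      have h10 : ‖ψ y - ψ z‖ ≤ ‖ψn i.1 y - ψ y‖ + ‖ψn i.1 y - z₀‖ := by
        rw [← norm_neg (ψn i.1 y - ψ y)]
        have e : ψ y - ψ z = -(ψn i.1 y - ψ y) + (ψn i.1 y - z₀) := by rw [hz₀]; ring
        rw [e]
        exact norm_add_le _ _
      linarith
    have hz0n : ψn i.1 (zn i.1) ∉
        pl (δ i.1) (ru (p i.1) (S i.1) i.2) '' Icc (0 : ℝ) (κ i.1 i.2) := by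
      intro hc
      have := haway _ hc
      rw [h1.2, sub_self, norm_zero] at this
      linarith
    obtain ⟨w1, w2⟩ := m4 (zn i.1) h1.1 hz0n
    have hbn : ∀ y ∈ toC '' interior (region (δ i.1) (S i.1)), ‖y‖ ≤ R₀ := by
      intro y hy
      rw [← (huD i.1).image] at hy
      obtain ⟨x, hx, rfl⟩ := hy
      have hx' : 0 < x.im := hx
      have h6 := h2 x hx'.le
      rw [dist_eq_norm] at h6
      have h7 := hbd x hx'
      have h8 := norm_le_norm_add_norm_sub' (ψn i.1 x) (ψ x)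
      rw [hR₀]
      linarith
    refine ⟨hδ0, g1, m1, m2, fun x hx => ?_, w1, by rw [w2, h1.2], ?_, fun v hv => ?_, ?_, ?_,
      ?_, ?_⟩
    · have : Fm (ψn i.1) (δ i.1) (p i.1) (S i.1) i.2 (κ i.1 i.2) x ∈ Os (δ i.1) (p i.1) (S i.1)
          i.2 (κ i.1 i.2) := by rw [← m3]; exact mem_image_of_mem _ hx
      exact hbn _ this.1
    · rw [m3]
      intro y hy
      refine ⟨h4 (ball_subset_ball (min_le_right _ _) hy), fun hc => ?_⟩
      have h6 := haway y hc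
      rw [mem_ball, dist_eq_norm] at hy
      have h7 : c₀ ≤ d / 2 := min_le_left _ _
      linarith
    · have h6 : ‖PP (δ i.1) v‖ ≤ R₀ := by
        have h7 := g4 v hv
        have h8 : closure (toC '' interior (region (δ i.1) (S i.1))) ⊆ closedBall (0 : ℂ) R₀ :=
          closure_minimal (fun y hy => by rw [mem_closedBall_zero_iff]; exact hbn y hy)
            isClosed_closedBall
        have h9 := h8 h7
        rwa [mem_closedBall_zero_iff] at h9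
      rw [PP_eq] at h6
      rw [Prod.norm_def, max_le_iff, Real.norm_eq_abs, Real.norm_eq_abs]
      exact ⟨(Complex.abs_re_le_norm (tc (dp (δ i.1) v))).trans h6,
        (Complex.abs_im_le_norm (tc (dp (δ i.1) v))).trans h6⟩
    · intro v hv
      rw [m3]; exact g2 v hv
    · intro y hy
      rw [m3] at hy; exact g3 y hy
    · intro v hv Rl v' m hc hvm hm
      exact (hside _ _ _ _ _ _ hδ0 hk0 hkN hpo hen (huD i.1) i.2 hi _ hj v hv Rl v' m hc hvm).1 hm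
    · intro v hv Rl v' m hc hvm hm
      exact (hside _ _ _ _ _ _ hδ0 hk0 hkN hpo hen (huD i.1) i.2 hi _ hj v hv Rl v' m hc hvm).2 hm
  have hδl : Tendsto (fun i : ℕ × Hg => δ i.1) l (𝓝 0) := by
    have : Tendsto (fun i : ℕ × Hg => i.1) l atTop := tendsto_comap.mono_left inf_le_left
    exact ha.2.1.comp this
  have key := obs_fil hSlt hδl (by positivity) hc₀p hLV (fun ψ' hψ' r hr ε hε => by
    obtain ⟨δ₀, hδ₀, h1⟩ := hSD R₀ ψ' hψ' r hr ε hε
    filter_upwards [hSlt, hδl.eventually (gt_mem_nhds hδ₀)] with i hi hid hv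
    exact h1 _ hi.dpos hid _ _ _ hi.arcs hi.bF hv) hr₁p (by rw [hr₁]; linarith)
  -- uniform convergence
  rw [Metric.tendsto_nhds] at key ⊢
  intro ε hε
  have h1 := key (ε / 4) (by positivity)
  rw [hl, eventually_inf_principal, eventually_comap] at h1
  filter_upwards [h1, hmem] with n hn _
  have hδ0 := (hpoly n).1
  have hpi := Real.pi_pos
  have hpi4 := Real.pi_lt_four
  have hb : ∀ h ∈ Cs (p n) (k n) (S n),
      |(gc (ψn n) (δ n) (p n) (S n) h (κ n h) (zn n)).arg -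
        cE (p n) (k n) (S n) h (κ n h) (G n)| ≤ ε / 2 := by
    intro h hh
    have h2 := hn (n, h) rfl hh
    rw [dist_zero_right, Real.norm_eq_abs] at h2
    simp only at h2
    have hfin : (Fk (inn (p n) (S n)) h (S n) (st (p n) (S n)) (κ n h)).Finite := by
      have : (inn (p n) (S n)).Finite := Finset.finite_toSet _
      exact this.subset fun v hv => hv.1
    have e1 : cE (p n) (k n) (S n) h (κ n h) (G n) = Real.pi / 2 * (1 +
        hv (δ n) (bump r₁ (tp z₀)) (mh (Fk (inn (p n) (S n)) h (S n) (st (p n) (S n)) (κ n h))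
          (Mn (p n) (k n) (S n) ∪ Rk h (S n) (st (p n) (S n)) (κ n h)))) := by
      unfold cE mh
      rw [hv_Ex hbt.cs hδ0, hG]
      simp only
      rw [Ex_const_mul, Ex_add, Ex_const (INTF.CA_finite hfin) (CA_nonempty _ _)]
    rw [e1]
    set X := hv (δ n) (bump r₁ (tp z₀)) (mh (Fk (inn (p n) (S n)) h (S n) (st (p n) (S n)) (κ n h))
          (Mn (p n) (k n) (S n) ∪ Rk h (S n) (st (p n) (S n)) (κ n h))) with hX
    set a := (gc (ψn n) (δ n) (p n) (S n) h (κ n h) (zn n)).arg with ha'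
    have e2 : a - Real.pi / 2 * (1 + X) = -(Real.pi / 2) * (X - (2 / Real.pi * a - 1)) := by
      field_simp
      ring
    rw [e2, abs_mul, abs_neg, abs_of_pos (by positivity)]
    nlinarith [abs_nonneg (X - (2 / Real.pi * a - 1))]
  rw [dist_zero_right, Real.norm_eq_abs, abs_of_nonneg (Ex_nonneg fun h _ => abs_nonneg _)]
  have h3 : (Ex (Cs (p n) (k n) (S n)) fun h =>
      |(gc (ψn n) (δ n) (p n) (S n) h (κ n h) (zn n)).arg -
        cE (p n) (k n) (S n) h (κ n h) (G n)|) ≤ ε / 2 :=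
    Ex_le_const (by positivity) hb
  linarith

end Vale.Agent.P153.R2.OBSV
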