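import Vale.Agent.P153.R2.OBSV.OneExit
import Vale.Agent.P153.R2.OBSV.MeanH
import Vale.Agent.P153.R2.PLAN.Box
import Vale.Agent.P153.R2.LOC.MultW
import Vale.Agent.P153.R2.LOC.Link

/-!
P153, block OBSV: the landing estimate for the mean height in arc domains.
-/

set_option autoImplicit false
set_option linter.all false

namespace Vale.Agent.P153.R2.OBSV

open Set
open Vale.Agent.P153 Vale.Agent.P153.R2
open Vale.Agent.P153.Topo (Conn adj_symm)
open Vale.Agent.P153.R2.INTF (CA mem_CA CA_finite eta eta_mem eta_not eta_or Arcs)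
open Vale.Agent.P153.R2.LOC (An Co Co_subset Co_cn Wat Wat_subset NO ThkW multW Dr exists_door)
open Vale.Agent.P153.R2.PLAN (cn_bx Kd Kd_subset conn_Cl Cl_subset mean_trick)

variable {F P M : Set Pt} {v p x₀ : Pt} {r R : ℤ}

/-- The geometry of a vertex next to the positive wall: `p` next to the wall vertex `x₀`, both at
distance at most `r` from `v`, `p` joined to `v` in the box, and no negative wall seen from `v` in
the box of radius `R`. -/
structure Ngh (F M : Set Pt) (v : Pt) (r R : ℤ) (x₀ p : Pt) : Prop where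
  pos : 1 ≤ r
  rR : 3 * r ≤ R
  x0 : x₀ ∉ F
  x0b : x₀ ∈ bx v r
  adj : Adj p x₀
  con : Conn (F ∩ bx v r) v p
  neg : ∀ x ∈ Cl (F ∩ bx v R) {v}, ∀ y ∈ M, ¬ Adj x y

/-- The first vertex of the complement. -/
theorem exists_ngh (hv : v ∈ F) {y : Pt} (hy : y ∉ F) (hyb : y ∈ bx v r) (hR : 3 * r ≤ R)
    (hM : ∀ x ∈ Cl (F ∩ bx v R) {v}, ∀ y ∈ M, ¬ Adj x y) : ∃ x₀ p, Ngh F M v r R x₀ p := by
  have hr : 1 ≤ r := by
    by_contra hc
    push Not at hc
    have h1 : y = v := by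
      obtain ⟨h1, h2⟩ := hyb
      rw [abs_le] at h1 h2
      exact Prod.ext (by omega) (by omega)
    exact hy (h1 ▸ hv)
  have hvb : v ∈ bx v r := by
    constructor <;> simp <;> omega
  have key : ∀ u, Conn (bx v r) v u → Conn (F ∩ bx v r) v u ∨ ∃ x₀ p, Ngh F M v r R x₀ p := by
    intro u hu
    refine Conn.ind (S := bx v r) (fun u => Conn (F ∩ bx v r) v u ∨ ∃ x₀ p, Ngh F M v r R x₀ p)
      (Or.inl (Conn.refl ⟨hv, hvb⟩)) (fun a b ha hab hb ih => ?_) hu
    rcases ih with ih | ih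
    · by_cases hbF : b ∈ F
      · exact Or.inl (ih.tail hab ⟨hbF, hb⟩)
      · exact Or.inr ⟨b, a, hr, hR, hbF, hb, hab, ih, hM⟩
    · exact Or.inr ih
  rcases key y (cn_bx v r v hvb y hyb) with h | h
  · exact absurd h.right_mem.1 hy
  · exact h

namespace Ngh

variable (hN : Ngh F M v r R x₀ p)
include hN

theorem bx_sub : bx x₀ (R - r) ⊆ bx v R := by
  intro z hz
  have h1 := hN.x0b
  simp only [bx, mem_ofPred_eq, abs_le] at hz h1 ⊢
  omega

theorem sub_bx : bx v r ⊆ bx x₀ (2 * r) := by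
  intro z hz
  have h1 := hN.x0b
  simp only [bx, mem_ofPred_eq, abs_le] at hz h1 ⊢
  omega

theorem sub_bx' : bx v r ⊆ bx x₀ (R - r) := by
  intro z hz
  have h1 := hN.x0b
  have h2 := hN.rR
  simp only [bx, mem_ofPred_eq, abs_le] at hz h1 ⊢
  omega

theorem sub_bx'' : bx v r ⊆ bx v R := by
  intro z hz
  have h2 := hN.rR
  have h3 := hN.pos
  simp only [bx, mem_ofPred_eq, abs_le] at hz ⊢
  omega

theorem co_sub : Co F x₀ (R - r) p ⊆ Cl (F ∩ bx v R) {v} := by
  intro z hz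
  refine ⟨v, rfl, (hN.con.mono ?_).trans ?_⟩
  · exact inter_subset_inter_right _ hN.sub_bx''
  · exact (show Conn (F ∩ bx x₀ (R - r)) p z from hz).mono (inter_subset_inter_right _ hN.bx_sub)

theorem mem_co {z : Pt} (hz : z ∈ Cl (F ∩ bx v r) {v}) : z ∈ Co F x₀ (R - r) p := by
  obtain ⟨v', hv', hz⟩ := hz
  rw [mem_singleton_iff] at hv'
  subst hv'
  exact (hN.con.symm.trans hz).mono (inter_subset_inter_right _ hN.sub_bx')

theorem co_neg {z : Pt} (hz : z ∈ Co F x₀ (R - r) p) : ∀ y ∈ M, ¬ Adj z y :=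
  hN.neg z (hN.co_sub hz)

theorem thk (hA : Arcs F P M) : ThkW 0 F F x₀ (2 * r) (R - r) p (eta M) where
  fin := hA.fin
  cc := hA.cc
  sub := subset_rfl
  ne := CA_nonempty F M
  low := fun z _ => by
    rcases eta_or M z with h | h <;> rw [h] <;> norm_num
  inn := fun x hx _ => (Co_subset hx).1
  wall := fun z hz x hx hxz _ => by
    rw [eta_not fun hc => hN.co_neg hx z hc hxz]

end Ngh

/-- The blocking set. -/
def Bk (F : Set Pt) (r R : ℤ) (x₀ p : Pt) (h : Hg) : Set Pt :=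
  Wat F (Co F x₀ (R - r) p ∩ An x₀ (2 * r) (R - r)) 1 h

/-- **No connection in the complement of the sites attached to the positive wall.** -/
theorem block_le (hS : LOC.S_land 2) : ∀ ε : ℝ, 0 < ε → ∃ t : ℤ, 1 ≤ t ∧ ∃ r₀ : ℤ, 1 ≤ r₀ ∧
    ∀ (F P M : Set Pt) (v : Pt) (r R : ℤ) (x₀ p : Pt) (Q : Set Pt), Arcs F P M →
      Ngh F M v r R x₀ p → r₀ ≤ r → t * r ≤ R → Q ⊆ F → Disjoint Q (Co F x₀ (R - r) p) → Cn Q →
      Pr (CA F M) {h | ∃ x ∈ Cl (F ∩ bx v r) {v}, ∃ y ∈ Q, Conn (F \ Bk F r R x₀ p h) x y} ≤ ε := by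
  intro ε hε
  obtain ⟨t, ht, ρ₀, hρ₀, h⟩ := multW 0 hS ε hε
  refine ⟨2 * t + 1, by omega, ρ₀, hρ₀, ?_⟩
  intro F P M v r R x₀ p Q hA hN hr hR hQF hQW hQ
  have hpv : p ∈ Cl (F ∩ bx v r) {v} := ⟨v, rfl, hN.con⟩
  have h1 := hN.pos
  refine h F F x₀ (2 * r) (R - r) p (eta M) (Cl (F ∩ bx v r) {v}) Q (hN.thk hA) hN.x0 (by omega)
    (by nlinarith) ⟨hN.con.right_mem.1, x₀, hN.adj, hN.x0⟩ hpv
    (fun z hz => (Cl_subset hz).1) (fun z hz => hN.sub_bx (Cl_subset hz).2) ?_ hQF hQW hQ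
  intro z hz
  obtain ⟨v', hv', hz⟩ := hz
  rw [mem_singleton_iff] at hv'
  subst hv'
  have hm : v' ∈ ({v'} : Set Pt) := rfl
  exact (conn_Cl hm hN.con).symm.trans (conn_Cl hm hz)

/-- A path which leaves the blocking set and reaches the negative wall. -/
theorem reach (hA : Arcs F P M) (hN : Ngh F M v r R x₀ p) {h : Hg} (hh : h ∈ CA F M) {y : Pt}
    (hy : y ∉ F ∪ P) (hc : Conn (Kd (F ∪ P) P (-1) (sw F P h))ᶜ v y) :
    ∃ f m, m ∈ M ∧ Adj f m ∧ Conn (F \ Bk F r R x₀ p h) v f := by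
  set K := Kd (F ∪ P) P (-1) (sw F P h) with hK
  have hvF : v ∈ F := hN.con.left_mem.1
  have hPK : P ⊆ K := by
    intro z hz
    refine ⟨z, hz, Conn.refl ⟨Or.inr hz, ?_⟩⟩
    show sw F P h z ≤ -1
    unfold sw
    rw [if_neg (fun hc => Set.disjoint_left.1 hA.dFP hc hz), eta_mem hz]
  have hB : Bk F r R x₀ p h ⊆ K := by
    rintro z ⟨a, b, h1, h2, h3⟩
    have haW := h1.right_mem.1.1
    have hbP : b ∈ P := by
      rcases hA.bd a (Co_subset haW).1 b h2 with h4 | h4 | h4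
      · exact absurd h4 h3
      · exact h4
      · exact absurd h2 (hN.co_neg haW b h4)
    refine ⟨b, hbP, ?_⟩
    have hs : (Co F x₀ (R - r) p ∩ An x₀ (2 * r) (R - r)) ∩ up h 1 ⊆
        (F ∪ P) ∩ dn (sw F P h) (-1) := by
      rintro u ⟨⟨hu1, _⟩, hu2⟩
      have huF := (Co_subset hu1).1
      have hu3 : 1 ≤ h u := hu2
      refine ⟨Or.inl huF, ?_⟩
      show sw F P h u ≤ -1
      unfold sw
      rw [if_pos huF]
      omega
    have hbS : b ∈ (F ∪ P) ∩ dn (sw F P h) (-1) := by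
      refine ⟨Or.inr hbP, ?_⟩
      show sw F P h b ≤ -1
      unfold sw
      rw [if_neg h3, eta_mem hbP]
    exact (Conn.of_adj hbS (hs h1.right_mem) (adj_symm h2)).trans (h1.mono hs).symm
  have key : ∀ u, Conn Kᶜ v u → Conn (F \ Bk F r R x₀ p h) v u ∨
      ∃ f m, m ∈ M ∧ Adj f m ∧ Conn (F \ Bk F r R x₀ p h) v f := by
    intro u hu
    refine Conn.ind (S := Kᶜ) (fun u => Conn (F \ Bk F r R x₀ p h) v u ∨
      ∃ f m, m ∈ M ∧ Adj f m ∧ Conn (F \ Bk F r R x₀ p h) v f)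
      (Or.inl (Conn.refl ⟨hvF, fun h1 => hc.left_mem (hB h1)⟩)) (fun a b ha hab hb ih => ?_) hu
    rcases ih with ih | ih
    · rcases hA.bd a ih.right_mem.1 b hab with h4 | h4 | h4
      · exact Or.inl (ih.tail hab ⟨h4, fun h1 => hb (hB h1)⟩)
      · exact absurd (hPK h4) hb
      · exact Or.inr ⟨a, b, h4, hab, ih⟩
    · exact Or.inr ih
  rcases key y hc with h1 | h1
  · exact absurd (Or.inl h1.right_mem.1) hy
  · exact h1

/-- The exit towards the negative wall. -/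
def ExM (F M W : Set Pt) : Set Pt :=
  {x | ∃ f m d, m ∈ M ∧ Adj f m ∧ d ∈ Dr F W ∧ Conn (F \ W) f d ∧ Conn (F \ W) f x}

theorem exM_sub {W : Set Pt} : ExM F M W ⊆ F \ W := by
  rintro x ⟨f, m, d, -, -, -, -, h⟩
  exact h.right_mem

theorem exM_cn (hA : Arcs F P M) (hN : Ngh F M v r R x₀ p) : Cn (ExM F M (Co F x₀ (R - r) p)) := by
  set W := Co F x₀ (R - r) p with hW
  have hin : ∀ f m d, m ∈ M → Adj f m → d ∈ Dr F W → Conn (F \ W) f d → ∀ x, Conn (F \ W) f x →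
      Conn (ExM F M W) f x := by
    intro f m d h1 h2 h3 h4 x h5
    refine Conn.ind (S := F \ W) (fun x => Conn (ExM F M W) f x) (Conn.refl
      ⟨f, m, d, h1, h2, h3, h4, Conn.refl h4.left_mem⟩) (fun a b ha hab hb ih => ?_) h5
    exact ih.tail hab ⟨f, m, d, h1, h2, h3, h4, ha.tail hab hb⟩
  rintro x ⟨f, m, d, h1, h2, h3, h4, h5⟩ y ⟨f', m', d', h1', h2', h3', h4', h5'⟩
  obtain ⟨hd1, hd2, w, hw, hwd⟩ := h3
  obtain ⟨hd1', hd2', w', hw', hwd'⟩ := h3'
  have h6 : Conn (F \ W) f f' :=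
    one_exit hA.fin hA.bd hA.cP hA.cM hA.dPM hA.dFP hA.dFM (fun z hz => (Co_subset hz).1) Co_cn
      (fun z hz => hN.co_neg hz) h4.symm hw hwd h1 h2 h4'.symm hw' hwd' h1' h2'
  exact (hin f m d h1 h2 ⟨hd1, hd2, w, hw, hwd⟩ h4 x h5).symm.trans
    (hin f m d h1 h2 ⟨hd1, hd2, w, hw, hwd⟩ h4 y (h6.trans h5'))

/-- **The landing estimate.** -/
theorem s_landv (hS : LOC.S_land 2) : S_landv := by
  intro η hη
  obtain ⟨t, ht, r₀, hr₀, hb⟩ := block_le hS (η / 2) (by positivity)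
  have ht' : (1 : ℝ) ≤ t := by exact_mod_cast ht
  refine ⟨1 / (t + 3), by positivity, r₀, hr₀, ?_⟩
  rintro F P M hA v hv R hR hbx ⟨y, hy, r, hr, hyr⟩ hM
  have hr1 : r₀ ≤ r := by
    by_contra hc
    push Not at hc
    refine hy (hbx ?_)
    simp only [bx, mem_ofPred_eq, abs_le] at hyr ⊢
    omega
  have hRr : (t + 3) * r ≤ R := by
    rw [one_div, inv_mul_eq_div, le_div_iff₀ (by positivity)] at hr
    have : ((r * (t + 3) : ℤ) : ℝ) ≤ R := by push_cast; exact hr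
    rw [mul_comm]
    exact_mod_cast this
  have h1r : 1 ≤ r := by omega
  obtain ⟨x₀, p, hN⟩ := exists_ngh (M := M) (R := R) hv hy hyr (by nlinarith) hM
  set W := Co F x₀ (R - r) p with hW
  have hQ := hb F P M v r R x₀ p (ExM F M W) hA hN hr1 (by nlinarith)
    (fun z hz => (exM_sub hz).1) (Set.disjoint_left.2 fun z hz => (exM_sub hz).2) (exM_cn hA hN)
  -- the mean trick
  have hsw := sw_bij hA
  have hfin : (F ∪ P).Finite := hA.fin.union hA.finP
  have hCA : CA F P = Cfg (F ∪ P) (exa F (eta P)) := by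
    ext g
    constructor
    · rintro ⟨g1, g2, g3⟩
      refine ⟨g1, g2, fun x hx z hxz => ?_⟩
      by_cases hxF : x ∈ F
      · exact g3 x hxF z hxz
      · by_cases hzF : z ∈ F
        · rw [abs_sub_comm]
          exact g3 z hzF x (adj_symm hxz)
        · have e1 : g x = eta P x := by
            have := g2 x
            rw [exa, if_neg hxF] at this
            exact this
          have e2 : g z = eta P z := by
            have := g2 z
            rw [exa, if_neg hzF] at this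
            exact this
          rw [e1, e2]
          rcases eta_or P x with h | h <;> rcases eta_or P z with h' | h' <;> rw [h, h'] <;> norm_num
    · rintro ⟨g1, g2, g3⟩
      exact ⟨g1, g2, fun x hx => g3 x (Or.inl hx)⟩
  have hdat : Dat (F ∪ P) (exa F (eta P)) := by
    refine ⟨hfin, fun x hx => ?_, ?_⟩
    · rw [exa, if_neg fun hc => hx (Or.inl hc)]; exact finite_singleton _
    · refine hfin.subset fun x hx => ?_
      by_contra hc
      exact hx (by rw [exa, if_neg fun h => hc (Or.inl h)]; exact subsingleton_singleton)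
  have hmt := mean_trick (a := -1) (V := F ∪ P) (I := exa F (eta P)) (Z := P) (v := v) (by decide)
    hdat (hCA ▸ CA_nonempty F P) (fun x hx => Or.inr hx)
    (fun x hx b hb => by
      rw [exa, if_neg (fun hc => Set.disjoint_left.1 hA.dFP hc hx), mem_singleton_iff] at hb
      rw [hb, eta_mem hx])
    (fun x hx hxP => by
      rcases hx with hx | hx
      · rw [exa, if_pos hx]
      · exact absurd hx hxP)
    (fun x hx b hb => by
      rw [exa, if_neg (fun hc => hx.1 (Or.inl hc)), mem_singleton_iff] at hb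
      rw [hb]
      rcases eta_or P x with h | h <;> rw [h] <;> norm_num) (Or.inl hv)
  rw [← hCA] at hmt
  have e1 : Ex (CA F P) (fun h => (h v : ℝ)) = - mh F M v := mh_symm hA hv
  rw [e1] at hmt
  set A : Set Hg := {h | ∃ y, y ∉ F ∪ P ∧ Conn (Kd (F ∪ P) P (-1) h)ᶜ v y} with hAd
  have e2 : Pr (CA F P) A = Pr (CA F M) {h | sw F P h ∈ A} := by
    rw [Pr_eq_Ex (CA_finite hA.fin), Pr_eq_Ex (CA_finite hA.fin), Ex_bij _ (sw_bij hA)]
    rfl
  have e3 : Pr (CA F M) {h | sw F P h ∈ A} ≤ η / 2 := by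
    refine (Pr_mono fun h hh hhA => ?_).trans hQ
    obtain ⟨y, hy, hc⟩ := hhA
    obtain ⟨f, m, hm, hfm, hvf⟩ := reach hA hN hh hy hc
    have hvb : v ∈ bx v r := by
      constructor <;> simp <;> omega
    have hvC : v ∈ Cl (F ∩ bx v r) {v} := ⟨v, rfl, Conn.refl ⟨hv, hvb⟩⟩
    have hfW : f ∉ W := fun hc => hN.co_neg hc m hm hfm
    refine ⟨v, hvC, f, ?_, hvf⟩
    obtain ⟨d, hd, hfd⟩ := exists_door (V := F) (W := W) (S := F \ Bk F r R x₀ p h)
      (fun z hz => hz.1) (hN.mem_co hvC) hvf hfW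
    exact ⟨f, m, d, hm, hfm, hd, hfd, Conn.refl hfd.left_mem⟩
  rw [e2] at hmt
  push_cast at hmt
  linarith

end Vale.Agent.P153.R2.OBSV
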