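import Vale.Agent.P153.R2.OBSV.Geo
import Vale.Agent.P153.R2.OBSV.LandV
import Vale.Agent.P153.R2.INTF.SideP
import Vale.Agent.P153.R2.R1.Out2
import Vale.Agent.P153.R2.DRV.Out

/-!
P153, block OBSV: the observable, from the landing estimate and the slit Schwinger-Dyson estimate.
-/

set_option autoImplicit false
set_option linter.all false

namespace Vale.Agent.P153.R2.OBSV

/-- **The observable.** -/
theorem s_obs_of (hS : LAND.S_land 2) (hD : S_slitsd) : DRV.S_obs :=
  s_obs s_crv s_geo INTF.s_side R1.i_uinj hD (s_landv (LOC.s_land_of (by norm_num) hS))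

/-- **The drivers.** -/
theorem i_drv_of (hS : LAND.S_land 2) (hD : S_slitsd) : UNIQ.I_drv := DRV.i_drv (s_obs_of hS hD)

end Vale.Agent.P153.R2.OBSV
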