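import Vale.Agent.P153.R2.L1.Rmt
import Vale.Agent.P153.R2.L1.HMax

/-!
P153, block OBSV: limits of injective holomorphic functions on the disc along an ultrafilter on
an arbitrary index type, and of their images.
-/

set_option autoImplicit false

namespace Vale.Agent.P153.R2.OBSV

open Filter Topology Set Metric

section Inverse

variable {U : Set ℂ} {f : ℂ → ℂ}

theorem inv_mem {z : ℂ} (hz : z ∈ f '' U) : Function.invFunOn f U z ∈ U :=
  Function.invFunOn_mem hz

theorem f_inv {z : ℂ} (hz : z ∈ f '' U) : f (Function.invFunOn f U z) = z :=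
  Function.invFunOn_eq hz

theorem inv_f (hi : InjOn f U) {w : ℂ} (hw : w ∈ U) : Function.invFunOn f U (f w) = w :=
  hi (inv_mem (mem_image_of_mem f hw)) hw (f_inv (mem_image_of_mem f hw))

theorem map_nhds_of_inj (hU : IsOpen U) (hd : DifferentiableOn ℂ f U) (hi : InjOn f U) {w : ℂ}
    (hw : w ∈ U) : map f (𝓝 w) = 𝓝 (f w) :=
  (hd.analyticAt (hU.mem_nhds hw)).hasStrictDerivAt.map_nhds_eq
    (L1.injOn_deriv_ne_zero hU hd hi hw)

theorem image_nhds (hU : IsOpen U) (hd : DifferentiableOn ℂ f U) (hi : InjOn f U) {w : ℂ}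
    (hw : w ∈ U) {s : Set ℂ} (hs : s ∈ 𝓝 w) : f '' s ∈ 𝓝 (f w) := by
  rw [← map_nhds_of_inj hU hd hi hw]
  exact image_mem_map hs

theorem isOpen_image (hU : IsOpen U) (hd : DifferentiableOn ℂ f U) (hi : InjOn f U) :
    IsOpen (f '' U) := by
  rw [isOpen_iff_mem_nhds]
  rintro _ ⟨w, hw, rfl⟩
  exact image_nhds hU hd hi hw (hU.mem_nhds hw)

theorem inv_continuousAt (hU : IsOpen U) (hd : DifferentiableOn ℂ f U) (hi : InjOn f U) {z : ℂ}
    (hz : z ∈ f '' U) : ContinuousAt (Function.invFunOn f U) z := by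
  rw [ContinuousAt, Filter.tendsto_def]
  intro s hs
  have h1 := image_nhds hU hd hi (inv_mem hz) (inter_mem hs (hU.mem_nhds (inv_mem hz)))
  rw [f_inv hz] at h1
  filter_upwards [h1] with y hy
  obtain ⟨x, ⟨hxs, hxU⟩, rfl⟩ := hy
  rw [mem_preimage, inv_f hi hxU]
  exact hxs

theorem inv_hasDerivAt (hU : IsOpen U) (hd : DifferentiableOn ℂ f U) (hi : InjOn f U) {z : ℂ}
    (hz : z ∈ f '' U) :
    HasDerivAt (Function.invFunOn f U) (deriv f (Function.invFunOn f U z))⁻¹ z := by
  have hw := inv_mem hz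
  have hs : HasStrictDerivAt f (deriv f (Function.invFunOn f U z)) (Function.invFunOn f U z) :=
    (hd.analyticAt (hU.mem_nhds hw)).hasStrictDerivAt
  refine HasDerivAt.of_local_left_inverse (inv_continuousAt hU hd hi hz) hs.hasDerivAt
    (L1.injOn_deriv_ne_zero hU hd hi hw) ?_
  filter_upwards [(isOpen_image hU hd hi).mem_nhds hz] with y hy
  exact f_inv hy

theorem inv_diff (hU : IsOpen U) (hd : DifferentiableOn ℂ f U) (hi : InjOn f U) :
    DifferentiableOn ℂ (Function.invFunOn f U) (f '' U) :=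
  fun _ hz => (inv_hasDerivAt hU hd hi hz).differentiableAt.differentiableWithinAt

end Inverse

/-- A normalised bounded conformal map of the disc. -/
structure Dsc (f : ℂ → ℂ) (z₀ : ℂ) (R₀ c₀ : ℝ) : Prop where
  diff : DifferentiableOn ℂ f (ball 0 1)
  inj : InjOn f (ball 0 1)
  zero : f 0 = z₀
  bdd : ∀ w ∈ ball (0 : ℂ) 1, ‖f w‖ ≤ R₀
  sub : ball z₀ c₀ ⊆ f '' ball 0 1

theorem Dsc.low {f : ℂ → ℂ} {z₀ : ℂ} {R₀ c₀ : ℝ} (h : Dsc f z₀ R₀ c₀) (hc : 0 < c₀) {w : ℂ}
    (hw : w ∈ ball (0 : ℂ) 1) : c₀ * ‖w‖ ≤ ‖f w - z₀‖ := by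
  by_cases hcase : ‖f w - z₀‖ < c₀
  · set g := Function.invFunOn f (ball 0 1) with hg
    have hgd : DifferentiableOn ℂ g (ball z₀ c₀) := (inv_diff isOpen_ball h.diff h.inj).mono h.sub
    have hg0 : g z₀ = 0 := by
      rw [← h.zero, hg, inv_f h.inj (mem_ball_self one_pos)]
    have hfw : f w ∈ ball z₀ c₀ := by rw [mem_ball, dist_eq_norm]; exact hcase
    have hmap : MapsTo g (ball z₀ c₀) (closedBall (g z₀) 1) := by
      intro z hz
      rw [hg0]
      exact ball_subset_closedBall (inv_mem (h.sub hz))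
    have h1 := Complex.dist_le_div_mul_dist_of_mapsTo_ball hgd hmap hfw
    rw [hg0, dist_zero_right, hg, inv_f h.inj hw, dist_eq_norm] at h1
    have h2 : 1 / c₀ * ‖f w - z₀‖ = ‖f w - z₀‖ / c₀ := by ring
    rw [h2, le_div_iff₀ hc] at h1
    linarith
  · rw [not_lt] at hcase
    have : ‖w‖ < 1 := by rwa [mem_ball_zero_iff] at hw
    nlinarith

theorem exists_limit' {ι : Type*} {U : Set ℂ} (hU : IsOpen U) (𝒰 : Ultrafilter ι)
    (f : ι → ℂ → ℂ) (hd : ∀ n, DifferentiableOn ℂ (f n) U) (hb : ∀ n, ∀ z ∈ U, ‖f n z‖ ≤ 1) :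
    ∃ g : ℂ → ℂ, TendstoLocallyUniformlyOn f g (𝒰 : Filter ι) U := by
  have hlim : ∀ z : ℂ, ∃ w : ℂ, z ∈ U → Tendsto (fun n => f n z) 𝒰 (𝓝 w) := by
    intro z
    by_cases hz : z ∈ U
    · obtain ⟨w, -, hw⟩ := (isCompact_closedBall (0 : ℂ) 1).ultrafilter_le_nhds
        (𝒰.map (fun n => f n z)) (by
          rw [le_principal_iff, Ultrafilter.coe_map, Filter.mem_map]
          exact Filter.Eventually.of_forall (p := fun n => f n z ∈ closedBall (0 : ℂ) 1)
            (fun n => by simpa only [mem_closedBall, dist_zero_right] using hb n z hz))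
      exact ⟨w, fun _ => hw⟩
    · exact ⟨0, fun h => absurd h hz⟩
  choose g hg using hlim
  refine ⟨g, ?_⟩
  rw [Metric.tendstoLocallyUniformlyOn_iff]
  intro ε hε z₀ hz₀
  obtain ⟨r0, hr0, hball0⟩ := Metric.isOpen_iff.1 hU z₀ hz₀
  set r := r0 / 2 with hrdef
  have hr : 0 < r := by (clear * - hr0; positivity)
  have hball : ball z₀ (2 * r) ⊆ U := by
    have : 2 * r = r0 := by rw [hrdef]; ring
    rw [this]; exact hball0
  have hhalf : ball z₀ (r / 2) ⊆ U := (ball_subset_ball (by linarith only [hr])).trans hball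
  have hlipg : ∀ y ∈ ball z₀ (r / 2), ∀ z ∈ ball z₀ (r / 2),
      dist (g z) (g y) ≤ 2 / r * dist z y := by
    intro y hy z hz
    refine le_of_tendsto ((hg z (hhalf hz)).dist (hg y (hhalf hy))) ?_
    exact Filter.Eventually.of_forall fun n => _root_.P153.TOP.RMT.lip_bound (hd n) (hb n) hr hball hy hz
  refine ⟨closedBall z₀ (r / 4), mem_nhdsWithin_of_mem_nhds (closedBall_mem_nhds _ (by positivity)),
    ?_⟩
  have hsub : closedBall z₀ (r / 4) ⊆ ball z₀ (r / 2) := closedBall_subset_ball (by linarith only [hr])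
  obtain ⟨t, ht, htf, htc⟩ := (isCompact_closedBall z₀ (r / 4)).finite_cover_balls
    (show 0 < ε * r / 8 by (clear * - hε hr0; positivity))
  have hev : ∀ᶠ n in (𝒰 : Filter ι), ∀ x ∈ t, dist (f n x) (g x) < ε / 4 := by
    rw [Filter.eventually_all_finite htf]
    intro x hx
    have hxU : x ∈ U := hhalf (hsub (ht hx))
    exact (hg x hxU).eventually (ball_mem_nhds _ (by positivity))
  filter_upwards [hev] with n hn z hz
  obtain ⟨x, hx, hzx⟩ := mem_iUnion₂.1 (htc hz)
  have h1 := _root_.P153.TOP.RMT.lip_bound (hd n) (hb n) hr hball (hsub (ht hx)) (hsub hz)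
  have h2 := hlipg x (hsub (ht hx)) z (hsub hz)
  have h3 := hn x hx
  rw [mem_ball] at hzx
  have h4 : 2 / r * dist z x ≤ ε / 4 := by
    calc 2 / r * dist z x ≤ 2 / r * (ε * r / 8) := by (clear * - hzx hr0; gcongr)
      _ = ε / 4 := by field_simp; ring
  calc dist (g z) (f n z) ≤ dist (g z) (g x) + dist (g x) (f n x) + dist (f n x) (f n z) :=
        dist_triangle4 _ _ _ _
    _ < ε := by
        rw [dist_comm (g x), dist_comm (f n x) (f n z)]
        linarith only [hε, h1, h2, h3, h4]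

section Limit

variable {ι : Type*} {𝒰 : Ultrafilter ι} {f : ι → ℂ → ℂ} {z₀ : ℂ} {R₀ c₀ : ℝ}

theorem exists_dsc_limit (𝒰 : Ultrafilter ι) (hR : 0 < R₀) (h : ∀ i, Dsc (f i) z₀ R₀ c₀) :
    ∃ g : ℂ → ℂ, TendstoLocallyUniformlyOn f g (𝒰 : Filter ι) (ball 0 1) := by
  obtain ⟨g, hg⟩ := exists_limit' (U := ball (0 : ℂ) 1) isOpen_ball 𝒰
    (fun i z => (R₀ : ℂ)⁻¹ * f i z) (fun i => (h i).diff.const_mul _) (fun i z hz => by
      rw [norm_mul, norm_inv, Complex.norm_real, Real.norm_eq_abs, abs_of_pos hR,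
        inv_mul_le_iff₀ hR, mul_one]
      exact (h i).bdd z hz)
  refine ⟨fun z => (R₀ : ℂ) * g z, ?_⟩
  rw [Metric.tendstoLocallyUniformlyOn_iff] at hg ⊢
  intro ε hε x hx
  obtain ⟨t, ht, htn⟩ := hg (ε / R₀) (by positivity) x hx
  refine ⟨t, ht, ?_⟩
  filter_upwards [htn] with i hi y hy
  have h1 := hi y hy
  have e : dist ((R₀ : ℂ) * g y) (f i y) = R₀ * dist (g y) ((R₀ : ℂ)⁻¹ * f i y) := by
    have hR' : (R₀ : ℂ) ≠ 0 := by exact_mod_cast hR.ne'
    rw [dist_eq_norm, dist_eq_norm]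
    have e2 : (R₀ : ℂ) * g y - f i y = R₀ * (g y - (R₀ : ℂ)⁻¹ * f i y) := by
      field_simp
    rw [e2, norm_mul, Complex.norm_real, Real.norm_eq_abs, abs_of_pos hR]
  rw [e]
  rwa [lt_div_iff₀' hR] at h1

variable {g : ℂ → ℂ}

theorem lim_pt (hg : TendstoLocallyUniformlyOn f g (𝒰 : Filter ι) (ball 0 1)) {w : ℂ}
    (hw : w ∈ ball (0 : ℂ) 1) : Tendsto (fun i => f i w) 𝒰 (𝓝 (g w)) :=
  hg.tendsto_at hw

theorem lim_diff (h : ∀ i, Dsc (f i) z₀ R₀ c₀)
    (hg : TendstoLocallyUniformlyOn f g (𝒰 : Filter ι) (ball 0 1)) :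
    DifferentiableOn ℂ g (ball 0 1) :=
  hg.differentiableOn (Eventually.of_forall fun i => (h i).diff) isOpen_ball

theorem lim_low (h : ∀ i, Dsc (f i) z₀ R₀ c₀) (hc : 0 < c₀)
    (hg : TendstoLocallyUniformlyOn f g (𝒰 : Filter ι) (ball 0 1)) {w : ℂ}
    (hw : w ∈ ball (0 : ℂ) 1) : c₀ * ‖w‖ ≤ ‖g w - z₀‖ :=
  ge_of_tendsto ((lim_pt hg hw).sub_const z₀).norm
    (Eventually.of_forall fun i => (h i).low hc hw)

theorem lim_inj (h : ∀ i, Dsc (f i) z₀ R₀ c₀) (hc : 0 < c₀)
    (hg : TendstoLocallyUniformlyOn f g (𝒰 : Filter ι) (ball 0 1)) : InjOn g (ball 0 1) := by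
  intro a ha b hb hab
  by_contra hne
  -- near `b`, off `a`
  set U : Set ℂ := ball (0 : ℂ) 1 \ {a} with hU
  have hUo : IsOpen U := isOpen_ball.sdiff isClosed_singleton
  have hbU : b ∈ U := ⟨hb, fun e => hne (by rw [mem_singleton_iff] at e; exact e.symm)⟩
  have hgd := lim_diff h hg
  have hF : TendstoLocallyUniformlyOn (fun i z => f i z - f i a) (fun z => g z - g a)
      (𝒰 : Filter ι) U := by
    rw [Metric.tendstoLocallyUniformlyOn_iff]
    intro ε hε x hx
    obtain ⟨t, ht, htn⟩ := Metric.tendstoLocallyUniformlyOn_iff.1 hg (ε / 2) (by positivity) x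
      hx.1
    refine ⟨t, nhdsWithin_mono _ sdiff_subset ht, ?_⟩
    have h2 := (lim_pt hg ha).eventually (ball_mem_nhds _ (show 0 < ε / 2 by positivity))
    filter_upwards [htn, h2] with i hi h3 y hy
    have h4 := hi y hy
    rw [dist_eq_norm] at h4 h3 ⊢
    have e : g y - g a - (f i y - f i a) = (g y - f i y) + (f i a - g a) := by ring
    rw [e]
    refine (norm_add_le _ _).trans_lt ?_
    linarith
  have h0 := _root_.P153.TOP.RMT.hurwitz hUo hF
    (Eventually.of_forall fun i =>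
      (((h i).diff.mono sdiff_subset).sub (differentiableOn_const _))) hbU
    (Eventually.of_forall fun i z hz e => hz.2
      (by rw [mem_singleton_iff]; exact (h i).inj hz.1 ha (sub_eq_zero.1 e))) ?_
  · exact h0 (by rw [hab, sub_self])
  · intro hev
    have hconst : EqOn g (fun _ => g a) (ball 0 1) := by
      refine (hgd.analyticOnNhd isOpen_ball).eqOn_of_preconnected_of_eventuallyEq
        analyticOnNhd_const (convex_ball (0 : ℂ) 1).isPreconnected hb ?_
      filter_upwards [hev] with z hz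
      exact sub_eq_zero.1 hz
    have h5 : g 0 = z₀ := by
      have := lim_pt hg (mem_ball_self one_pos)
      simp_rw [(h _).zero] at this
      exact tendsto_nhds_unique this tendsto_const_nhds
    have h6 : (1 / 2 : ℂ) ∈ ball (0 : ℂ) 1 := by
      rw [mem_ball_zero_iff]; norm_num
    have h7 := lim_low h hc hg h6
    rw [hconst h6] at h7
    have h8 : g 0 = g a := hconst (mem_ball_self one_pos)
    simp only at h7
    rw [← h8, h5, sub_self, norm_zero] at h7
    have : ‖(1 / 2 : ℂ)‖ = 1 / 2 := by norm_num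
    rw [this] at h7
    linarith

theorem lim_dsc (h : ∀ i, Dsc (f i) z₀ R₀ c₀)
    (hg : TendstoLocallyUniformlyOn f g (𝒰 : Filter ι) (ball 0 1)) :
    g 0 = z₀ ∧ ∀ w ∈ ball (0 : ℂ) 1, ‖g w‖ ≤ R₀ := by
  refine ⟨?_, fun w hw => ?_⟩
  · have := lim_pt hg (mem_ball_self one_pos)
    simp_rw [(h _).zero] at this
    exact tendsto_nhds_unique this tendsto_const_nhds
  · exact le_of_tendsto (lim_pt hg hw).norm (Eventually.of_forall fun i => (h i).bdd w hw)

/-- Every neighbourhood of a point of the limit domain is eventually covered by the images. -/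
theorem ker_low (h : ∀ i, Dsc (f i) z₀ R₀ c₀) (hc : 0 < c₀)
    (hg : TendstoLocallyUniformlyOn f g (𝒰 : Filter ι) (ball 0 1)) {w : ℂ}
    (hw : w ∈ ball (0 : ℂ) 1) {δ : ℝ} (hδ : 0 < δ) :
    ∃ ε : ℝ, 0 < ε ∧ ∀ᶠ i in (𝒰 : Filter ι), ball (g w) ε ⊆ f i '' (ball w δ ∩ ball 0 1) := by
  have hgi := lim_inj h hc hg
  have hgd := lim_diff h hg
  -- a small circle around `w`
  obtain ⟨r0, hr0, hr0b⟩ := Metric.isOpen_iff.1 (isOpen_ball (x := (0 : ℂ)) (ε := 1)) w hw
  set r := min (r0 / 2) (δ / 2) with hr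
  have hrp : 0 < r := lt_min (by positivity) (by positivity)
  have hcl : closedBall w r ⊆ ball (0 : ℂ) 1 :=
    (closedBall_subset_ball (lt_of_le_of_lt (min_le_left _ _) (by linarith))).trans hr0b
  have hcl2 : closedBall w r ⊆ ball w δ :=
    closedBall_subset_ball (lt_of_le_of_lt (min_le_right _ _) (by linarith))
  obtain ⟨z1, hz1, hmin⟩ := (isCompact_sphere w r).exists_isMinOn
    (NormedSpace.sphere_nonempty.2 hrp.le)
    ((hgd.continuousOn.mono (sphere_subset_closedBall.trans hcl)).sub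
      (continuousOn_const (c := g w))).norm
  set M := ‖g z1 - g w‖ with hM
  have hMp : 0 < M := by
    rw [hM, norm_pos_iff, sub_ne_zero]
    intro e
    have := hgi (hcl (sphere_subset_closedBall hz1)) hw e
    rw [this, mem_sphere, dist_self] at hz1
    linarith
  have hunif : ∀ᶠ i in (𝒰 : Filter ι), ∀ z ∈ closedBall w r, dist (g z) (f i z) < M / 8 := by
    have h1 := (tendstoLocallyUniformlyOn_iff_forall_isCompact isOpen_ball).1 hg
      (closedBall w r) hcl (isCompact_closedBall _ _)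
    exact Metric.tendstoUniformlyOn_iff.1 h1 (M / 8) (by positivity)
  refine ⟨M / 8, by positivity, ?_⟩
  filter_upwards [hunif] with i hi
  have hwc : w ∈ closedBall w r := mem_closedBall_self hrp.le
  have h2 : ∀ z ∈ sphere w r, M / 2 ≤ ‖f i z - f i w‖ := by
    intro z hz
    have h3 : M ≤ ‖g z - g w‖ := hmin hz
    have h4 := hi z (sphere_subset_closedBall hz)
    have h5 := hi w hwc
    rw [dist_eq_norm] at h4 h5
    have e : g z - g w = (g z - f i z) + (f i z - f i w) - (g w - f i w) := by ring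
    have h6 : ‖g z - g w‖ ≤ ‖g z - f i z‖ + ‖f i z - f i w‖ + ‖g w - f i w‖ := by
      rw [e]
      exact (norm_sub_le _ _).trans (add_le_add (norm_add_le _ _) le_rfl)
    linarith
  have hd : DiffContOnCl ℂ (f i) (ball w r) := by
    refine DifferentiableOn.diffContOnCl ?_
    rw [closure_ball _ hrp.ne']
    exact (h i).diff.mono hcl
  have hfreq : ∃ᶠ z in 𝓝 w, f i z ≠ f i w := by
    intro hcon
    simp only [not_not] at hcon
    obtain ⟨s, hs, hs'⟩ := Metric.eventually_nhds_iff_ball.1 hcon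
    have hz : w + (min (s / 2) (r / 2) : ℝ) ∈ ball w s := by
      rw [mem_ball, dist_eq_norm, add_sub_cancel_left, Complex.norm_real, Real.norm_eq_abs,
        abs_of_pos (lt_min (by positivity) (by positivity))]
      exact lt_of_le_of_lt (min_le_left _ _) (by linarith)
    have hz2 : w + (min (s / 2) (r / 2) : ℝ) ∈ closedBall w r := by
      rw [mem_closedBall, dist_eq_norm, add_sub_cancel_left, Complex.norm_real, Real.norm_eq_abs,
        abs_of_pos (lt_min (by positivity) (by positivity))]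
      exact (min_le_right _ _).trans (by linarith)
    have := (h i).inj (hcl hz2) hw (hs' _ hz)
    rw [add_eq_left, Complex.ofReal_eq_zero] at this
    exact (lt_min (show 0 < s / 2 by positivity) (show 0 < r / 2 by positivity)).ne' this
  have h7 := hd.ball_subset_image_closedBall hrp h2 hfreq
  intro z hz
  have h8 : z ∈ ball (f i w) (M / 2 / 2) := by
    rw [mem_ball] at hz ⊢
    have h9 := hi w hwc
    have := dist_triangle z (g w) (f i w)
    linarith
  obtain ⟨x, hx, hxe⟩ := h7 h8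
  exact ⟨x, ⟨hcl2 hx, hcl hx⟩, hxe⟩

/-- A compact subset of the limit domain is eventually in the images. -/
theorem ker_compact (h : ∀ i, Dsc (f i) z₀ R₀ c₀) (hc : 0 < c₀)
    (hg : TendstoLocallyUniformlyOn f g (𝒰 : Filter ι) (ball 0 1)) {K : Set ℂ}
    (hK : IsCompact K) (hKg : K ⊆ g '' ball 0 1) :
    ∀ᶠ i in (𝒰 : Filter ι), K ⊆ f i '' ball 0 1 := by
  have h1 : ∀ z : ℂ, ∃ ε : ℝ, 0 < ε ∧ (z ∈ K → ∀ᶠ i in (𝒰 : Filter ι),
      ball z ε ⊆ f i '' ball 0 1) := by
    intro z
    by_cases hz : z ∈ K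
    · obtain ⟨w, hw, rfl⟩ := hKg hz
      obtain ⟨ε, hε, hev⟩ := ker_low h hc hg hw (δ := 1) one_pos
      exact ⟨ε, hε, fun _ => hev.mono fun i hi => hi.trans (image_mono inter_subset_right)⟩
    · exact ⟨1, one_pos, fun hz' => absurd hz' hz⟩
  choose ε hε hev using h1
  obtain ⟨t, htK, htc⟩ := hK.elim_nhds_subcover (fun z => ball z (ε z))
    fun z _ => ball_mem_nhds z (hε z)
  have h2 : ∀ᶠ i in (𝒰 : Filter ι), ∀ z ∈ t, ball z (ε z) ⊆ f i '' ball 0 1 := by
    rw [Finset.eventually_all]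
    exact fun z hz => hev z (htK z hz)
  filter_upwards [h2] with i hi
  exact htc.trans (iUnion₂_subset hi)

/-- A ball around a point of the limit domain which is eventually in the images is in the limit
domain. -/
theorem ker_up (h : ∀ i, Dsc (f i) z₀ R₀ c₀) (hc : 0 < c₀)
    (hg : TendstoLocallyUniformlyOn f g (𝒰 : Filter ι) (ball 0 1)) {w : ℂ}
    (hw : w ∈ ball (0 : ℂ) 1) {s : ℝ}
    (hs : ∀ᶠ i in (𝒰 : Filter ι), ball (g w) s ⊆ f i '' ball 0 1) :
    ball (g w) s ⊆ g '' ball 0 1 := by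
  classical
  rcases le_or_gt s 0 with hs0 | hs0
  · rw [ball_eq_empty.2 hs0]; exact empty_subset _
  set q : ι → ℂ → ℂ := fun i => if ball (g w) s ⊆ f i '' ball 0 1 then
    Function.invFunOn (f i) (ball 0 1) else fun _ => 0 with hq
  have hqd : ∀ i, DifferentiableOn ℂ (q i) (ball (g w) s) := by
    intro i
    by_cases hi : ball (g w) s ⊆ f i '' ball 0 1
    · simp only [hq, if_pos hi]
      exact (inv_diff isOpen_ball (h i).diff (h i).inj).mono hi
    · simp only [hq, if_neg hi]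
      exact differentiableOn_const _
  have hqm : ∀ i, ∀ z ∈ ball (g w) s, ‖q i z‖ < 1 := by
    intro i z hz
    by_cases hi : ball (g w) s ⊆ f i '' ball 0 1
    · simp only [hq, if_pos hi]
      have := inv_mem (hi hz)
      rwa [mem_ball_zero_iff] at this
    · simp only [hq, if_neg hi, norm_zero]
      exact one_pos
  obtain ⟨k, hk⟩ := exists_limit' (U := ball (g w) s) isOpen_ball 𝒰 q hqd
    (fun i z hz => (hqm i z hz).le)
  have hkd : DifferentiableOn ℂ k (ball (g w) s) :=
    hk.differentiableOn (Eventually.of_forall hqd) isOpen_ball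
  -- the value at the centre
  have hgw : g w ∈ ball (g w) s := mem_ball_self hs0
  have hkw : k (g w) = w := by
    refine tendsto_nhds_unique (hk.tendsto_at hgw) ?_
    rw [Metric.tendsto_nhds]
    intro δ hδ
    obtain ⟨ε, hε, hev⟩ := ker_low h hc hg hw hδ
    filter_upwards [hs, hev] with i hi1 hi2
    obtain ⟨x, ⟨hx1, hx2⟩, hxe⟩ := hi2 (mem_ball_self hε)
    simp only [hq, if_pos hi1]
    rw [← hxe, inv_f (h i).inj hx2]
    exact hx1
  have hkle : ∀ z ∈ ball (g w) s, ‖k z‖ ≤ 1 := fun z hz =>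
    le_of_tendsto (hk.tendsto_at hz).norm (Eventually.of_forall fun i => (hqm i z hz).le)
  have hklt : ∀ z ∈ ball (g w) s, ‖k z‖ < 1 := by
    intro z hz
    by_contra hcon
    rw [not_lt] at hcon
    have hmax : IsMaxOn (norm ∘ k) (ball (g w) s) z := fun y hy => (hkle y hy).trans hcon
    have := Complex.norm_eqOn_of_isPreconnected_of_isMaxOn
      (convex_ball (g w) s).isPreconnected isOpen_ball hkd hz hmax hgw
    simp only [Function.comp, Function.const_apply] at this
    rw [hkw] at this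
    rw [mem_ball_zero_iff] at hw
    linarith
  intro z hz
  have hkz : k z ∈ ball (0 : ℂ) 1 := by rw [mem_ball_zero_iff]; exact hklt z hz
  refine ⟨k z, hkz, ?_⟩
  -- `f i (q i z) = z` and `f i (q i z) → g (k z)`
  have h1 : Tendsto (fun i => f i (q i z)) 𝒰 (𝓝 (g (k z))) := by
    have hgc : ContinuousAt g (k z) :=
      ((lim_diff h hg).differentiableAt (isOpen_ball.mem_nhds hkz)).continuousAt
    have h2 : Tendsto (fun i => q i z) 𝒰 (𝓝[ball (0 : ℂ) 1] (k z)) := by
      rw [tendsto_nhdsWithin_iff]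
      exact ⟨hk.tendsto_at hz, Eventually.of_forall fun i => by
        rw [mem_ball_zero_iff]; exact hqm i z hz⟩
    exact tendsto_comp_of_locally_uniform_limit_within hgc.continuousWithinAt h2
      (fun u hu => by
        obtain ⟨t, ht, hev⟩ := hg u hu (k z) hkz
        exact ⟨t, ht, hev⟩)
  refine (tendsto_nhds_unique h1 ?_)
  refine tendsto_const_nhds.congr' ?_
  filter_upwards [hs] with i hi
  simp only [hq, if_pos hi]
  exact (f_inv (hi hz)).symm

/-- Radial (and more general) approach to the unit circle is mapped to approach to the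
boundary. -/
theorem dist_small (hgd : DifferentiableOn ℂ g (ball 0 1)) (hgi : InjOn g (ball 0 1))
    (hb : ∀ w ∈ ball (0 : ℂ) 1, ‖g w‖ ≤ R₀) {s : ℝ} (hs : 0 < s) :
    ∃ r : ℝ, r < 1 ∧ ∀ w ∈ ball (0 : ℂ) 1, r < ‖w‖ → ¬ ball (g w) s ⊆ g '' ball 0 1 := by
  by_contra hcon
  push Not at hcon
  -- the compact set of the points at distance at least `s` from the complement
  set K : Set ℂ := closedBall 0 R₀ ∩ {z | ball z s ⊆ g '' ball 0 1} with hK
  have hKc : IsCompact K := by
    refine (isCompact_closedBall (0 : ℂ) R₀).inter_right ?_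
    have : {z : ℂ | ball z s ⊆ g '' ball 0 1} = ⋂ y ∈ (g '' ball 0 1)ᶜ, {z | s ≤ dist y z} := by
      ext z
      simp only [mem_ofPred_eq, mem_iInter]
      constructor
      · intro h y hy
        by_contra hlt
        exact hy (h (by rw [mem_ball]; exact not_le.1 hlt))
      · intro h y hy
        by_contra hy'
        have := h y hy'
        rw [mem_ball] at hy
        linarith
    rw [this]
    exact isClosed_biInter fun y _ => isClosed_le continuous_const (by fun_prop)
  have hKs : K ⊆ g '' ball 0 1 := fun z hz => hz.2 (mem_ball_self hs)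
  have hcont : ContinuousOn (fun z => ‖Function.invFunOn g (ball 0 1) z‖) K :=
    ((inv_diff isOpen_ball hgd hgi).continuousOn.mono hKs).norm
  obtain ⟨w1, hw1, hr1, hsub1⟩ := hcon 0 one_pos
  have hKne : K.Nonempty := ⟨g w1, by
    rw [mem_closedBall_zero_iff]; exact hb w1 hw1, hsub1⟩
  obtain ⟨z2, hz2, hmax⟩ := hKc.exists_isMaxOn hKne hcont
  have h1 : ‖Function.invFunOn g (ball 0 1) z2‖ < 1 := by
    have := inv_mem (hKs hz2)
    rwa [mem_ball_zero_iff] at this
  obtain ⟨w, hw, hrw, hsub⟩ := hcon _ h1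
  have h2 : g w ∈ K := ⟨by rw [mem_closedBall_zero_iff]; exact hb w hw, hsub⟩
  have h3 := hmax h2
  simp only at h3
  rw [mem_ofPred_eq] at h3
  rw [inv_f hgi hw] at h3
  linarith

end Limit

end Vale.Agent.P153.R2.OBSV
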