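import Vale.Agent.P153.R2.OBSV.Cross
import Vale.Agent.P153.R2.OBSV.Holo

/-!
P153, block OBSV: the Cayley map, the angles of the boundary arcs, walls.
-/

set_option autoImplicit false
set_option linter.all false

namespace Vale.Agent.P153.R2.OBSV

open Filter Topology Set Metric Complex

/-- The conformal map of the disc onto the upper half-plane with `0 ↦ a`, `1 ↦ ∞`. -/
noncomputable def cay (a w : ℂ) : ℂ := (a - (starRingEnd ℂ) a * w) / (1 - w)

/-- The inverse of `cay`. -/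
noncomputable def icay (a z : ℂ) : ℂ := (z - a) / (z - (starRingEnd ℂ) a)

theorem one_sub_ne {w : ℂ} (hw : w ∈ ball (0 : ℂ) 1) : 1 - w ≠ 0 := by
  intro h
  rw [mem_ball_zero_iff] at hw
  have : w = 1 := by linear_combination -h
  rw [this, norm_one] at hw
  exact lt_irrefl _ hw

theorem cay_zero (a : ℂ) : cay a 0 = a := by simp [cay]

/-- The value of the Cayley map in polar coordinates. -/
theorem cay_num (r α ρ φ : ℝ) :
    ((r * exp (α * I) : ℂ) - (starRingEnd ℂ) (r * exp (α * I)) * (ρ * exp (φ * I))) *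
      (starRingEnd ℂ) (1 - ρ * exp (φ * I)) =
    ((r * ((1 + ρ ^ 2) * Real.cos α - 2 * ρ * Real.cos (φ - α)) : ℝ) : ℂ) +
      ((r * ((1 - ρ ^ 2) * Real.sin α) : ℝ) : ℂ) * I := by
  have hφ := Real.sin_sq_add_cos_sq φ
  rw [Real.cos_sub]
  simp only [exp_mul_I, ← ofReal_cos, ← ofReal_sin]
  apply Complex.ext
  · simp only [add_re, sub_re, mul_re, ofReal_re, ofReal_im, I_re, I_im, add_im, mul_im, sub_im,
      one_re, one_im, map_sub, map_mul, map_add, conj_ofReal, conj_I, map_one,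
      neg_re, neg_im]
    have e : Real.cos φ ^ 2 = 1 - Real.sin φ ^ 2 := by linarith
    ring_nf
    rw [e]
    ring
  · simp only [add_re, sub_re, mul_re, ofReal_re, ofReal_im, I_re, I_im, add_im, mul_im, sub_im,
      one_re, one_im, map_sub, map_mul, map_add, conj_ofReal, conj_I, map_one,
      neg_re, neg_im]
    have e : Real.cos φ ^ 2 = 1 - Real.sin φ ^ 2 := by linarith
    ring_nf
    rw [e]
    ring

theorem cay_eq (a w : ℂ) : cay a w =
    ((a - (starRingEnd ℂ) a * w) * (starRingEnd ℂ) (1 - w)) / ((normSq (1 - w) : ℝ) : ℂ) := by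
  unfold cay
  by_cases h : 1 - w = 0
  · rw [h]; simp
  · rw [← mul_conj]
    have : (starRingEnd ℂ) (1 - w) ≠ 0 := by
      rwa [Ne, map_eq_zero]
    field_simp

/-- Real and imaginary part of the Cayley map in polar coordinates. -/
theorem cay_polar {a : ℂ} (ρ φ : ℝ) (h : (1 : ℂ) - ρ * exp (φ * I) ≠ 0) :
    ∃ N : ℝ, 0 < N ∧
      (cay a (ρ * exp (φ * I))).re = N * (‖a‖ * ((1 + ρ ^ 2) * Real.cos (arg a) -
        2 * ρ * Real.cos (φ - arg a))) ∧
      (cay a (ρ * exp (φ * I))).im = N * (‖a‖ * ((1 - ρ ^ 2) * Real.sin (arg a))) := by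
  refine ⟨(normSq (1 - ρ * exp (φ * I)))⁻¹, inv_pos.2 (normSq_pos.2 h), ?_⟩
  have h1 := cay_num ‖a‖ (arg a) ρ φ
  rw [norm_mul_exp_arg_mul_I] at h1
  rw [cay_eq, h1, div_eq_inv_mul, ← ofReal_inv]
  constructor
  · rw [re_ofReal_mul, add_re, ofReal_re, re_ofReal_mul, I_re, mul_zero, add_zero]
  · rw [im_ofReal_mul, add_im, ofReal_im, im_ofReal_mul, I_im, mul_one, zero_add]

theorem exists_polar (w : ℂ) : w = ((‖w‖ : ℝ) : ℂ) * exp (arg w * I) :=
  (norm_mul_exp_arg_mul_I w).symm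

theorem im_pos_iff_arg {a : ℂ} : 0 < a.im ↔ 0 < arg a ∧ arg a < Real.pi := by
  constructor
  · intro h
    refine ⟨?_, ?_⟩
    · rcases (arg_nonneg_iff.2 h.le).lt_or_eq with h1 | h1
      · exact h1
      · exfalso
        have := arg_eq_zero_iff.1 h1.symm
        linarith [this.2]
    · refine lt_of_le_of_ne (arg_le_pi a) fun h1 => ?_
      have := arg_eq_pi_iff.1 h1
      linarith [this.2]
  · intro h
    have h1 : 0 ≤ a.im := arg_nonneg_iff.1 h.1.le
    rcases h1.lt_or_eq with h2 | h2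
    · exact h2
    · exfalso
      rcases le_or_gt 0 a.re with h3 | h3
      · have := arg_eq_zero_iff.2 ⟨h3, h2.symm⟩
        linarith [h.1]
      · have := arg_eq_pi_iff.2 ⟨h3, h2.symm⟩
        linarith [h.2]

theorem cay_im {a : ℂ} (ha : 0 < a.im) {w : ℂ} (hw : w ∈ ball (0 : ℂ) 1) :
    0 < (cay a w).im := by
  have h1 := one_sub_ne hw
  rw [exists_polar w] at h1 ⊢
  obtain ⟨N, hN, -, h2⟩ := cay_polar (a := a) ‖w‖ (arg w) h1
  rw [h2]
  have h3 := im_pos_iff_arg.1 ha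
  have h4 : 0 < Real.sin (arg a) := Real.sin_pos_of_pos_of_lt_pi h3.1 h3.2
  have h5 : 0 < ‖a‖ := by
    rw [norm_pos_iff]; rintro rfl; simp at ha
  rw [mem_ball_zero_iff] at hw
  have h6 : 0 < 1 - ‖w‖ ^ 2 := by nlinarith [norm_nonneg w]
  positivity

theorem icay_den {a z : ℂ} (ha : 0 < a.im) (hz : 0 < z.im) : z - (starRingEnd ℂ) a ≠ 0 := by
  intro h
  have := congrArg Complex.im h
  simp at this
  linarith

theorem icay_mem {a z : ℂ} (ha : 0 < a.im) (hz : 0 < z.im) : icay a z ∈ ball (0 : ℂ) 1 := by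
  rw [mem_ball_zero_iff, icay, norm_div, div_lt_one (norm_pos_iff.2 (icay_den ha hz)),
    ← sq_lt_sq₀ (norm_nonneg _) (norm_nonneg _), ← normSq_eq_norm_sq, ← normSq_eq_norm_sq,
    normSq_apply, normSq_apply]
  simp only [sub_re, sub_im, conj_re, conj_im]
  nlinarith [mul_pos ha hz]

theorem cay_icay {a z : ℂ} (ha : 0 < a.im) (hz : 0 < z.im) : cay a (icay a z) = z := by
  have h1 := icay_den ha hz
  have h2 := one_sub_ne (icay_mem ha hz)
  unfold cay
  rw [div_eq_iff h2]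
  unfold icay
  field_simp
  ring

theorem icay_cay {a w : ℂ} (ha : 0 < a.im) (hw : w ∈ ball (0 : ℂ) 1) : icay a (cay a w) = w := by
  have h1 := icay_den ha (cay_im ha hw)
  have h2 := one_sub_ne hw
  unfold icay
  rw [div_eq_iff h1]
  unfold cay
  field_simp
  ring

theorem cay_diff (a : ℂ) : DifferentiableOn ℂ (cay a) (ball 0 1) := by
  intro w hw
  have h2 := one_sub_ne hw
  unfold cay
  refine DifferentiableAt.differentiableWithinAt ?_
  exact ((differentiableAt_const _).sub ((differentiableAt_const _).mul differentiableAt_id)).div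
    ((differentiableAt_const _).sub differentiableAt_id) h2

theorem cay_inj {a : ℂ} (ha : 0 < a.im) : InjOn (cay a) (ball 0 1) := by
  intro w hw w' hw' h
  rw [← icay_cay ha hw, h, icay_cay ha hw']

theorem cay_image {a : ℂ} (ha : 0 < a.im) : cay a '' ball 0 1 = {z | 0 < z.im} := by
  ext z
  constructor
  · rintro ⟨w, hw, rfl⟩
    exact cay_im ha hw
  · intro hz
    exact ⟨icay a z, icay_mem ha hz, cay_icay ha hz⟩

/-- Criterion for an upper bound on the argument. -/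
theorem arg_le_of {z : ℂ} (hz : 0 < z.im) {c : ℝ} (h0 : 0 < c) (h1 : c < Real.pi / 2)
    (h : 0 ≤ Real.cos c * z.im + Real.sin c * z.re) : arg z ≤ Real.pi - c := by
  have hb := im_pos_iff_arg.1 hz
  by_contra hcon
  rw [not_le] at hcon
  have hn : 0 < ‖z‖ := by
    rw [norm_pos_iff]; rintro rfl; simp at hz
  have e1 : z.im = ‖z‖ * Real.sin (arg z) := by rw [sin_arg]; field_simp
  have e2 : z.re = ‖z‖ * Real.cos (arg z) := by
    rw [cos_arg (norm_pos_iff.1 hn)]; field_simp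
  rw [e1, e2] at h
  have h2 : Real.cos c * (‖z‖ * Real.sin (arg z)) + Real.sin c * (‖z‖ * Real.cos (arg z)) =
      ‖z‖ * Real.sin (arg z + c) := by rw [Real.sin_add]; ring
  rw [h2] at h
  have h3 : 0 ≤ Real.sin (arg z + c) := nonneg_of_mul_nonneg_right h hn
  have h4 : 0 < Real.sin (arg z + c - Real.pi) :=
    Real.sin_pos_of_pos_of_lt_pi (by linarith) (by linarith)
  rw [Real.sin_sub_pi] at h4
  linarith

/-- Criterion for a lower bound on the argument. -/
theorem arg_ge_of {z : ℂ} (hz : 0 < z.im) {c : ℝ} (h0 : 0 < c) (h1 : c < Real.pi / 2)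
    (h : 0 ≤ Real.cos c * z.im - Real.sin c * z.re) : c ≤ arg z := by
  have hb := im_pos_iff_arg.1 hz
  by_contra hcon
  rw [not_le] at hcon
  have hn : 0 < ‖z‖ := by
    rw [norm_pos_iff]; rintro rfl; simp at hz
  have e1 : z.im = ‖z‖ * Real.sin (arg z) := by rw [sin_arg]; field_simp
  have e2 : z.re = ‖z‖ * Real.cos (arg z) := by
    rw [cos_arg (norm_pos_iff.1 hn)]; field_simp
  rw [e1, e2] at h
  have h2 : Real.cos c * (‖z‖ * Real.sin (arg z)) - Real.sin c * (‖z‖ * Real.cos (arg z)) =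
      ‖z‖ * Real.sin (arg z - c) := by rw [Real.sin_sub]; ring
  rw [h2] at h
  have h3 : 0 ≤ Real.sin (arg z - c) := nonneg_of_mul_nonneg_right h hn
  have h4 : 0 < Real.sin (c - arg z) :=
    Real.sin_pos_of_pos_of_lt_pi (by linarith) (by linarith)
  have h5 : Real.sin (c - arg z) = - Real.sin (arg z - c) := by
    rw [← Real.sin_neg]; congr 1; ring
  linarith

theorem arctan_facts {s : ℝ} (hs : 0 < s) : 0 < Real.arctan s ∧ Real.arctan s < Real.pi / 2 ∧
    Real.sin (Real.arctan s) = s * Real.cos (Real.arctan s) ∧ 0 < Real.cos (Real.arctan s) := by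
  have h1 := Real.cos_arctan_pos s
  refine ⟨Real.arctan_pos.2 hs, Real.arctan_lt_pi_div_two s, ?_, h1⟩
  have := Real.tan_arctan s
  rw [Real.tan_eq_sin_div_cos, div_eq_iff h1.ne'] at this
  exact this

theorem cos_diff (α φ ρ : ℝ) : (1 + ρ ^ 2) * Real.cos α - 2 * ρ * Real.cos (φ - α) =
    (1 - ρ) ^ 2 * Real.cos α + 4 * ρ * (Real.sin (φ / 2) * Real.sin (φ / 2 - α)) := by
  have h1 : Real.cos α - Real.cos (φ - α) = 2 * (Real.sin (φ / 2) * Real.sin (φ / 2 - α)) := by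
    have h2 : Real.cos α = Real.cos (φ / 2 - (φ / 2 - α)) := by congr 1; ring
    have h3 : Real.cos (φ - α) = Real.cos (φ / 2 + (φ / 2 - α)) := by congr 1; ring
    rw [h2, h3, Real.cos_sub, Real.cos_add]
    ring
  linear_combination (2 * ρ) * h1

/-- Points with an angle in the interior of the positive arc do not look like points near the
negative arc. -/
theorem arg_cay_le {a : ℂ} (ha : 0 < a.im) {c φ ρ : ℝ} (hc : 0 < c) (hρ0 : 0 ≤ ρ) (hρ1 : ρ < 1)
    (h1 : 2 * arg a + c ≤ φ) (h2 : φ ≤ 2 * Real.pi - c) :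
    arg (cay a (ρ * exp (φ * I))) ≤ Real.pi - Real.arctan (Real.sin c) := by
  have hb := im_pos_iff_arg.1 ha
  have hpi := Real.pi_pos
  have hsc : 0 < Real.sin c := Real.sin_pos_of_pos_of_lt_pi hc (by linarith)
  obtain ⟨c1, c2, c3, c4⟩ := arctan_facts hsc
  have hw : (ρ * exp (φ * I) : ℂ) ∈ ball (0 : ℂ) 1 := by
    rw [mem_ball_zero_iff, norm_mul, norm_exp_ofReal_mul_I, mul_one, norm_real,
      Real.norm_eq_abs, abs_of_nonneg hρ0]
    exact hρ1
  refine arg_le_of (cay_im ha hw) c1 c2 ?_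
  obtain ⟨N, hN, e1, e2⟩ := cay_polar (a := a) ρ φ (one_sub_ne hw)
  rw [e1, e2, c3, cos_diff]
  have hn : 0 < ‖a‖ := by
    rw [norm_pos_iff]; rintro rfl; simp at ha
  have s1 : 0 ≤ Real.sin (φ / 2) := Real.sin_nonneg_of_nonneg_of_le_pi (by linarith) (by linarith)
  have s2 : 0 ≤ Real.sin (φ / 2 - arg a) :=
    Real.sin_nonneg_of_nonneg_of_le_pi (by linarith) (by linarith)
  have s3 : 0 < Real.sin (arg a) := Real.sin_pos_of_pos_of_lt_pi hb.1 hb.2
  have key : 0 ≤ (1 - ρ ^ 2) * Real.sin (arg a) + Real.sin c * ((1 - ρ) ^ 2 *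
      Real.cos (arg a) + 4 * ρ * (Real.sin (φ / 2) * Real.sin (φ / 2 - arg a))) := by
    have k1 : 0 ≤ 4 * ρ * (Real.sin (φ / 2) * Real.sin (φ / 2 - arg a)) := by positivity
    have k2 : 0 ≤ (1 - ρ ^ 2) * Real.sin (arg a) := by
      have : 0 ≤ 1 - ρ ^ 2 := by nlinarith
      positivity
    rcases le_or_gt 0 (Real.cos (arg a)) with hcos | hcos
    · positivity
    · have ha2 : Real.pi / 2 < arg a := by
        by_contra h
        rw [not_lt] at h
        have := Real.cos_nonneg_of_neg_pi_div_two_le_of_le (by linarith) h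
        linarith
      have hs : Real.sin c ≤ Real.sin (arg a) := by
        rw [← Real.sin_pi_sub (arg a)]
        exact Real.sin_le_sin_of_le_of_le_pi_div_two (by linarith) (by linarith) (by linarith)
      have k3 : -1 ≤ Real.cos (arg a) := Real.neg_one_le_cos _
      have k4 : Real.sin c * ((1 - ρ) ^ 2 * Real.cos (arg a)) ≥ - (Real.sin c * (1 - ρ) ^ 2) := by
        have : 0 ≤ Real.sin c * (1 - ρ) ^ 2 := by positivity
        nlinarith
      have k5 : Real.sin c * (1 - ρ) ^ 2 ≤ (1 - ρ ^ 2) * Real.sin (arg a) := by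
        have : (1 - ρ) ^ 2 ≤ 1 - ρ ^ 2 := by nlinarith
        have h0 : 0 ≤ (1 - ρ) ^ 2 := sq_nonneg _
        nlinarith
      have k6 : 0 ≤ Real.sin c * (4 * ρ * (Real.sin (φ / 2) * Real.sin (φ / 2 - arg a))) := by
        positivity
      rw [mul_add]
      linarith
  have : Real.cos (Real.arctan (Real.sin c)) * (N * (‖a‖ * ((1 - ρ ^ 2) * Real.sin (arg a)))) +
      Real.sin c * Real.cos (Real.arctan (Real.sin c)) * (N * (‖a‖ * ((1 - ρ) ^ 2 *
      Real.cos (arg a) + 4 * ρ * (Real.sin (φ / 2) * Real.sin (φ / 2 - arg a))))) =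
      (Real.cos (Real.arctan (Real.sin c)) * N * ‖a‖) * ((1 - ρ ^ 2) * Real.sin (arg a) +
      Real.sin c * ((1 - ρ) ^ 2 * Real.cos (arg a) + 4 * ρ * (Real.sin (φ / 2) *
      Real.sin (φ / 2 - arg a)))) := by ring
  rw [this]
  positivity

/-- Points with an angle in the interior of the negative arc do not look like points near the
positive arc. -/
theorem arg_cay_ge {a : ℂ} (ha : 0 < a.im) {c φ ρ : ℝ} (hc : 0 < c) (hρ0 : 0 ≤ ρ) (hρ1 : ρ < 1)
    (h1 : c ≤ φ) (h2 : φ ≤ 2 * arg a - c) :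
    Real.arctan (Real.sin c) ≤ arg (cay a (ρ * exp (φ * I))) := by
  have hb := im_pos_iff_arg.1 ha
  have hpi := Real.pi_pos
  have hsc : 0 < Real.sin c := Real.sin_pos_of_pos_of_lt_pi hc (by linarith)
  obtain ⟨c1, c2, c3, c4⟩ := arctan_facts hsc
  have hw : (ρ * exp (φ * I) : ℂ) ∈ ball (0 : ℂ) 1 := by
    rw [mem_ball_zero_iff, norm_mul, norm_exp_ofReal_mul_I, mul_one, norm_real,
      Real.norm_eq_abs, abs_of_nonneg hρ0]
    exact hρ1
  refine arg_ge_of (cay_im ha hw) c1 c2 ?_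
  obtain ⟨N, hN, e1, e2⟩ := cay_polar (a := a) ρ φ (one_sub_ne hw)
  rw [e1, e2, c3, cos_diff]
  have hn : 0 < ‖a‖ := by
    rw [norm_pos_iff]; rintro rfl; simp at ha
  have s1 : 0 ≤ Real.sin (φ / 2) := Real.sin_nonneg_of_nonneg_of_le_pi (by linarith) (by linarith)
  have s2 : Real.sin (φ / 2 - arg a) ≤ 0 :=
    Real.sin_nonpos_of_nonpos_of_neg_pi_le (by linarith) (by linarith)
  have s3 : 0 < Real.sin (arg a) := Real.sin_pos_of_pos_of_lt_pi hb.1 hb.2
  have key : 0 ≤ (1 - ρ ^ 2) * Real.sin (arg a) - Real.sin c * ((1 - ρ) ^ 2 *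
      Real.cos (arg a) + 4 * ρ * (Real.sin (φ / 2) * Real.sin (φ / 2 - arg a))) := by
    have k1 : 4 * ρ * (Real.sin (φ / 2) * Real.sin (φ / 2 - arg a)) ≤ 0 := by
      have := mul_nonpos_of_nonneg_of_nonpos s1 s2
      nlinarith
    have k2 : 0 ≤ (1 - ρ ^ 2) * Real.sin (arg a) := by
      have : 0 ≤ 1 - ρ ^ 2 := by nlinarith
      positivity
    have k6 : Real.sin c * (4 * ρ * (Real.sin (φ / 2) * Real.sin (φ / 2 - arg a))) ≤ 0 :=
      mul_nonpos_of_nonneg_of_nonpos hsc.le k1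
    rcases le_or_gt (Real.cos (arg a)) 0 with hcos | hcos
    · have k7 : Real.sin c * ((1 - ρ) ^ 2 * Real.cos (arg a)) ≤ 0 :=
        mul_nonpos_of_nonneg_of_nonpos hsc.le
          (mul_nonpos_of_nonneg_of_nonpos (sq_nonneg _) hcos)
      rw [mul_add]
      linarith
    · have ha2 : arg a < Real.pi / 2 := by
        by_contra h
        rw [not_lt] at h
        have := Real.cos_nonpos_of_pi_div_two_le_of_le h (by linarith)
        linarith
      have hs : Real.sin c ≤ Real.sin (arg a) :=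
        Real.sin_le_sin_of_le_of_le_pi_div_two (by linarith) (by linarith) (by linarith)
      have k3 : Real.cos (arg a) ≤ 1 := Real.cos_le_one _
      have k4 : Real.sin c * ((1 - ρ) ^ 2 * Real.cos (arg a)) ≤ Real.sin c * (1 - ρ) ^ 2 := by
        have : 0 ≤ Real.sin c * (1 - ρ) ^ 2 := by positivity
        nlinarith
      have k5 : Real.sin c * (1 - ρ) ^ 2 ≤ (1 - ρ ^ 2) * Real.sin (arg a) := by
        have : (1 - ρ) ^ 2 ≤ 1 - ρ ^ 2 := by nlinarith
        have h0 : 0 ≤ (1 - ρ) ^ 2 := sq_nonneg _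
        nlinarith
      rw [mul_add]
      linarith
  have : Real.cos (Real.arctan (Real.sin c)) * (N * (‖a‖ * ((1 - ρ ^ 2) * Real.sin (arg a)))) -
      Real.sin c * Real.cos (Real.arctan (Real.sin c)) * (N * (‖a‖ * ((1 - ρ) ^ 2 *
      Real.cos (arg a) + 4 * ρ * (Real.sin (φ / 2) * Real.sin (φ / 2 - arg a))))) =
      (Real.cos (Real.arctan (Real.sin c)) * N * ‖a‖) * ((1 - ρ ^ 2) * Real.sin (arg a) -
      Real.sin c * ((1 - ρ) ^ 2 * Real.cos (arg a) + 4 * ρ * (Real.sin (φ / 2) *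
      Real.sin (φ / 2 - arg a)))) := by ring
  rw [this]
  positivity

/-! ### Walls -/

/-- In the image of the upper half-plane under `F` there is a path inside `ball z R` from `z` to
points whose preimages have an argument close to `θ` (`θ = π`: the negative side; `θ = 0`: the
positive side). -/
def Wall (F : ℂ → ℂ) (θ : ℝ) (z : ℂ) (R : ℝ) : Prop :=
  ∀ ε : ℝ, 0 < ε → ∃ C : ℝ → ℂ, ContinuousOn C (Icc 0 1) ∧ (∀ u ∈ Icc (0 : ℝ) 1, 0 < (C u).im) ∧
    F (C 0) = z ∧ (∀ u ∈ Icc (0 : ℝ) 1, ‖F (C u) - z‖ < R) ∧ |arg (C 1) - θ| < ε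

theorem Wall.mono {F : ℂ → ℂ} {θ : ℝ} {z : ℂ} {R R' : ℝ} (h : Wall F θ z R) (hR : R ≤ R') :
    Wall F θ z R' := by
  intro ε hε
  obtain ⟨C, h1, h2, h3, h4, h5⟩ := h ε hε
  exact ⟨C, h1, h2, h3, fun u hu => (h4 u hu).trans_le hR, h5⟩

/-- The number of sectors. -/
noncomputable def mm (c : ℝ) : ℕ := ⌈2 * Real.pi / c⌉₊ + 1

theorem mm_pos (c : ℝ) : 0 < mm c := Nat.succ_pos _

theorem pi_div_mm {c : ℝ} (hc : 0 < c) : Real.pi / mm c < c / 2 := by
  have h1 : (0 : ℝ) < mm c := by exact_mod_cast mm_pos c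
  have h2 : 2 * Real.pi / c < mm c := by
    have := Nat.le_ceil (2 * Real.pi / c)
    unfold mm
    push_cast
    linarith
  rw [div_lt_iff₀ hc] at h2
  rw [div_lt_iff₀ h1]
  linarith

/-- The distance in `noWall`. -/
noncomputable def rho0 (R₀ c₀ c : ℝ) : ℝ :=
  min (c₀ / 2) ((c₀ / 2) ^ (2 * mm c) / (2 * (2 * R₀) ^ (2 * mm c - 1)))

theorem rho0_pos {R₀ c₀ c : ℝ} (hR : 0 < R₀) (hc : 0 < c₀) : 0 < rho0 R₀ c₀ c := by
  unfold rho0
  exact lt_min (by positivity) (by positivity)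

theorem noWall_aux {F : ℂ → ℂ} {a z₀ : ℂ} {R₀ c₀ : ℝ} (ha : 0 < a.im) (hR : 0 < R₀) (hc₀ : 0 < c₀)
    (hF : InjOn F {z | 0 < z.im}) (h : Dsc (fun w => F (cay a w)) z₀ R₀ c₀) {c φ ρ θ : ℝ}
    (hc : 0 < c) (hρ0 : 1 / 2 ≤ ρ) (hρ1 : ρ < 1)
    (hW : Wall F θ (F (cay a (ρ * exp (φ * I)))) (rho0 R₀ c₀ c)) {ε : ℝ} (hε : 0 < ε) :
    ∃ s t : ℝ, |s - φ| < c / 2 ∧ 0 ≤ t ∧ t < 1 ∧ |arg (cay a (t * exp (s * I))) - θ| < ε := by
  set w : ℂ := ρ * exp (φ * I) with hwdef
  have hwn : ‖w‖ = ρ := by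
    rw [hwdef, norm_mul, norm_exp_ofReal_mul_I, mul_one, norm_real, Real.norm_eq_abs,
      abs_of_nonneg (by linarith)]
  have hw : w ∈ ball (0 : ℂ) 1 := by rw [mem_ball_zero_iff, hwn]; exact hρ1
  obtain ⟨C, hC1, hC2, hC3, hC4, hC5⟩ := hW ε hε
  have m0 : (0 : ℝ) ∈ Icc (0 : ℝ) 1 := ⟨le_refl _, zero_le_one⟩
  have m1 : (1 : ℝ) ∈ Icc (0 : ℝ) 1 := ⟨zero_le_one, le_refl _⟩
  have hC0 : C 0 = cay a w := hF (hC2 0 m0) (cay_im ha hw) hC3
  set p := F (cay a w) with hp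
  have hlow := h.low hc₀ hw
  rw [hwn] at hlow
  have hdist : c₀ / 2 ≤ ‖p - z₀‖ := by
    refine le_trans ?_ hlow
    nlinarith
  have hzero : F (cay a 0) = z₀ := h.zero
  have hcc : ContinuousOn (fun u => icay a (C u)) (Icc 0 1) := by
    unfold icay
    exact (hC1.sub continuousOn_const).div (hC1.sub continuousOn_const)
      fun u hu => icay_den ha (hC2 u hu)
  have hr0 : rho0 R₀ c₀ c ≤ c₀ / 2 := min_le_left _ _
  have hr1 : rho0 R₀ c₀ c ≤ (c₀ / 2) ^ (2 * mm c) / (2 * (2 * R₀) ^ (2 * mm c - 1)) :=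
    min_le_right _ _
  obtain ⟨s, hs, hse⟩ := cross_path (m := mm c) (mm_pos c) (f := fun w => F (cay a w)) (p := p)
    (B := 2 * R₀) (ρ := rho0 R₀ c₀ c) (c := fun u => icay a (C u)) (t := φ) h.diff (by positivity)
    (fun z hz => by
      have h1 := h.bdd z hz
      have h2 := h.bdd w hw
      refine (norm_sub_le _ _).trans ?_
      linarith) hcc (fun u hu => icay_mem ha (hC2 u hu))
    (fun u hu e => by
      have h1 := hC4 u hu
      have h2 : C u = cay a 0 := by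
        rw [← e, cay_icay ha (hC2 u hu)]
      rw [h2, hzero, norm_sub_rev] at h1
      linarith)
    (fun u hu => by
      rw [cay_icay ha (hC2 u hu)]
      exact (hC4 u hu).le)
    (by
      rw [hzero, norm_sub_rev]
      have h1 : (c₀ / 2) ^ (2 * mm c) ≤ ‖p - z₀‖ ^ (2 * mm c) :=
        pow_le_pow_left₀ (by positivity) hdist _
      refine lt_of_lt_of_le ?_ h1
      have h2 : 0 < (2 * R₀) ^ (2 * mm c - 1) := by positivity
      have h3 : 0 < (c₀ / 2) ^ (2 * mm c) := by positivity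
      calc rho0 R₀ c₀ c * (2 * R₀) ^ (2 * mm c - 1)
          ≤ (c₀ / 2) ^ (2 * mm c) / (2 * (2 * R₀) ^ (2 * mm c - 1)) *
            (2 * R₀) ^ (2 * mm c - 1) := mul_le_mul_of_nonneg_right hr1 h2.le
        _ = (c₀ / 2) ^ (2 * mm c) / 2 := by field_simp
        _ < _ := by linarith)
    (by
      rw [hC0, icay_cay ha hw, hwn])
  refine ⟨s, ‖icay a (C 1)‖, hs.trans (pi_div_mm hc), norm_nonneg _, ?_, ?_⟩
  · have := icay_mem ha (hC2 1 m1)
    rwa [mem_ball_zero_iff] at this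
  · rw [← hse, cay_icay ha (hC2 1 m1)]
    exact hC5

/-- There is no negative wall near the points whose angle is in the interior of the positive
arc. -/
theorem noWall_pi {F : ℂ → ℂ} {a z₀ : ℂ} {R₀ c₀ : ℝ} (ha : 0 < a.im) (hR : 0 < R₀) (hc₀ : 0 < c₀)
    (hF : InjOn F {z | 0 < z.im}) (h : Dsc (fun w => F (cay a w)) z₀ R₀ c₀) {c φ ρ : ℝ}
    (hc : 0 < c) (hρ0 : 1 / 2 ≤ ρ) (hρ1 : ρ < 1) (h1 : 2 * arg a + c ≤ φ)
    (h2 : φ ≤ 2 * Real.pi - c) :
    ¬ Wall F Real.pi (F (cay a (ρ * exp (φ * I)))) (rho0 R₀ c₀ c) := by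
  intro hW
  have hb := im_pos_iff_arg.1 ha
  have hpi := Real.pi_pos
  have hsc : 0 < Real.sin (c / 2) := Real.sin_pos_of_pos_of_lt_pi (by linarith) (by linarith)
  obtain ⟨c1, c2, c3, c4⟩ := arctan_facts hsc
  obtain ⟨s, t, hs, ht0, ht1, h3⟩ := noWall_aux ha hR hc₀ hF h hc hρ0 hρ1 hW c1
  rw [abs_lt] at hs h3
  have := arg_cay_le ha (c := c / 2) (by positivity) ht0 ht1 (φ := s) (by linarith) (by linarith)
  linarith [h3.1]

/-- There is no positive wall near the points whose angle is in the interior of the negative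
arc. -/
theorem noWall_zero {F : ℂ → ℂ} {a z₀ : ℂ} {R₀ c₀ : ℝ} (ha : 0 < a.im) (hR : 0 < R₀)
    (hc₀ : 0 < c₀) (hF : InjOn F {z | 0 < z.im}) (h : Dsc (fun w => F (cay a w)) z₀ R₀ c₀)
    {c φ ρ : ℝ} (hc : 0 < c) (hρ0 : 1 / 2 ≤ ρ) (hρ1 : ρ < 1) (h1 : c ≤ φ)
    (h2 : φ ≤ 2 * arg a - c) :
    ¬ Wall F 0 (F (cay a (ρ * exp (φ * I)))) (rho0 R₀ c₀ c) := by
  intro hW
  have hb := im_pos_iff_arg.1 ha
  have hpi := Real.pi_pos
  have hsc : 0 < Real.sin (c / 2) := Real.sin_pos_of_pos_of_lt_pi (by linarith) (by linarith)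
  obtain ⟨c1, c2, c3, c4⟩ := arctan_facts hsc
  obtain ⟨s, t, hs, ht0, ht1, h3⟩ := noWall_aux ha hR hc₀ hF h hc hρ0 hρ1 hW c1
  rw [abs_lt] at hs h3
  have := arg_cay_ge ha (c := c / 2) (by positivity) ht0 ht1 (φ := s) (by linarith) (by linarith)
  linarith [h3.2]

end Vale.Agent.P153.R2.OBSV
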