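import Vale.Agent.P153.Bd5.B7
import Mathlib.Analysis.Complex.Harmonic.MeanValue
import Mathlib.Analysis.Complex.Harmonic.Analytic

/-!
P153, block OBSV: harmonic functions in the sense of `lap` are harmonic in the sense of Mathlib.
-/

set_option autoImplicit false
set_option linter.all false

namespace Vale.Agent.P153.R2.OBSV

open Filter Topology Set Metric Complex InnerProductSpace
open Vale.Agent.P145.PT

/-- The point of the plane. -/
def tp (z : ℂ) : ℝ × ℝ := (z.re, z.im)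

/-- The point of the complex plane. -/
def tc (z : ℝ × ℝ) : ℂ := ⟨z.1, z.2⟩

@[simp] theorem tp_tc (z : ℝ × ℝ) : tp (tc z) = z := rfl
@[simp] theorem tc_tp (z : ℂ) : tc (tp z) = z := rfl

theorem tp_eq (z : ℂ) : tp z = Complex.equivRealProdCLM z := rfl

theorem tp_cont : Continuous tp := Complex.equivRealProdCLM.continuous
theorem tc_cont : Continuous tc := Complex.equivRealProdCLM.symm.continuous

theorem fderiv_tp {u : ℝ × ℝ → ℝ} (w v : ℂ) :
    fderiv ℝ (fun z => u (tp z)) w v = fderiv ℝ u (tp w) (tp v) := by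
  have : (fun z => u (tp z)) = u ∘ Complex.equivRealProdCLM := rfl
  rw [this, Complex.equivRealProdCLM.comp_right_fderiv]
  rfl

theorem harmonicAt_of_lap {D : Set (ℝ × ℝ)} (hD : IsOpen D) {u : ℝ × ℝ → ℝ}
    (hu : ContDiffOn ℝ ((⊤ : ℕ∞) : WithTop ℕ∞) u D) (hl : ∀ z ∈ D, lap u z = 0) {w : ℂ}
    (hw : tp w ∈ D) : HarmonicAt (fun z => u (tp z)) w := by
  have hcd : ∀ z : ℂ, tp z ∈ D → ContDiffAt ℝ ((⊤ : ℕ∞) : WithTop ℕ∞) (fun z => u (tp z)) z := by
    intro z hz
    have h1 : ContDiffAt ℝ ((⊤ : ℕ∞) : WithTop ℕ∞) u (tp z) := hu.contDiffAt (hD.mem_nhds hz)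
    exact h1.comp z Complex.equivRealProdCLM.contDiff.contDiffAt
  have h2le : (2 : WithTop ℕ∞) ≤ ((⊤ : ℕ∞) : WithTop ℕ∞) :=
    WithTop.coe_le_coe.2 (le_top : (2 : ℕ∞) ≤ ⊤)
  refine ⟨(hcd w hw).of_le h2le, ?_⟩
  have hopen : {z : ℂ | tp z ∈ D} ∈ 𝓝 w := (hD.preimage tp_cont).mem_nhds hw
  filter_upwards [hopen] with z hz
  have hz' : tp z ∈ D := hz
  rw [laplacian_eq_iteratedFDeriv_complexPlane]
  simp only [iteratedFDeriv_two_apply, Matrix.cons_val_zero, Matrix.cons_val_one]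
  have h2 : DifferentiableAt ℝ (fderiv ℝ (fun z => u (tp z))) z := by
    have h3 : ContDiffAt ℝ 2 (fun z => u (tp z)) z := (hcd z hz').of_le h2le
    exact (h3.fderiv_right (m := 1) (by norm_num)).differentiableAt (by norm_num)
  have key : ∀ v : ℂ, fderiv ℝ (fderiv ℝ (fun z => u (tp z))) z v v =
      fderiv ℝ (fun y => fderiv ℝ u y (tp v)) (tp z) (tp v) := by
    intro v
    have h4 : fderiv ℝ (fun w => fderiv ℝ (fun z => u (tp z)) w v) z v =
        fderiv ℝ (fderiv ℝ (fun z => u (tp z))) z v v := by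
      rw [fderiv_clm_apply h2 (differentiableAt_const v)]
      simp
    rw [← h4]
    have h5 : (fun w => fderiv ℝ (fun z => u (tp z)) w v) =
        fun w => (fun y => fderiv ℝ u y (tp v)) (tp w) := by
      funext w; exact fderiv_tp w v
    rw [h5]
    exact fderiv_tp (u := fun y => fderiv ℝ u y (tp v)) z v
  rw [key, key]
  exact hl (tp z) hz'

/-- The composition of a harmonic function with a holomorphic function is harmonic. -/
theorem harmonicAt_comp {v : ℂ → ℝ} {g : ℂ → ℂ} {w : ℂ} (hv : HarmonicAt v (g w))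
    (hg : AnalyticAt ℂ g w) : HarmonicAt (fun z => v (g z)) w := by
  obtain ⟨r, hr, hball⟩ := Metric.isOpen_iff.1 (isOpen_setOfPred_harmonicAt v) (g w) hv
  obtain ⟨F, hF, hFe⟩ := HarmonicOnNhd.exists_analyticOnNhd_ball_re_eq
    (f := v) (z := g w) (R := r) (fun y hy => hball hy)
  have h1 : AnalyticAt ℂ (fun z => F (g z)) w :=
    (hF (g w) (mem_ball_self hr)).comp hg
  have h2 := h1.harmonicAt_re
  refine (harmonicAt_congr_nhds ?_).1 h2
  have h3 : ∀ᶠ z in 𝓝 w, g z ∈ ball (g w) r :=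
    hg.continuousAt.eventually (ball_mem_nhds _ hr)
  filter_upwards [h3] with z hz
  exact hFe hz

end Vale.Agent.P153.R2.OBSV
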