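import Vale.Agent.P153.R2.FLDI.HarmT
import Vale.Agent.P153.R2.OBSV.Cay
import Vale.Agent.P153.R2.OBSV.Harm

/-!
P153, block OBSV: the deterministic core. Weakly harmonic functions on conformal images of the
upper half-plane with the boundary values `-1` on the negative and `1` on the positive side.
-/

set_option autoImplicit false
set_option linter.all false

namespace Vale.Agent.P153.R2.OBSV

open Filter Topology Set Metric MeasureTheory
open Vale.Agent.P145.PT Vale.Agent.P153.R2.FLDI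

variable {ι : Type*}

/-! ### The limit functional -/

theorem exists_T (𝒰 : Ultrafilter ι) {U : ι → ℝ × ℝ → ℝ} (hm : ∀ i, Measurable (U i))
    (h1 : ∀ i z, |U i z| ≤ 1) : ∃ T : (ℝ × ℝ → ℝ) → ℝ, ∀ f, Integrable f →
      Tendsto (fun i => ∫ z, U i z * f z) 𝒰 (𝓝 (T f)) := by
  have h : ∀ f : ℝ × ℝ → ℝ, ∃ t : ℝ, Integrable f →
      Tendsto (fun i => ∫ z, U i z * f z) 𝒰 (𝓝 t) := by
    intro f
    by_cases hf : Integrable f
    · obtain ⟨t, -, ht⟩ := (isCompact_closedBall (0 : ℝ) (∫ z, |f z|)).ultrafilter_le_nhds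
        (𝒰.map (fun i => ∫ z, U i z * f z)) (by
          rw [le_principal_iff, Ultrafilter.coe_map, Filter.mem_map]
          refine Filter.Eventually.of_forall (p := fun i => (∫ z, U i z * f z) ∈
            closedBall (0 : ℝ) (∫ z, |f z|)) fun i => ?_
          rw [mem_closedBall_zero_iff, Real.norm_eq_abs]
          refine (abs_integral_le_integral_abs).trans ?_
          refine integral_mono_of_nonneg (ae_of_all _ fun z => abs_nonneg _) hf.abs
            (ae_of_all _ fun z => ?_)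
          simp only
          rw [abs_mul]
          have := h1 i z
          nlinarith [abs_nonneg (f z)])
      exact ⟨t, fun _ => ht⟩
    · exact ⟨0, fun h => absurd h hf⟩
  choose T hT using h
  exact ⟨T, hT⟩

theorem T_l2 {𝒰 : Ultrafilter ι} {U : ι → ℝ × ℝ → ℝ} (hm : ∀ i, Measurable (U i))
    (h1 : ∀ i z, |U i z| ≤ 1) {T : (ℝ × ℝ → ℝ) → ℝ} (hT : ∀ f, Integrable f →
      Tendsto (fun i => ∫ z, U i z * f z) 𝒰 (𝓝 (T f))) {D : Set (ℝ × ℝ)} (hD : IsOpen D)
    (hb : Bornology.IsBounded D) : L2Fn D T (Real.sqrt (volume.real D)) := by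
  have hfin : volume D < ⊤ := hb.measure_lt_top
  have hsq : ∀ i, IntegrableOn (fun z => U i z ^ 2) D := by
    intro i
    refine (integrableOn_const (C := (1 : ℝ)) (hs := hfin.ne)).mono'
      ((hm i).pow_const 2).aestronglyMeasurable (ae_of_all _ fun z => ?_)
    rw [Real.norm_eq_abs, abs_pow]
    exact pow_le_one₀ (abs_nonneg _) (h1 i z)
  have hl : ∀ i, L2Fn D (fun f => ∫ z, U i z * f z) (Real.sqrt (∫ z in D, U i z ^ 2)) := fun i =>
    l2fn_int (hm i).aestronglyMeasurable (hsq i)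
  have hle : ∀ i, ∫ z in D, U i z ^ 2 ≤ volume.real D := by
    intro i
    have h2 : ∫ z in D, U i z ^ 2 ≤ ∫ z in D, (1 : ℝ) := by
      refine integral_mono (hsq i) (integrableOn_const (hs := hfin.ne)) fun z => ?_
      have := h1 i z
      rw [← sq_abs]
      exact pow_le_one₀ (abs_nonneg _) this
    rw [setIntegral_const, smul_eq_mul, mul_one] at h2
    exact h2
  refine ⟨fun f g hf hg => ?_, fun c f hf => ?_, fun f hf => ?_⟩
  · have a1 := hT _ (hf.add hg).int
    have a2 := (hT _ hf.int).add (hT _ hg.int)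
    refine tendsto_nhds_unique a1 (a2.congr fun i => ?_)
    exact ((hl i).add f g hf hg).symm
  · have a1 := hT _ (hf.smul c).int
    have a2 := (hT _ hf.int).const_mul c
    refine tendsto_nhds_unique a1 (a2.congr fun i => ?_)
    exact ((hl i).smul c f hf).symm
  · refine le_of_tendsto (hT _ hf.int).abs (Eventually.of_forall fun i => ?_)
    refine ((hl i).bd f hf).trans ?_
    exact mul_le_mul_of_nonneg_right (Real.sqrt_le_sqrt (hle i)) (Real.sqrt_nonneg _)

theorem uT_eq {D : Set (ℝ × ℝ)} (hD : IsOpen D) (hb : Bornology.IsBounded D)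
    {T : (ℝ × ℝ → ℝ) → ℝ} {C : ℝ} (hT : L2Fn D T C)
    (heq : ∀ ψ, TestOn D ψ → T (lap ψ) = 0) {x : ℝ × ℝ} {s : ℝ} (hs : 0 < s)
    (hB : closedBall x s ⊆ D) : T (bump s x) = uT D T x := by
  obtain ⟨u, hu, huD, hTu⟩ := rep hD hb hT
  have heq' : ∀ ψ, TestOn D ψ → ∫ z, u z * lap ψ z = - ∫ z, ψ z * (fun _ => (0 : ℝ)) z := by
    intro ψ hψ
    rw [← hTu _ hψ.lap, heq ψ hψ]
    simp
  have hx : x ∈ D := hB (mem_closedBall_self hs.le)
  have hx0 : 0 < dd D x := (dd_pos hD hb).2 hx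
  have hB2 : closedBall x (dd D x / 2) ⊆ D := ball_sub (by linarith)
  unfold uT
  rw [hTu _ (bump_test hs hB), hTu _ (bump_test (by linarith) hB2)]
  rcases le_total s (dd D x / 2) with h | h
  · exact (bump_const hu heq' hs h hB2 fun z _ => rfl).symm
  · exact bump_const hu heq' (by linarith) h hB fun z _ => rfl

/-! ### Hypotheses -/

/-- The upper half-plane. -/
def HP : Set ℂ := {z | 0 < z.im}

/-- The assumptions for one domain: `F` is a conformal map of the upper half-plane onto a bounded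
domain which contains `ball z₀ c₀`, `F w = z₀`; `U` is a function with values in `[-1, 1]`. -/
structure Bas (F : ℂ → ℂ) (w z₀ : ℂ) (R₀ c₀ : ℝ) (U : ℝ × ℝ → ℝ) : Prop where
  diff : DifferentiableOn ℂ F HP
  inj : InjOn F HP
  bdd : ∀ z ∈ HP, ‖F z‖ ≤ R₀
  pt : 0 < w.im
  val : F w = z₀
  sub : ball z₀ c₀ ⊆ F '' HP
  meas : Measurable U
  le : ∀ z, |U z| ≤ 1

theorem Bas.image {F : ℂ → ℂ} {w z₀ : ℂ} {R₀ c₀ : ℝ} {U : ℝ × ℝ → ℝ} (h : Bas F w z₀ R₀ c₀ U) :
    (fun w' => F (cay w w')) '' ball 0 1 = F '' HP := by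
  rw [show HP = cay w '' ball 0 1 from (cay_image h.pt).symm, image_image]

theorem Bas.dsc {F : ℂ → ℂ} {w z₀ : ℂ} {R₀ c₀ : ℝ} {U : ℝ × ℝ → ℝ} (h : Bas F w z₀ R₀ c₀ U) :
    Dsc (fun w' => F (cay w w')) z₀ R₀ c₀ := by
  have hm : MapsTo (cay w) (ball 0 1) HP := fun w' hw' => cay_im h.pt hw'
  refine ⟨h.diff.comp (cay_diff w) hm, ?_, ?_, fun w' hw' => h.bdd _ (hm hw'), ?_⟩
  · intro x hx y hy hxy
    exact cay_inj h.pt hx hy (h.inj (hm hx) (hm hy) hxy)
  · simp only [cay_zero]; exact h.val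
  · rw [h.image]; exact h.sub

/-- Weak harmonicity along the filter `l`. -/
def WHarm (l : Filter ι) (F : ι → ℂ → ℂ) (U : ι → ℝ × ℝ → ℝ) : Prop :=
  ∀ ψ, TestOn univ ψ → ∀ r : ℝ, 0 < r → ∀ ε : ℝ, 0 < ε → ∀ᶠ i in l,
    (∀ z ∈ tsupport ψ, ball (tc z) r ⊆ F i '' HP) → |∫ z, U i z * lap ψ z| ≤ ε

/-- Landing: at the points which are close to the boundary, relative to the distance to the walls
of the type `θ₀`, the function `σ U` is close to one. -/
def Land (l : Filter ι) (F : ι → ℂ → ℂ) (U : ι → ℝ × ℝ → ℝ) (θ₀ σ : ℝ) : Prop :=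
  ∀ η : ℝ, 0 < η → ∃ c : ℝ, 0 < c ∧ ∀ R : ℝ, 0 < R → ∀ s : ℝ, 0 < s → ∀ᶠ i in l, ∀ z : ℂ,
    ball z s ⊆ F i '' HP → ¬ ball z (c * R) ⊆ F i '' HP → ¬ Wall (F i) θ₀ z R →
      1 - η ≤ σ * U i (tp z)

/-! ### Moving the base point of a wall -/

theorem wall_move {F : ℂ → ℂ} (hd : DifferentiableOn ℂ F HP) (hi : InjOn F HP) {θ R d : ℝ}
    {x₀ z z' : ℂ} (hB : ball x₀ d ⊆ F '' HP) (hz : z ∈ ball x₀ d) (hz' : z' ∈ ball x₀ d)
    (h : Wall F θ z' R) : Wall F θ z (R + 2 * d) := by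
  have hopen : IsOpen HP := isOpen_lt continuous_const Complex.continuous_im
  have hdpos : 0 < d := by
    rw [mem_ball] at hz
    exact lt_of_le_of_lt dist_nonneg hz
  have hzz : ‖z' - z‖ < 2 * d := by
    rw [mem_ball] at hz hz'
    rw [← dist_eq_norm]
    have := dist_triangle_right z' z x₀
    linarith
  intro ε hε
  obtain ⟨C, h1, h2, h3, h4, h5⟩ := h ε hε
  set g := Function.invFunOn F HP with hg
  have hgc : ContinuousOn g (ball x₀ d) := ((inv_diff hopen hd hi).continuousOn).mono hB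
  have hseg : ∀ u ∈ Icc (0 : ℝ) 1, z + (u : ℂ) * (z' - z) ∈ ball x₀ d := by
    intro u hu
    have := (convex_ball x₀ d).add_smul_sub_mem hz hz' hu
    rwa [Complex.real_smul] at this
  have m0 : (0 : ℝ) ∈ Icc (0 : ℝ) 1 := ⟨le_refl _, zero_le_one⟩
  have m1 : (1 : ℝ) ∈ Icc (0 : ℝ) 1 := ⟨zero_le_one, le_refl _⟩
  -- the concatenation
  set P : ℝ → ℂ := fun u => if u ≤ 1 / 2 then g (z + ((2 * u : ℝ) : ℂ) * (z' - z))
    else C (2 * u - 1) with hP
  have hR0 : 0 < R := lt_of_le_of_lt (norm_nonneg _) (h4 0 m0)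
  have hgz' : g z' = C 0 := by
    rw [← h3, hg]
    exact inv_f hi (h2 0 m0)
  have hlow : ∀ u ∈ Icc (0 : ℝ) 1, u ≤ 1 / 2 → 2 * u ∈ Icc (0 : ℝ) 1 := by
    intro u hu hu'
    exact ⟨by linarith [hu.1], by linarith⟩
  have hhigh : ∀ u ∈ Icc (0 : ℝ) 1, ¬ u ≤ 1 / 2 → 2 * u - 1 ∈ Icc (0 : ℝ) 1 := by
    intro u hu hu'
    rw [not_le] at hu'
    exact ⟨by linarith, by linarith [hu.2]⟩
  refine ⟨P, ?_, ?_, ?_, ?_, ?_⟩
  · have e : Icc (0 : ℝ) 1 = Icc 0 (1 / 2) ∪ Icc (1 / 2) 1 :=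
      (Icc_union_Icc_eq_Icc (by norm_num) (by norm_num)).symm
    rw [e]
    refine ContinuousOn.union_of_isClosed ?_ ?_ isClosed_Icc isClosed_Icc
    · have hc : ContinuousOn (fun u : ℝ => g (z + ((2 * u : ℝ) : ℂ) * (z' - z)))
          (Icc 0 (1 / 2)) := by
        refine hgc.comp (by fun_prop) fun u hu => ?_
        exact hseg _ ⟨by linarith [hu.1], by linarith [hu.2]⟩
      refine hc.congr fun u hu => ?_
      simp only [hP, if_pos hu.2]
    · have hc : ContinuousOn (fun u : ℝ => C (2 * u - 1)) (Icc (1 / 2) 1) :=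
        h1.comp (by fun_prop) fun u hu => ⟨by linarith [hu.1], by linarith [hu.2]⟩
      refine hc.congr fun u hu => ?_
      by_cases hu' : u ≤ 1 / 2
      · have hue : u = 1 / 2 := le_antisymm hu' hu.1
        simp only [hP, if_pos hu']
        rw [hue]
        norm_num
        exact hgz'
      · simp only [hP, if_neg hu']
  · intro u hu
    by_cases hu' : u ≤ 1 / 2
    · simp only [hP, if_pos hu']
      exact inv_mem (hB (hseg _ (hlow u hu hu')))
    · simp only [hP, if_neg hu']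
      exact h2 _ (hhigh u hu hu')
  · simp only [hP, if_pos (show (0 : ℝ) ≤ 1 / 2 by norm_num)]
    rw [mul_zero, Complex.ofReal_zero, zero_mul, add_zero]
    exact f_inv (hB hz)
  · intro u hu
    by_cases hu' : u ≤ 1 / 2
    · simp only [hP, if_pos hu']
      have hm := hseg _ (hlow u hu hu')
      rw [f_inv (hB hm)]
      rw [mem_ball] at hm hz
      rw [← dist_eq_norm]
      have := dist_triangle_right (z + ((2 * u : ℝ) : ℂ) * (z' - z)) z x₀
      linarith
    · simp only [hP, if_neg hu']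
      have h6 := h4 _ (hhigh u hu hu')
      have e : F (C (2 * u - 1)) - z = (F (C (2 * u - 1)) - z') + (z' - z) := by ring
      rw [e]
      refine (norm_add_le _ _).trans_lt ?_
      linarith
  · simp only [hP, if_neg (show ¬ (1 : ℝ) ≤ 1 / 2 by norm_num)]
    norm_num
    exact h5

/-! ### The limit along an ultrafilter -/

theorem norm_tc_sub {z : ℂ} {y : ℝ × ℝ} {s : ℝ} (h : y ∈ closedBall (tp z) s) :
    ‖tc y - z‖ ≤ 2 * s := by
  rw [mem_closedBall, dist_eq_norm, Prod.norm_def, max_le_iff, Real.norm_eq_abs,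
    Real.norm_eq_abs] at h
  have h1 : |(tc y - z).re| ≤ s := h.1
  have h2 : |(tc y - z).im| ≤ s := h.2
  have := Complex.norm_le_abs_re_add_abs_im (tc y - z)
  linarith

/-- The subset of `ℝ × ℝ`. -/
def dm (S : Set ℂ) : Set (ℝ × ℝ) := {y | tc y ∈ S}

theorem dm_open {S : Set ℂ} (h : IsOpen S) : IsOpen (dm S) := h.preimage tc_cont

theorem dm_bdd {S : Set ℂ} {R : ℝ} (h : ∀ z ∈ S, ‖z‖ ≤ R) : Bornology.IsBounded (dm S) := by
  refine (isBounded_iff_forall_norm_le).2 ⟨R, fun y hy => ?_⟩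
  have h1 := h _ hy
  rw [Prod.norm_def, max_le_iff, Real.norm_eq_abs, Real.norm_eq_abs]
  exact ⟨(Complex.abs_re_le_norm (tc y)).trans h1, (Complex.abs_im_le_norm (tc y)).trans h1⟩

theorem dm_ball {S : Set ℂ} {z : ℂ} {d s : ℝ} (h : ball z d ⊆ S) (hs : 2 * s < d) :
    closedBall (tp z) s ⊆ dm S := by
  intro y hy
  refine h ?_
  rw [mem_ball, dist_eq_norm]
  exact (norm_tc_sub hy).trans_lt hs

section Lim

variable {𝒰 : Ultrafilter ι} {F : ι → ℂ → ℂ} {w : ι → ℂ} {z₀ : ℂ} {R₀ c₀ : ℝ}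
  {U : ι → ℝ × ℝ → ℝ} {g : ℂ → ℂ} {T : (ℝ × ℝ → ℝ) → ℝ}

/-- The limit functional is weakly harmonic in the limit domain. -/
theorem T_harm (h : ∀ i, Bas (F i) (w i) z₀ R₀ c₀ (U i)) (hc : 0 < c₀)
    (hg : TendstoLocallyUniformlyOn (fun i w' => F i (cay (w i) w')) g (𝒰 : Filter ι) (ball 0 1))
    (hT : ∀ f, Integrable f → Tendsto (fun i => ∫ z, U i z * f z) 𝒰 (𝓝 (T f)))
    (hW : WHarm (𝒰 : Filter ι) F U) {ψ : ℝ × ℝ → ℝ} (hψ : TestOn (dm (g '' ball 0 1)) ψ) :
    T (lap ψ) = 0 := by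
  have hD : ∀ i, Dsc (fun w' => F i (cay (w i) w')) z₀ R₀ c₀ := fun i => (h i).dsc
  have hgo : IsOpen (g '' ball 0 1) :=
    isOpen_image isOpen_ball (lim_diff hD hg) (lim_inj hD hc hg)
  -- a neighbourhood of the support
  have hK : IsCompact (tc '' tsupport ψ) := hψ.cs.isCompact.image tc_cont
  have hKs : tc '' tsupport ψ ⊆ g '' ball 0 1 := by
    rintro _ ⟨y, hy, rfl⟩
    exact hψ.2.2 hy
  obtain ⟨r, hr, hrs⟩ := hK.exists_cthickening_subset_open hgo hKs
  have hKr : IsCompact (cthickening r (tc '' tsupport ψ)) := hK.cthickening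
  have hev := ker_compact hD hc hg hKr hrs
  have hall : ∀ ε : ℝ, 0 < ε → |T (lap ψ)| ≤ ε := by
    intro ε hε
    have h1 := hW ψ (hψ.mono (subset_univ _)) r hr ε hε
    refine le_of_tendsto (hT _ hψ.lap.int).abs ?_
    filter_upwards [h1, hev] with i hi1 hi2
    refine hi1 fun z hz => ?_
    rw [← (h i).image]
    refine Subset.trans ?_ hi2
    intro y hy
    rw [mem_ball] at hy
    exact mem_cthickening_of_dist_le y (tc z) r _ (mem_image_of_mem _ hz) hy.le
  have h0 : |T (lap ψ)| = 0 := by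
    refine le_antisymm (le_of_forall_pos_le_add fun ε hε => ?_) (abs_nonneg _)
    rw [zero_add]; exact hall ε hε
  exact abs_eq_zero.1 h0

/-- The radial limits. -/
theorem radial (h : ∀ i, Bas (F i) (w i) z₀ R₀ c₀ (U i)) (hc : 0 < c₀)
    (hg : TendstoLocallyUniformlyOn (fun i w' => F i (cay (w i) w')) g (𝒰 : Filter ι) (ball 0 1))
    (hT : ∀ f, Integrable f → Tendsto (fun i => ∫ z, U i z * f z) 𝒰 (𝓝 (T f)))
    (hW : WHarm (𝒰 : Filter ι) F U) {θ₀ σ : ℝ} (hL : Land (𝒰 : Filter ι) F U θ₀ σ)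
    {θ ρ0 : ℝ} (hρ0 : 0 < ρ0)
    (hno : ∀ ρ : ℝ, 1 / 2 ≤ ρ → ρ < 1 → ∀ᶠ i in (𝒰 : Filter ι),
      ¬ Wall (F i) θ₀ (F i (cay (w i) (ρ * Complex.exp (θ * Complex.I)))) ρ0)
    {η : ℝ} (hη : 0 < η) : ∃ ρ1 : ℝ, ρ1 < 1 ∧ 1 / 2 ≤ ρ1 ∧ ∀ ρ : ℝ, ρ1 < ρ → ρ < 1 →
      1 - η ≤ σ * uT (dm (g '' ball 0 1)) T (tp (g (ρ * Complex.exp (θ * Complex.I)))) := by
  have hD : ∀ i, Dsc (fun w' => F i (cay (w i) w')) z₀ R₀ c₀ := fun i => (h i).dsc
  have hgd := lim_diff hD hg
  have hgi := lim_inj hD hc hg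
  have hgb := (lim_dsc hD hg).2
  have hgo : IsOpen (g '' ball 0 1) := isOpen_image isOpen_ball hgd hgi
  have hopenD := dm_open hgo
  have hbD : Bornology.IsBounded (dm (g '' ball 0 1)) :=
    dm_bdd (R := R₀) (by rintro _ ⟨y, hy, rfl⟩; exact hgb y hy)
  obtain ⟨c, hcp, hLc⟩ := hL η hη
  set R := ρ0 / 2 with hR
  have hRp : 0 < R := by rw [hR]; positivity
  have hcR : 0 < c * R := mul_pos hcp hRp
  obtain ⟨ρ2, hρ2, hds⟩ := dist_small hgd hgi hgb (s := c * R / 2) (by positivity)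
  refine ⟨max ρ2 (1 / 2), max_lt hρ2 (by norm_num), le_max_right _ _, fun ρ hρa hρ1 => ?_⟩
  have hρhalf : 1 / 2 ≤ ρ := (le_max_right ρ2 (1 / 2)).trans hρa.le
  have hρ2' : ρ2 < ρ := (le_max_left ρ2 (1 / 2)).trans_lt hρa
  set x : ℂ := ρ * Complex.exp (θ * Complex.I) with hx
  have hxn : ‖x‖ = ρ := by
    rw [hx, norm_mul, Complex.norm_exp_ofReal_mul_I, mul_one, Complex.norm_real,
      Real.norm_eq_abs, abs_of_nonneg (by linarith)]
  have hxb : x ∈ ball (0 : ℂ) 1 := by rw [mem_ball_zero_iff, hxn]; exact hρ1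
  -- a small ball around `g x`
  have hgx : g x ∈ g '' ball 0 1 := mem_image_of_mem _ hxb
  obtain ⟨e0, he0, he0s⟩ := Metric.isOpen_iff.1 hgo (g x) hgx
  set d := min (e0 / 4) (min (c * R / 2) (ρ0 / 8)) with hd
  have hdp : 0 < d := lt_min (by positivity) (lt_min (by positivity) (by positivity))
  have hd1 : d ≤ e0 / 4 := min_le_left _ _
  have hd2 : d ≤ c * R / 2 := (min_le_right _ _).trans (min_le_left _ _)
  have hd3 : d ≤ ρ0 / 8 := (min_le_right _ _).trans (min_le_right _ _)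
  have hcl : closedBall (g x) (2 * d) ⊆ g '' ball 0 1 :=
    (closedBall_subset_ball (by linarith)).trans he0s
  have ev1 := ker_compact hD hc hg (isCompact_closedBall (g x) (2 * d)) hcl
  have ev2 : ∀ᶠ i in (𝒰 : Filter ι), ¬ ball (g x) (c * R / 2) ⊆ F i '' HP := by
    rw [Ultrafilter.eventually_not]
    intro hcon
    refine hds x hxb (by rw [hxn]; exact hρ2') (ker_up hD hc hg hxb (hcon.mono fun i hi => ?_))
    rw [(h i).image]; exact hi
  have ev3 : ∀ᶠ i in (𝒰 : Filter ι), dist (F i (cay (w i) x)) (g x) < d :=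
    (lim_pt hg hxb).eventually (ball_mem_nhds _ hdp)
  have ev4 := hLc R hRp d hdp
  have ev5 := hno ρ hρhalf hρ1
  have ev6 : ∀ᶠ i in (𝒰 : Filter ι), ∀ z ∈ ball (g x) d, 1 - η ≤ σ * U i (tp z) := by
    filter_upwards [ev1, ev2, ev3, ev4, ev5] with i h1 h2 h3 h4 h5 z hz
    rw [(h i).image] at h1
    have hbb : ball (g x) d ⊆ F i '' HP :=
      (ball_subset_closedBall.trans (closedBall_subset_closedBall (by linarith))).trans h1
    rw [mem_ball] at hz
    refine h4 z ?_ ?_ ?_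
    · intro y hy
      refine h1 ?_
      rw [mem_ball] at hy
      rw [mem_closedBall]
      have := dist_triangle y z (g x)
      linarith
    · intro hcon
      refine h2 fun y hy => hcon ?_
      rw [mem_ball] at hy ⊢
      have := dist_triangle_right y z (g x)
      linarith
    · intro hwall
      refine h5 ((wall_move (h i).diff (h i).inj (x₀ := g x) (d := d) hbb ?_ ?_ hwall).mono ?_)
      · rw [mem_ball]; exact h3
      · rw [mem_ball]; exact hz
      · rw [hR]; linarith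
  -- the average over a small ball
  have hL2 := T_l2 (fun i => (h i).meas) (fun i => (h i).le) hT hopenD hbD
  have hT0 : ∀ ψ, TestOn (dm (g '' ball 0 1)) ψ → T (lap ψ) = 0 := fun ψ hψ =>
    T_harm h hc hg hT hW hψ
  have hcb : closedBall (tp (g x)) (d / 4) ⊆ dm (g '' ball 0 1) :=
    dm_ball (d := 2 * d) (ball_subset_closedBall.trans hcl) (by linarith)
  have hbump : TestOn (dm (g '' ball 0 1)) (bump (d / 4) (tp (g x))) :=
    bump_test (by positivity) hcb
  rw [← uT_eq hopenD hbD hL2 hT0 (show 0 < d / 4 by positivity) hcb]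
  refine ge_of_tendsto ((hT _ hbump.int).const_mul σ) ?_
  filter_upwards [ev6] with i hi
  have e1 : 1 - η = ∫ y, (1 - η) * bump (d / 4) (tp (g x)) y := by
    rw [integral_const_mul, bump_int (by positivity), mul_one]
  rw [e1, ← integral_const_mul]
  refine integral_mono_ae (hbump.int.const_mul _) ?_ (ae_of_all _ fun y => ?_)
  · refine Integrable.const_mul ?_ _
    refine hbump.int.bdd_mul (c := 1) (h i).meas.aestronglyMeasurable (ae_of_all _ fun y => ?_)
    rw [Real.norm_eq_abs]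
    exact (h i).le y
  · simp only
    rw [← mul_assoc]
    by_cases hy : bump (d / 4) (tp (g x)) y = 0
    · rw [hy, mul_zero, mul_zero]
    · refine mul_le_mul_of_nonneg_right ?_ (bump_nonneg _ _ _)
      have hyb : y ∈ closedBall (tp (g x)) (d / 4) := by
        rw [mem_closedBall]
        by_contra hlt
        exact hy (bump_zero (by positivity) (not_le.1 hlt))
      have h7 := hi (tc y) (by
        rw [mem_ball, dist_eq_norm]
        have := norm_tc_sub hyb
        linarith)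
      rwa [tp_tc] at h7

/-- The limit functional at the centre. -/
theorem T_center (h : ∀ i, Bas (F i) (w i) z₀ R₀ c₀ (U i)) (hR : 0 < R₀) (hc : 0 < c₀)
    (hg : TendstoLocallyUniformlyOn (fun i w' => F i (cay (w i) w')) g (𝒰 : Filter ι) (ball 0 1))
    (hT : ∀ f, Integrable f → Tendsto (fun i => ∫ z, U i z * f z) 𝒰 (𝓝 (T f)))
    (hW : WHarm (𝒰 : Filter ι) F U) (hL1 : Land (𝒰 : Filter ι) F U Real.pi 1)
    (hL2 : Land (𝒰 : Filter ι) F U 0 (-1)) {α : ℝ}
    (hα : Tendsto (fun i => Complex.arg (w i)) 𝒰 (𝓝 α)) {r₁ : ℝ} (hr : 0 < r₁)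
    (hr2 : 2 * r₁ < c₀) : T (bump r₁ (tp z₀)) = 1 - 2 / Real.pi * α := by
  have hpi := Real.pi_pos
  have hD : ∀ i, Dsc (fun w' => F i (cay (w i) w')) z₀ R₀ c₀ := fun i => (h i).dsc
  have hgd := lim_diff hD hg
  have hgi := lim_inj hD hc hg
  obtain ⟨hg0, hgb⟩ := lim_dsc hD hg
  have hgo : IsOpen (g '' ball 0 1) := isOpen_image isOpen_ball hgd hgi
  have hopenD := dm_open hgo
  have hbD : Bornology.IsBounded (dm (g '' ball 0 1)) :=
    dm_bdd (R := R₀) (by rintro _ ⟨y, hy, rfl⟩; exact hgb y hy)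
  have hl2 := T_l2 (fun i => (h i).meas) (fun i => (h i).le) hT hopenD hbD
  have hT0 : ∀ ψ, TestOn (dm (g '' ball 0 1)) ψ → T (lap ψ) = 0 := fun ψ hψ =>
    T_harm h hc hg hT hW hψ
  obtain ⟨hHarm, -⟩ := uT_spec hopenD hbD hl2 hT0
  set u := uT (dm (g '' ball 0 1)) T with hu
  have hα0 : 0 ≤ α := ge_of_tendsto hα
    (Eventually.of_forall fun i => (im_pos_iff_arg.1 (h i).pt).1.le)
  have hα1 : α ≤ Real.pi := le_of_tendsto hα
    (Eventually.of_forall fun i => (im_pos_iff_arg.1 (h i).pt).2.le)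
  -- the value at the centre
  have hsub : ball z₀ c₀ ⊆ g '' ball 0 1 := by
    have := ker_up hD hc hg (mem_ball_self one_pos) (s := c₀) (Eventually.of_forall fun i => by
      rw [hg0, (h i).image]; exact (h i).sub)
    rwa [hg0] at this
  rw [uT_eq hopenD hbD hl2 hT0 hr (dm_ball hsub hr2)]
  -- the harmonic function on the disc
  set v : ℂ → ℝ := fun z => u (tp (g z)) with hv
  have hvh : ∀ z ∈ ball (0 : ℂ) 1, InnerProductSpace.HarmonicAt v z := by
    intro z hz
    have h1 : InnerProductSpace.HarmonicAt (fun y => u (tp y)) (g z) :=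
      harmonicAt_of_lap hopenD hHarm.smooth hHarm.lapz (mem_image_of_mem _ hz)
    exact harmonicAt_comp h1 (hgd.analyticAt (isOpen_ball.mem_nhds hz))
  have hmean : ∀ r : ℝ, 0 ≤ r → r < 1 → Real.circleAverage v 0 r = u (tp z₀) := by
    intro r h0 h1
    have h2 : InnerProductSpace.HarmonicOnNhd v (closedBall 0 |r|) := fun z hz => by
      refine hvh z ?_
      rw [mem_closedBall_zero_iff, abs_of_nonneg h0] at hz
      rw [mem_ball_zero_iff]
      linarith
    rw [h2.circleAverage_eq, hv]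
    simp only
    rw [hg0]
  have hvb : ∀ z ∈ ball (0 : ℂ) 1, |v z| ≤ 1 := by
    intro z hz
    have hz' : tp (g z) ∈ dm (g '' ball 0 1) := mem_image_of_mem _ hz
    have hdd : 0 < dd (dm (g '' ball 0 1)) (tp (g z)) := (dd_pos hopenD hbD).2 hz'
    have hbt : TestOn (dm (g '' ball 0 1)) (bump (dd (dm (g '' ball 0 1)) (tp (g z)) / 2)
      (tp (g z))) := bump_test (by linarith) (ball_sub (by linarith))
    refine le_of_tendsto (hT _ hbt.int).abs (Eventually.of_forall fun i => ?_)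
    refine (abs_integral_le_integral_abs).trans ?_
    have e1 := bump_int (show 0 < dd (dm (g '' ball 0 1)) (tp (g z)) / 2 by linarith) (tp (g z))
    refine le_trans ?_ e1.le
    refine integral_mono_of_nonneg (ae_of_all _ fun y => abs_nonneg _) hbt.int
      (ae_of_all _ fun y => ?_)
    simp only
    rw [abs_mul, abs_of_nonneg (bump_nonneg _ _ _)]
    have h3 := (h i).le y
    have h4 := bump_nonneg (dd (dm (g '' ball 0 1)) (tp (g z)) / 2) (tp (g z)) y
    nlinarith
  have hvc : ContinuousOn v (ball 0 1) := by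
    have h1 : ContinuousOn u (dm (g '' ball 0 1)) := hHarm.smooth.continuousOn
    refine h1.comp (tp_cont.comp_continuousOn hgd.continuousOn) fun z hz => ?_
    exact mem_image_of_mem _ hz
  -- radii tending to one
  set rr : ℕ → ℝ := fun k => 1 - 1 / ((k : ℝ) + 2) with hrr
  have hrr0 : ∀ k, 0 ≤ rr k := by
    intro k
    have : 1 / ((k : ℝ) + 2) ≤ 1 := by
      rw [div_le_one (by positivity)]; linarith [(Nat.cast_nonneg k : (0 : ℝ) ≤ k)]
    simp only [hrr]; linarith
  have hrr1 : ∀ k, rr k < 1 := by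
    intro k
    have : 0 < 1 / ((k : ℝ) + 2) := by positivity
    simp only [hrr]; linarith
  have hrrt : Tendsto rr atTop (𝓝 1) := by
    have h1 : Tendsto (fun k : ℕ => 1 / ((k : ℝ) + 2)) atTop (𝓝 0) := by
      have := (tendsto_one_div_add_atTop_nhds_zero_nat (𝕜 := ℝ)).comp (tendsto_add_atTop_nat 1)
      refine this.congr fun k => ?_
      simp only [Function.comp]
      push_cast
      ring
    have := h1.const_sub 1
    rwa [sub_zero] at this
  have hcm : ∀ k θ, circleMap 0 (rr k) θ = rr k * Complex.exp (θ * Complex.I) := by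
    intro k θ; simp [circleMap]
  have hcmb : ∀ k θ, circleMap 0 (rr k) θ ∈ ball (0 : ℂ) 1 := by
    intro k θ
    rw [mem_ball_zero_iff, norm_circleMap_zero, abs_of_nonneg (hrr0 k)]
    exact hrr1 k
  have key : Tendsto (fun k => ∫ θ in (0 : ℝ)..(2 * Real.pi), v (circleMap 0 (rr k) θ)) atTop
      (𝓝 (∫ θ in (0 : ℝ)..(2 * Real.pi), (if θ < 2 * α then -1 else 1 : ℝ))) := by
    refine intervalIntegral.tendsto_integral_filter_of_dominated_convergence (fun _ => (1 : ℝ))
      ?_ ?_ ?_ ?_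
    · refine Eventually.of_forall fun k => ?_
      have : Continuous fun θ => v (circleMap 0 (rr k) θ) := by
        rw [← continuousOn_univ]
        exact hvc.comp (continuous_circleMap 0 (rr k)).continuousOn fun θ _ => hcmb k θ
      exact this.aestronglyMeasurable
    · refine Eventually.of_forall fun k => ae_of_all _ fun θ _ => ?_
      rw [Real.norm_eq_abs]
      exact hvb _ (hcmb k θ)
    · exact intervalIntegrable_const
    · have hne : ∀ᵐ θ : ℝ, θ ≠ 2 * α ∧ θ ≠ 2 * Real.pi := by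
        have h1 : ∀ a : ℝ, ∀ᵐ θ : ℝ, θ ≠ a := fun a => by
          rw [ae_iff]
          have : {θ : ℝ | ¬ θ ≠ a} = {a} := by ext; simp
          rw [this]
          exact Real.volume_singleton
        filter_upwards [h1 (2 * α), h1 (2 * Real.pi)] with θ h2 h3
        exact ⟨h2, h3⟩
      filter_upwards [hne] with θ hθ hθm
      rw [uIoc_of_le (by positivity)] at hθm
      have hθ0 : 0 < θ := hθm.1
      have hθ2 : θ < 2 * Real.pi := lt_of_le_of_ne hθm.2 hθ.2
      rcases lt_or_gt_of_ne hθ.1 with hlt | hgt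
      · -- the negative arc
        rw [if_pos hlt, Metric.tendsto_nhds]
        intro ε hε
        set c := min θ ((2 * α - θ) / 2) with hcdef
        have hcp : 0 < c := lt_min hθ0 (by linarith)
        have hc1 : c ≤ θ := min_le_left _ _
        have hc2 : c ≤ (2 * α - θ) / 2 := min_le_right _ _
        have hno : ∀ ρ : ℝ, 1 / 2 ≤ ρ → ρ < 1 → ∀ᶠ i in (𝒰 : Filter ι),
            ¬ Wall (F i) 0 (F i (cay (w i) (ρ * Complex.exp (θ * Complex.I))))
              (rho0 R₀ c₀ c) := by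
          intro ρ h1 h2
          have h3 : ∀ᶠ i in (𝒰 : Filter ι), α - c / 2 < Complex.arg (w i) :=
            hα.eventually (lt_mem_nhds (by linarith))
          filter_upwards [h3] with i hi
          exact noWall_zero (h i).pt hR hc (h i).inj (hD i) hcp h1 h2 hc1 (by linarith)
        obtain ⟨ρ1, hρ1, hρh, hrad⟩ := radial h hc hg hT hW hL2 (rho0_pos hR hc) hno
          (η := ε / 2) (by positivity)
        filter_upwards [hrrt.eventually (lt_mem_nhds hρ1)] with k hk
        have h4 := hrad (rr k) hk (hrr1 k)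
        rw [← hcm] at h4
        have h5 := abs_le.1 (hvb _ (hcmb k θ))
        rw [Real.dist_eq, abs_lt]
        simp only [hv] at h5 ⊢
        rw [← hu] at h4
        constructor <;> linarith [h5.1, h5.2]
      · -- the positive arc
        rw [if_neg (not_lt.2 hgt.le), Metric.tendsto_nhds]
        intro ε hε
        set c := min (2 * Real.pi - θ) ((θ - 2 * α) / 2) with hcdef
        have hcp : 0 < c := lt_min (by linarith) (by linarith)
        have hc1 : c ≤ 2 * Real.pi - θ := min_le_left _ _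
        have hc2 : c ≤ (θ - 2 * α) / 2 := min_le_right _ _
        have hno : ∀ ρ : ℝ, 1 / 2 ≤ ρ → ρ < 1 → ∀ᶠ i in (𝒰 : Filter ι),
            ¬ Wall (F i) Real.pi (F i (cay (w i) (ρ * Complex.exp (θ * Complex.I))))
              (rho0 R₀ c₀ c) := by
          intro ρ h1 h2
          have h3 : ∀ᶠ i in (𝒰 : Filter ι), Complex.arg (w i) < α + c / 2 :=
            hα.eventually (gt_mem_nhds (by linarith))
          filter_upwards [h3] with i hi
          exact noWall_pi (h i).pt hR hc (h i).inj (hD i) hcp h1 h2 (by linarith) (by linarith)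
        obtain ⟨ρ1, hρ1, hρh, hrad⟩ := radial h hc hg hT hW hL1 (rho0_pos hR hc) hno
          (η := ε / 2) (by positivity)
        filter_upwards [hrrt.eventually (lt_mem_nhds hρ1)] with k hk
        have h4 := hrad (rr k) hk (hrr1 k)
        rw [← hcm] at h4
        have h5 := abs_le.1 (hvb _ (hcmb k θ))
        rw [Real.dist_eq, abs_lt]
        simp only [hv] at h5 ⊢
        rw [← hu] at h4
        constructor <;> linarith [h5.1, h5.2]
  have hint : ∫ θ in (0 : ℝ)..(2 * Real.pi), (if θ < 2 * α then -1 else 1 : ℝ) =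
      2 * Real.pi - 4 * α := by
    have i1 : ∫ θ in (0 : ℝ)..(2 * α), (if θ < 2 * α then -1 else 1 : ℝ) = -(2 * α) := by
      have : ∫ θ in (0 : ℝ)..(2 * α), (if θ < 2 * α then -1 else 1 : ℝ) =
          ∫ θ in (0 : ℝ)..(2 * α), (-1 : ℝ) := by
        refine intervalIntegral.integral_congr_ae ?_
        have h1 : ∀ᵐ θ : ℝ, θ ≠ 2 * α := by
          rw [ae_iff]
          have : {θ : ℝ | ¬ θ ≠ 2 * α} = {2 * α} := by ext; simp
          rw [this]
          exact Real.volume_singleton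
        filter_upwards [h1] with θ hθ hθm
        rw [uIoc_of_le (by positivity)] at hθm
        rw [if_pos (lt_of_le_of_ne hθm.2 hθ)]
      rw [this, intervalIntegral.integral_const, smul_eq_mul]
      ring
    have i2 : ∫ θ in (2 * α)..(2 * Real.pi), (if θ < 2 * α then -1 else 1 : ℝ) =
        2 * Real.pi - 2 * α := by
      have : ∫ θ in (2 * α)..(2 * Real.pi), (if θ < 2 * α then -1 else 1 : ℝ) =
          ∫ θ in (2 * α)..(2 * Real.pi), (1 : ℝ) := by
        refine intervalIntegral.integral_congr fun θ hθ => ?_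
        rw [uIcc_of_le (by linarith)] at hθ
        rw [if_neg (not_lt.2 hθ.1)]
      rw [this, intervalIntegral.integral_const, smul_eq_mul]
      ring
    have hii : ∀ a b : ℝ, IntervalIntegrable (fun θ => (if θ < 2 * α then -1 else 1 : ℝ))
        volume a b := by
      intro a b
      refine (intervalIntegrable_const (c := (1 : ℝ))).mono_fun ?_ (ae_of_all _ fun θ => ?_)
      · exact (Measurable.ite measurableSet_Iio measurable_const
          measurable_const).aestronglyMeasurable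
      · by_cases hθ : θ < 2 * α <;> simp [hθ]
    rw [← intervalIntegral.integral_add_adjacent_intervals (hii 0 (2 * α))
      (hii (2 * α) (2 * Real.pi)), i1, i2]
    ring
  rw [hint] at key
  have hconst : ∀ k, ∫ θ in (0 : ℝ)..(2 * Real.pi), v (circleMap 0 (rr k) θ) =
      (2 * Real.pi) * u (tp z₀) := by
    intro k
    have h1 := hmean (rr k) (hrr0 k) (hrr1 k)
    rw [Real.circleAverage_def, smul_eq_mul] at h1
    rw [← h1]
    field_simp
  simp_rw [hconst] at key
  have h2 := tendsto_nhds_unique key tendsto_const_nhds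
  have h3 : u (tp z₀) = (2 * Real.pi - 4 * α) / (2 * Real.pi) := by
    rw [h2]; field_simp
  rw [← hu, h3]
  field_simp
  ring

end Lim

/-- The core along an ultrafilter. -/
theorem core_ultra (𝒰 : Ultrafilter ι) {F : ι → ℂ → ℂ} {w : ι → ℂ} {z₀ : ℂ} {R₀ c₀ : ℝ}
    {U : ι → ℝ × ℝ → ℝ} (h : ∀ i, Bas (F i) (w i) z₀ R₀ c₀ (U i)) (hR : 0 < R₀) (hc : 0 < c₀)
    (hW : WHarm (𝒰 : Filter ι) F U) (hL1 : Land (𝒰 : Filter ι) F U Real.pi 1)
    (hL2 : Land (𝒰 : Filter ι) F U 0 (-1)) {r₁ : ℝ} (hr : 0 < r₁) (hr2 : 2 * r₁ < c₀) :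
    Tendsto (fun i => (∫ z, U i z * bump r₁ (tp z₀) z) -
      (1 - 2 / Real.pi * Complex.arg (w i))) 𝒰 (𝓝 0) := by
  obtain ⟨g, hg⟩ := exists_dsc_limit 𝒰 hR (fun i => (h i).dsc)
  obtain ⟨T, hT⟩ := exists_T 𝒰 (fun i => (h i).meas) (fun i => (h i).le)
  obtain ⟨α, -, hα⟩ := (isCompact_Icc (a := -Real.pi) (b := Real.pi)).ultrafilter_le_nhds
    (𝒰.map (fun i => Complex.arg (w i))) (by
      rw [le_principal_iff, Ultrafilter.coe_map, Filter.mem_map]
      exact Filter.Eventually.of_forall (p := fun i => Complex.arg (w i) ∈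
        Icc (-Real.pi) Real.pi) fun i => ⟨(Complex.neg_pi_lt_arg _).le, Complex.arg_le_pi _⟩)
  have hα' : Tendsto (fun i => Complex.arg (w i)) 𝒰 (𝓝 α) := hα
  have h1 := T_center h hR hc hg hT hW hL1 hL2 hα' hr hr2
  have hbt : TestOn univ (bump r₁ (tp z₀)) := bump_test hr (subset_univ _)
  have h2 := (hT _ hbt.int).sub ((hα'.const_mul (2 / Real.pi)).const_sub 1)
  rw [h1, sub_self] at h2
  exact h2

theorem WHarm.mono {l l' : Filter ι} {F : ι → ℂ → ℂ} {U : ι → ℝ × ℝ → ℝ} (h : WHarm l F U)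
    (hl : l' ≤ l) : WHarm l' F U := fun ψ hψ r hr ε hε => (h ψ hψ r hr ε hε).filter_mono hl

theorem Land.mono {l l' : Filter ι} {F : ι → ℂ → ℂ} {U : ι → ℝ × ℝ → ℝ} {θ₀ σ : ℝ}
    (h : Land l F U θ₀ σ) (hl : l' ≤ l) : Land l' F U θ₀ σ := fun η hη => by
  obtain ⟨c, hc, h1⟩ := h η hη
  exact ⟨c, hc, fun R hR s hs => (h1 R hR s hs).filter_mono hl⟩

/-- **The core theorem**. -/
theorem core {l : Filter ι} {F : ι → ℂ → ℂ} {w : ι → ℂ} {z₀ : ℂ} {R₀ c₀ : ℝ}
    {U : ι → ℝ × ℝ → ℝ} (h : ∀ᶠ i in l, Bas (F i) (w i) z₀ R₀ c₀ (U i)) (hR : 0 < R₀)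
    (hc : 0 < c₀) (hW : WHarm l F U) (hL1 : Land l F U Real.pi 1) (hL2 : Land l F U 0 (-1))
    {r₁ : ℝ} (hr : 0 < r₁) (hr2 : 2 * r₁ < c₀) :
    Tendsto (fun i => (∫ z, U i z * bump r₁ (tp z₀) z) -
      (1 - 2 / Real.pi * Complex.arg (w i))) l (𝓝 0) := by
  classical
  rw [tendsto_iff_ultrafilter]
  intro 𝒰 hU
  have h' : ∀ᶠ i in (𝒰 : Filter ι), Bas (F i) (w i) z₀ R₀ c₀ (U i) := h.filter_mono hU
  obtain ⟨i₀, hi₀⟩ := h'.exists
  set P : ι → Prop := fun i => Bas (F i) (w i) z₀ R₀ c₀ (U i) with hP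
  set σ : ι → ι := fun i => if P i then i else i₀ with hσ
  have hσP : ∀ i, P (σ i) := by
    intro i
    by_cases hi : P i
    · simp only [hσ, if_pos hi]; exact hi
    · simp only [hσ, if_neg hi]; exact hi₀
  have hσe : ∀ᶠ i in (𝒰 : Filter ι), σ i = i := by
    filter_upwards [h'] with i hi
    simp only [hσ]
    exact if_pos hi
  have hW' : WHarm (𝒰 : Filter ι) (fun i => F (σ i)) (fun i => U (σ i)) := by
    intro ψ hψ r hr ε hε
    filter_upwards [hσe, (hW.mono hU) ψ hψ r hr ε hε] with i h1 h2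
    rw [h1]; exact h2
  have hL' : ∀ θ₀ s : ℝ, Land l F U θ₀ s →
      Land (𝒰 : Filter ι) (fun i => F (σ i)) (fun i => U (σ i)) θ₀ s := by
    intro θ₀ s hL η hη
    obtain ⟨c, hc, h1⟩ := (hL.mono hU) η hη
    refine ⟨c, hc, fun R hR s hs => ?_⟩
    filter_upwards [hσe, h1 R hR s hs] with i h2 h3
    rw [h2]; exact h3
  have := core_ultra 𝒰 (F := fun i => F (σ i)) (w := fun i => w (σ i)) (U := fun i => U (σ i))
    (fun i => hσP i) hR hc hW' (hL' _ _ hL1) (hL' _ _ hL2) hr hr2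
  refine this.congr' ?_
  filter_upwards [hσe] with i hi
  rw [hi]

end Vale.Agent.P153.R2.OBSV
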