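import Mathlib.Analysis.Complex.AbsMax
import Mathlib.Analysis.Calculus.Deriv.Star
import Vale.Agent.P153.R2.R1.Jan
import Vale.Agent.P153.R2.TOP.Log

/-!
P153, block OBSV: the crossing lemma (Koebe). A bounded analytic function on the disc, which is
close to `p` on a path crossing a sector of angle `π / m`, is close to `p` at the centre.
-/

set_option autoImplicit false

namespace Vale.Agent.P153.R2.OBSV

open Filter Topology Set Metric

/-- The rotation by the angle `2 π k / m`. -/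
noncomputable def rt (m k : ℕ) : ℂ := 2 * Real.pi * k / m * Complex.I

/-- The union of the rotated copies of the curve `exp λ` and of their mirror images. -/
def KK (m : ℕ) (b : ℝ) (lam : ℝ → ℂ) : Set ℂ :=
  ⋃ k ∈ Finset.range m, ((fun u => Complex.exp (lam u + rt m k)) '' Icc 0 1 ∪
    (fun u => Complex.exp ((starRingEnd ℂ) (lam u) + 2 * b * Complex.I + rt m k)) '' Icc 0 1)

theorem KK_compact (m : ℕ) (b : ℝ) {lam : ℝ → ℂ} (hl : ContinuousOn lam (Icc 0 1)) :
    IsCompact (KK m b lam) := by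
  refine (Finset.range m).isCompact_biUnion fun k _ => ?_
  refine IsCompact.union (isCompact_Icc.image_of_continuousOn ?_)
    (isCompact_Icc.image_of_continuousOn ?_)
  · fun_prop
  · refine Complex.continuous_exp.comp_continuousOn ?_
    refine ContinuousOn.add (ContinuousOn.add ?_ continuousOn_const) continuousOn_const
    exact Complex.continuous_conj.comp_continuousOn hl

theorem rt_zero (m : ℕ) : rt m 0 = 0 := by simp [rt]

theorem rt_self {m : ℕ} (hm : 0 < m) : rt m m = 2 * Real.pi * Complex.I := by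
  have : (m : ℂ) ≠ 0 := by exact_mod_cast hm.ne'
  simp only [rt]
  field_simp

theorem rt_succ {m : ℕ} (hm : 0 < m) (k : ℕ) :
    rt m (k + 1) = rt m k + 2 * Real.pi / m * Complex.I := by
  have : (m : ℂ) ≠ 0 := by exact_mod_cast hm.ne'
  simp only [rt]
  push_cast
  field_simp

/-- There is no continuous logarithm on the closed curve. -/
theorem KK_no_log {m : ℕ} (hm : 0 < m) {b : ℝ} {lam : ℝ → ℂ} (hl : ContinuousOn lam (Icc 0 1))
    (h1 : (lam 1).im = b) (h0 : (lam 0).im = b - Real.pi / m) {G : ℂ → ℂ}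
    (hG : ContinuousOn G (KK m b lam)) (he : ∀ z ∈ KK m b lam, Complex.exp (G z) = z) : False := by
  have m0 : (0 : ℝ) ∈ Icc (0 : ℝ) 1 := ⟨le_refl _, zero_le_one⟩
  have m1 : (1 : ℝ) ∈ Icc (0 : ℝ) 1 := ⟨zero_le_one, le_refl _⟩
  have memA : ∀ k < m, ∀ u ∈ Icc (0 : ℝ) 1, Complex.exp (lam u + rt m k) ∈ KK m b lam := by
    intro k hk u hu
    exact mem_iUnion₂.2 ⟨k, Finset.mem_range.2 hk, Or.inl ⟨u, hu, rfl⟩⟩
  have memB : ∀ k < m, ∀ u ∈ Icc (0 : ℝ) 1,
      Complex.exp ((starRingEnd ℂ) (lam u) + 2 * b * Complex.I + rt m k) ∈ KK m b lam := by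
    intro k hk u hu
    exact mem_iUnion₂.2 ⟨k, Finset.mem_range.2 hk, Or.inr ⟨u, hu, rfl⟩⟩
  -- the two arcs meet at time one and at time zero
  have e1 : (starRingEnd ℂ) (lam 1) + 2 * b * Complex.I = lam 1 := by
    apply Complex.ext
    · simp
    · simp; linarith
  have e0 : (starRingEnd ℂ) (lam 0) + 2 * b * Complex.I =
      lam 0 + 2 * Real.pi / m * Complex.I := by
    have hm' : (m : ℝ) ≠ 0 := by exact_mod_cast hm.ne'
    have e : (2 * Real.pi / m * Complex.I : ℂ) = ((2 * Real.pi / m : ℝ) : ℂ) * Complex.I := by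
      push_cast; ring
    rw [e]
    apply Complex.ext
    · simp
    · simp only [Complex.add_im, Complex.conj_im, Complex.mul_im, Complex.mul_re,
        Complex.ofReal_im, Complex.ofReal_re, Complex.I_im, Complex.I_re, Complex.re_ofNat,
        Complex.im_ofNat]
      rw [h0]; ring
  have cA : ∀ k < m, G (Complex.exp (lam 0 + rt m k)) - (lam 0 + rt m k) =
      G (Complex.exp (lam 1 + rt m k)) - (lam 1 + rt m k) := by
    intro k hk
    refine R1.log_diff_const (A := Icc (0 : ℝ) 1) isPreconnected_Icc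
      (F := fun u => G (Complex.exp (lam u + rt m k))) (G := fun u => lam u + rt m k)
      ?_ ?_ ?_ m0 m1
    · refine hG.comp ?_ fun u hu => memA k hk u hu
      fun_prop
    · fun_prop
    · intro u hu
      exact he _ (memA k hk u hu)
  have cB : ∀ k < m, G (Complex.exp ((starRingEnd ℂ) (lam 0) + 2 * b * Complex.I + rt m k)) -
        ((starRingEnd ℂ) (lam 0) + 2 * b * Complex.I + rt m k) =
      G (Complex.exp ((starRingEnd ℂ) (lam 1) + 2 * b * Complex.I + rt m k)) -
        ((starRingEnd ℂ) (lam 1) + 2 * b * Complex.I + rt m k) := by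
    intro k hk
    have hc : ContinuousOn (fun u => (starRingEnd ℂ) (lam u) + 2 * b * Complex.I + rt m k)
        (Icc 0 1) :=
      ((Complex.continuous_conj.comp_continuousOn hl).add continuousOn_const).add
        continuousOn_const
    refine R1.log_diff_const (A := Icc (0 : ℝ) 1) isPreconnected_Icc
      (F := fun u => G (Complex.exp ((starRingEnd ℂ) (lam u) + 2 * b * Complex.I + rt m k)))
      (G := fun u => (starRingEnd ℂ) (lam u) + 2 * b * Complex.I + rt m k)
      ?_ hc ?_ m0 m1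
    · exact hG.comp (Complex.continuous_exp.comp_continuousOn hc) fun u hu => memB k hk u hu
    · intro u hu
      exact he _ (memB k hk u hu)
  have step : ∀ k < m, G (Complex.exp (lam 0 + rt m k)) - (lam 0 + rt m k) =
      G (Complex.exp (lam 0 + rt m (k + 1))) - (lam 0 + rt m (k + 1)) := by
    intro k hk
    have h2 := cA k hk
    have h3 := cB k hk
    rw [e1, e0] at h3
    rw [h2, ← h3]
    rw [rt_succ hm]
    have : lam 0 + 2 * Real.pi / m * Complex.I + rt m k =
      lam 0 + (rt m k + 2 * Real.pi / m * Complex.I) := by ring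
    rw [this]
  have all : ∀ k ≤ m, G (Complex.exp (lam 0 + rt m 0)) - (lam 0 + rt m 0) =
      G (Complex.exp (lam 0 + rt m k)) - (lam 0 + rt m k) := by
    intro k
    induction k with
    | zero => intro _; rfl
    | succ k ih =>
      intro hk
      rw [ih (by omega), step k (by omega)]
  have hfin := all m le_rfl
  have e2 : Complex.exp (lam 0 + 2 * Real.pi * Complex.I) = Complex.exp (lam 0) := by
    rw [Complex.exp_add, Complex.exp_two_pi_mul_I, mul_one]
  rw [rt_zero, rt_self hm, e2, add_zero] at hfin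
  have : (2 * Real.pi * Complex.I : ℂ) = 0 := by
    linear_combination hfin
  exact Complex.two_pi_I_ne_zero this

/-- A connected set through the centre, off the closed curve, stays inside. -/
theorem KK_inside {m : ℕ} (hm : 0 < m) {b : ℝ} {lam : ℝ → ℂ} (hl : ContinuousOn lam (Icc 0 1))
    (h1 : (lam 1).im = b) (h0 : (lam 0).im = b - Real.pi / m) {T : Set ℂ}
    (hT : IsPreconnected T) (hTK : Disjoint T (KK m b lam)) (h0T : (0 : ℂ) ∈ T) {M : ℝ}
    (hM : ∀ z ∈ KK m b lam, ‖z‖ ≤ M) {q : ℂ} (hq : q ∈ T) : ‖q‖ ≤ M := by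
  by_contra hcon
  rw [not_le] at hcon
  have hKc := KK_compact m b hl
  have hM0 : 0 ≤ M := by
    have : Complex.exp (lam 0 + rt m 0) ∈ KK m b lam :=
      mem_iUnion₂.2 ⟨0, Finset.mem_range.2 hm, Or.inl ⟨0, ⟨le_refl _, zero_le_one⟩, rfl⟩⟩
    exact (norm_nonneg _).trans (hM _ this)
  have hq0 : q ≠ 0 := by
    intro h; rw [h, norm_zero] at hcon; linarith
  obtain ⟨F, hF, hFe⟩ := R1.logOn_of_preconnected hKc.isClosed hT hTK h0T hq
  have hlt : ∀ z ∈ KK m b lam, ‖z / q‖ < 1 := by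
    intro z hz
    rw [norm_div, div_lt_one (norm_pos_iff.2 hq0)]
    exact lt_of_le_of_lt (hM z hz) hcon
  refine KK_no_log hm hl h1 h0
    (G := fun z => F z + (Complex.log (-q) + Complex.log (1 - z / q))) ?_ ?_
  · refine hF.add (continuousOn_const.add (ContinuousOn.clog (by fun_prop) ?_))
    intro z hz
    have := Complex.mem_slitPlane_of_norm_lt_one (z := -(z / q)) (by rw [norm_neg]; exact hlt z hz)
    rw [← sub_eq_add_neg] at this
    exact this
  · intro z hz
    have hz1 : 1 - z / q ≠ 0 := by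
      intro h
      have h2 := hlt z hz
      have : z / q = 1 := by linear_combination -h
      rw [this, norm_one] at h2
      exact lt_irrefl _ h2
    have hzq : z - q ≠ 0 := by
      intro h
      apply hz1
      have : z = q := by linear_combination h
      rw [this, div_self hq0, sub_self]
    rw [Complex.exp_add, hFe z hz, Complex.exp_add, Complex.exp_log (neg_ne_zero.2 hq0),
      Complex.exp_log hz1]
    field_simp
    ring

/-- The product of the rotated copies of `f - p` and of their mirror images. -/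
noncomputable def FF (m : ℕ) (b : ℝ) (f : ℂ → ℂ) (p : ℂ) (z : ℂ) : ℂ :=
  ∏ k ∈ Finset.range m, ((f (Complex.exp (-rt m k) * z) - p) *
    (starRingEnd ℂ) (f (Complex.exp (2 * b * Complex.I) *
      (starRingEnd ℂ) (Complex.exp (-rt m k) * z)) - p))

theorem norm_exp_rt (m k : ℕ) : ‖Complex.exp (-rt m k)‖ = 1 := by
  have : -rt m k = ((-(2 * Real.pi * k / m) : ℝ) : ℂ) * Complex.I := by
    simp only [rt]; push_cast; ring
  rw [this, Complex.norm_exp_ofReal_mul_I]

theorem norm_exp_b (b : ℝ) : ‖Complex.exp (2 * b * Complex.I)‖ = 1 := by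
  have : (2 * b * Complex.I : ℂ) = ((2 * b : ℝ) : ℂ) * Complex.I := by push_cast; ring
  rw [this, Complex.norm_exp_ofReal_mul_I]

theorem rot_mem {z a : ℂ} (ha : ‖a‖ = 1) (hz : z ∈ ball (0 : ℂ) 1) : a * z ∈ ball (0 : ℂ) 1 := by
  rw [mem_ball_zero_iff] at hz ⊢
  rw [norm_mul, ha, one_mul]
  exact hz

theorem conj_mem {z : ℂ} (hz : z ∈ ball (0 : ℂ) 1) : (starRingEnd ℂ) z ∈ ball (0 : ℂ) 1 := by
  rw [mem_ball_zero_iff] at hz ⊢
  rwa [Complex.norm_conj]

theorem FF_diff {m : ℕ} {b : ℝ} {f : ℂ → ℂ} {p : ℂ} (hf : DifferentiableOn ℂ f (ball 0 1)) :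
    DifferentiableOn ℂ (FF m b f p) (ball 0 1) := by
  have hat : ∀ z ∈ ball (0 : ℂ) 1, DifferentiableAt ℂ f z := fun z hz =>
    (hf z hz).differentiableAt (isOpen_ball.mem_nhds hz)
  intro z hz
  refine DifferentiableAt.differentiableWithinAt ?_
  unfold FF
  refine DifferentiableAt.fun_finsetProd fun k _ => ?_
  refine DifferentiableAt.mul ?_ ?_
  · refine DifferentiableAt.sub_const ?_ _
    exact (hat _ (rot_mem (norm_exp_rt m k) hz)).comp z (by fun_prop)
  · have hm2 : Complex.exp (2 * b * Complex.I) * (starRingEnd ℂ) (Complex.exp (-rt m k) * z) ∈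
        ball (0 : ℂ) 1 := rot_mem (norm_exp_b b) (conj_mem (rot_mem (norm_exp_rt m k) hz))
    have hg : DifferentiableAt ℂ (fun w => f (Complex.exp (2 * b * Complex.I) *
        ((starRingEnd ℂ) (Complex.exp (-rt m k)) * w)) - p) ((starRingEnd ℂ) z) := by
      refine DifferentiableAt.sub_const ?_ _
      refine DifferentiableAt.comp ((starRingEnd ℂ) z) (g := f) ?_ (by fun_prop)
      rw [map_mul] at hm2
      exact hat _ hm2
    have h3 := DifferentiableAt.conj_conj hg
    rw [Complex.conj_conj] at h3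
    refine h3.congr_of_eventuallyEq (Eventually.of_forall fun w => ?_)
    simp only [Function.comp, map_mul]

theorem FF_zero (m : ℕ) (b : ℝ) (f : ℂ → ℂ) (p : ℂ) :
    ‖FF m b f p 0‖ = ‖f 0 - p‖ ^ (2 * m) := by
  unfold FF
  rw [norm_prod]
  have : ∀ k ∈ Finset.range m, ‖((f (Complex.exp (-rt m k) * 0) - p) *
      (starRingEnd ℂ) (f (Complex.exp (2 * b * Complex.I) *
      (starRingEnd ℂ) (Complex.exp (-rt m k) * 0)) - p))‖ = ‖f 0 - p‖ ^ 2 := by
    intro k _
    rw [norm_mul, Complex.norm_conj]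
    simp [sq]
  rw [Finset.prod_congr rfl this, Finset.prod_const, Finset.card_range, ← pow_mul]

theorem FF_bound {m : ℕ} {b : ℝ} {f : ℂ → ℂ} {p : ℂ} {lam : ℝ → ℂ} {B ρ : ℝ} (hB : 0 ≤ B)
    (hfB : ∀ z ∈ ball (0 : ℂ) 1, ‖f z - p‖ ≤ B)
    (hlam : ∀ u ∈ Icc (0 : ℝ) 1, (lam u).re < 0)
    (hρ : ∀ u ∈ Icc (0 : ℝ) 1, ‖f (Complex.exp (lam u)) - p‖ ≤ ρ) :
    ∀ z ∈ KK m b lam, z ∈ ball (0 : ℂ) 1 ∧ ‖FF m b f p z‖ ≤ ρ * B ^ (2 * m - 1) := by
  intro z hz
  obtain ⟨k, hk, hz⟩ := mem_iUnion₂.1 hz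
  rw [Finset.mem_range] at hk
  have hball : z ∈ ball (0 : ℂ) 1 := by
    rw [mem_ball_zero_iff]
    rcases hz with ⟨u, hu, rfl⟩ | ⟨u, hu, rfl⟩
    · simp only
      rw [Complex.norm_exp, Real.exp_lt_one_iff]
      have : (rt m k).re = 0 := by
        have : rt m k = ((2 * Real.pi * k / m : ℝ) : ℂ) * Complex.I := by
          simp only [rt]; push_cast; ring
        rw [this]; simp
      rw [Complex.add_re, this, add_zero]
      exact hlam u hu
    · simp only
      rw [Complex.norm_exp, Real.exp_lt_one_iff]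
      have h1 : (rt m k).re = 0 := by
        have : rt m k = ((2 * Real.pi * k / m : ℝ) : ℂ) * Complex.I := by
          simp only [rt]; push_cast; ring
        rw [this]; simp
      have h2 : (2 * b * Complex.I : ℂ).re = 0 := by
        have : (2 * b * Complex.I : ℂ) = ((2 * b : ℝ) : ℂ) * Complex.I := by push_cast; ring
        rw [this]; simp
      rw [Complex.add_re, Complex.add_re, h1, h2, add_zero, add_zero, Complex.conj_re]
      exact hlam u hu
  refine ⟨hball, ?_⟩
  have hm : 0 < m := by omega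
  -- one factor is small
  have hall : ∀ j, ‖f (Complex.exp (-rt m j) * z) - p‖ ≤ B ∧
      ‖(starRingEnd ℂ) (f (Complex.exp (2 * b * Complex.I) *
        (starRingEnd ℂ) (Complex.exp (-rt m j) * z)) - p)‖ ≤ B := by
    intro j
    refine ⟨hfB _ (rot_mem (norm_exp_rt m j) hball), ?_⟩
    rw [Complex.norm_conj]
    exact hfB _ (rot_mem (norm_exp_b b) (conj_mem (rot_mem (norm_exp_rt m j) hball)))
  have hk' : ‖(f (Complex.exp (-rt m k) * z) - p) *
      (starRingEnd ℂ) (f (Complex.exp (2 * b * Complex.I) *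
        (starRingEnd ℂ) (Complex.exp (-rt m k) * z)) - p)‖ ≤ ρ * B := by
    rw [norm_mul]
    rcases hz with ⟨u, hu, rfl⟩ | ⟨u, hu, rfl⟩
    · have e : Complex.exp (-rt m k) * Complex.exp (lam u + rt m k) = Complex.exp (lam u) := by
        rw [← Complex.exp_add]; congr 1; ring
      have h1 : ‖f (Complex.exp (-rt m k) * Complex.exp (lam u + rt m k)) - p‖ ≤ ρ := by
        rw [e]; exact hρ u hu
      exact mul_le_mul h1 (hall k).2 (norm_nonneg _) ((norm_nonneg _).trans h1)
    · have e : Complex.exp (2 * b * Complex.I) * (starRingEnd ℂ) (Complex.exp (-rt m k) *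
          Complex.exp ((starRingEnd ℂ) (lam u) + 2 * b * Complex.I + rt m k)) =
          Complex.exp (lam u) := by
        have e3 : -rt m k + ((starRingEnd ℂ) (lam u) + 2 * b * Complex.I + rt m k) =
            (starRingEnd ℂ) (lam u) + 2 * b * Complex.I := by ring
        rw [← Complex.exp_add, e3, ← Complex.exp_conj, ← Complex.exp_add]
        congr 1
        rw [map_add, map_mul, map_mul, Complex.conj_conj, Complex.conj_I,
          Complex.conj_ofReal, map_ofNat]
        ring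
      have h1 : ‖(starRingEnd ℂ) (f (Complex.exp (2 * b * Complex.I) *
          (starRingEnd ℂ) (Complex.exp (-rt m k) *
            Complex.exp ((starRingEnd ℂ) (lam u) + 2 * b * Complex.I + rt m k))) - p)‖ ≤ ρ := by
        rw [e, Complex.norm_conj]; exact hρ u hu
      rw [mul_comm]
      exact mul_le_mul h1 (hall k).1 (norm_nonneg _) ((norm_nonneg _).trans h1)
  have hρ0 : 0 ≤ ρ := (norm_nonneg _).trans (hρ 0 ⟨le_refl _, zero_le_one⟩)
  unfold FF
  rw [norm_prod, ← Finset.mul_prod_erase _ _ (Finset.mem_range.2 hk)]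
  have h5 : ∏ j ∈ (Finset.range m).erase k, ‖(f (Complex.exp (-rt m j) * z) - p) *
      (starRingEnd ℂ) (f (Complex.exp (2 * b * Complex.I) *
        (starRingEnd ℂ) (Complex.exp (-rt m j) * z)) - p)‖ ≤ (B ^ 2) ^ (m - 1) := by
    have h6 := Finset.prod_le_prod (s := (Finset.range m).erase k)
      (f := fun j => ‖(f (Complex.exp (-rt m j) * z) - p) *
      (starRingEnd ℂ) (f (Complex.exp (2 * b * Complex.I) *
        (starRingEnd ℂ) (Complex.exp (-rt m j) * z)) - p)‖) (g := fun _ => B ^ 2)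
      (fun _ _ => norm_nonneg _) (fun j _ => by
        rw [norm_mul, sq]
        exact mul_le_mul (hall j).1 (hall j).2 (norm_nonneg _) hB)
    refine h6.trans (le_of_eq ?_)
    rw [Finset.prod_const, Finset.card_erase_of_mem (Finset.mem_range.2 hk), Finset.card_range]
  calc _ ≤ (ρ * B) * (B ^ 2) ^ (m - 1) :=
        mul_le_mul hk' h5 (Finset.prod_nonneg fun _ _ => norm_nonneg _) (mul_nonneg hρ0 hB)
    _ = ρ * B ^ (2 * m - 1) := by
        rw [← pow_mul, mul_assoc, ← pow_succ']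
        congr 2
        omega

/-- The crossing lemma, for a path with the angles `b - π / m` and `b` at its ends. -/
theorem cross_aux {m : ℕ} (hm : 0 < m) {b : ℝ} {f : ℂ → ℂ} {p : ℂ} {lam : ℝ → ℂ} {B ρ : ℝ}
    (hf : DifferentiableOn ℂ f (ball 0 1)) (hB : 0 ≤ B)
    (hfB : ∀ z ∈ ball (0 : ℂ) 1, ‖f z - p‖ ≤ B)
    (hl : ContinuousOn lam (Icc 0 1)) (hlam : ∀ u ∈ Icc (0 : ℝ) 1, (lam u).re < 0)
    (h1 : (lam 1).im = b) (h0 : (lam 0).im = b - Real.pi / m)
    (hρ : ∀ u ∈ Icc (0 : ℝ) 1, ‖f (Complex.exp (lam u)) - p‖ ≤ ρ) :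
    ‖f 0 - p‖ ^ (2 * m) ≤ ρ * B ^ (2 * m - 1) := by
  by_contra hcon
  rw [not_le, ← FF_zero m b f p] at hcon
  set F := FF m b f p with hFdef
  set M := ρ * B ^ (2 * m - 1) with hM
  have hFd : DifferentiableOn ℂ F (ball 0 1) := FF_diff hf
  have hKb := FF_bound (m := m) (b := b) hB hfB hlam hρ
  have hKc := KK_compact m b hl
  have hKne : (KK m b lam).Nonempty :=
    ⟨_, mem_iUnion₂.2 ⟨0, Finset.mem_range.2 hm, Or.inl ⟨0, ⟨le_refl _, zero_le_one⟩, rfl⟩⟩⟩
  obtain ⟨zm, hzm, hmax⟩ := hKc.exists_isMaxOn hKne continuous_norm.continuousOn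
  have hs1 : ‖zm‖ < 1 := by
    have := (hKb zm hzm).1
    rwa [mem_ball_zero_iff] at this
  -- the component of the set where `F` is large
  set W : Set ℂ := {z | z ∈ ball (0 : ℂ) 1 ∧ M < ‖F z‖} with hW
  have hWo : IsOpen W := by
    have : W = ball (0 : ℂ) 1 ∩ (fun z => ‖F z‖) ⁻¹' Ioi M := rfl
    rw [this]
    exact hFd.continuousOn.norm.isOpen_inter_preimage isOpen_ball isOpen_Ioi
  set V := connectedComponentIn W 0 with hV
  have h0W : (0 : ℂ) ∈ W := ⟨mem_ball_self one_pos, hcon⟩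
  have h0V : (0 : ℂ) ∈ V := mem_connectedComponentIn h0W
  have hVW : V ⊆ W := connectedComponentIn_subset _ _
  have hVK : Disjoint V (KK m b lam) := by
    rw [Set.disjoint_left]
    intro z hz hzK
    exact absurd (hVW hz).2 (not_lt.2 (hKb z hzK).2)
  have hVs : ∀ q ∈ V, ‖q‖ ≤ ‖zm‖ := fun q hq =>
    KK_inside hm hl h1 h0 isPreconnected_connectedComponentIn hVK h0V
      (fun z hz => hmax hz) hq
  have hcl : closure V ⊆ ball (0 : ℂ) 1 := by
    have h2 : closure V ⊆ closedBall (0 : ℂ) ‖zm‖ := by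
      refine closure_minimal (fun q hq => ?_) isClosed_closedBall
      rw [mem_closedBall_zero_iff]
      exact hVs q hq
    exact h2.trans (closedBall_subset_ball hs1)
  have hVb : Bornology.IsBounded V :=
    isBounded_ball.subset (hVW.trans fun z hz => hz.1)
  have hVo : IsOpen V := hWo.connectedComponentIn
  have hfr : ∀ z ∈ frontier V, ‖F z‖ ≤ M := by
    intro z hz
    by_contra hlt
    rw [not_le] at hlt
    have hzc : z ∈ closure V := frontier_subset_closure hz
    have hzW : z ∈ W := ⟨hcl hzc, hlt⟩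
    have h3 : z ∈ V := by
      have := R1.closure_component (K := Wᶜ) hWo.isClosed_compl (p := 0) (x := z)
      rw [compl_compl] at this
      exact this hzc (fun h => h hzW)
    rw [hVo.frontier_eq] at hz
    exact hz.2 h3
  have hd : DiffContOnCl ℂ F V := (hFd.mono hcl).diffContOnCl
  have := Complex.norm_le_of_forall_mem_frontier_norm_le hVb hd hfr (subset_closure h0V)
  exact absurd this (not_le.2 hcon)

/-- The crossing lemma for a path whose angle increases by at least `π / m`. -/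
theorem cross_le {m : ℕ} (hm : 0 < m) {f : ℂ → ℂ} {p : ℂ} {lam : ℝ → ℂ} {B ρ : ℝ}
    (hf : DifferentiableOn ℂ f (ball 0 1)) (hB : 0 ≤ B)
    (hfB : ∀ z ∈ ball (0 : ℂ) 1, ‖f z - p‖ ≤ B)
    (hl : ContinuousOn lam (Icc 0 1)) (hlam : ∀ u ∈ Icc (0 : ℝ) 1, (lam u).re < 0)
    (h1 : (lam 0).im + Real.pi / m ≤ (lam 1).im)
    (hρ : ∀ u ∈ Icc (0 : ℝ) 1, ‖f (Complex.exp (lam u)) - p‖ ≤ ρ) :
    ‖f 0 - p‖ ^ (2 * m) ≤ ρ * B ^ (2 * m - 1) := by
  have hpi : 0 ≤ Real.pi / m := by positivity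
  obtain ⟨t, ht, hte⟩ : ∃ t ∈ Icc (0 : ℝ) 1, (lam t).im = (lam 0).im + Real.pi / m := by
    have hc : ContinuousOn (fun u => (lam u).im) (Icc 0 1) :=
      Complex.continuous_im.comp_continuousOn hl
    have := intermediate_value_Icc zero_le_one hc
    obtain ⟨t, ht, hte⟩ := this (show (lam 0).im + Real.pi / m ∈ Icc (lam 0).im (lam 1).im from
      ⟨by linarith, h1⟩)
    exact ⟨t, ht, hte⟩
  have hmaps : ∀ u ∈ Icc (0 : ℝ) 1, t * u ∈ Icc (0 : ℝ) 1 := by
    intro u hu
    exact ⟨mul_nonneg ht.1 hu.1, mul_le_one₀ ht.2 hu.1 hu.2⟩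
  refine cross_aux hm (b := (lam 0).im + Real.pi / m) (lam := fun u => lam (t * u)) hf hB hfB
    (hl.comp (by fun_prop) hmaps) (fun u hu => hlam _ (hmaps u hu)) ?_ ?_
    (fun u hu => hρ _ (hmaps u hu))
  · simp only [mul_one]; exact hte
  · simp only [mul_zero]; ring

/-- **The crossing lemma**. -/
theorem cross {m : ℕ} (hm : 0 < m) {f : ℂ → ℂ} {p : ℂ} {lam : ℝ → ℂ} {B ρ : ℝ}
    (hf : DifferentiableOn ℂ f (ball 0 1)) (hB : 0 ≤ B)
    (hfB : ∀ z ∈ ball (0 : ℂ) 1, ‖f z - p‖ ≤ B)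
    (hl : ContinuousOn lam (Icc 0 1)) (hlam : ∀ u ∈ Icc (0 : ℝ) 1, (lam u).re < 0)
    (h1 : Real.pi / m ≤ |(lam 1).im - (lam 0).im|)
    (hρ : ∀ u ∈ Icc (0 : ℝ) 1, ‖f (Complex.exp (lam u)) - p‖ ≤ ρ) :
    ‖f 0 - p‖ ^ (2 * m) ≤ ρ * B ^ (2 * m - 1) := by
  rcases le_abs.1 h1 with h | h
  · exact cross_le hm hf hB hfB hl hlam (by linarith) hρ
  · have hmaps : ∀ u ∈ Icc (0 : ℝ) 1, 1 - u ∈ Icc (0 : ℝ) 1 := by
      intro u hu
      exact ⟨by linarith [hu.2], by linarith [hu.1]⟩
    refine cross_le hm (lam := fun u => lam (1 - u)) hf hB hfB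
      (hl.comp (by fun_prop) hmaps) (fun u hu => hlam _ (hmaps u hu)) ?_
      (fun u hu => hρ _ (hmaps u hu))
    simp only [sub_zero, sub_self]
    linarith

/-- The crossing lemma for a path in the disc minus the centre, in terms of the angles at the
ends: if the change of the angle is less than `π / m`, the angles at the ends are close. -/
theorem cross_path {m : ℕ} (hm : 0 < m) {f : ℂ → ℂ} {p : ℂ} {B ρ : ℝ}
    (hf : DifferentiableOn ℂ f (ball 0 1)) (hB : 0 ≤ B)
    (hfB : ∀ z ∈ ball (0 : ℂ) 1, ‖f z - p‖ ≤ B) {c : ℝ → ℂ} (hc : ContinuousOn c (Icc 0 1))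
    (hcb : ∀ u ∈ Icc (0 : ℝ) 1, c u ∈ ball (0 : ℂ) 1) (hc0 : ∀ u ∈ Icc (0 : ℝ) 1, c u ≠ 0)
    (hρ : ∀ u ∈ Icc (0 : ℝ) 1, ‖f (c u) - p‖ ≤ ρ)
    (hlt : ρ * B ^ (2 * m - 1) < ‖f 0 - p‖ ^ (2 * m)) {t : ℝ} (h0 : c 0 = ‖c 0‖ *
      Complex.exp (t * Complex.I)) :
    ∃ s : ℝ, |s - t| < Real.pi / m ∧ c 1 = ‖c 1‖ * Complex.exp (s * Complex.I) := by
  have m0 : (0 : ℝ) ∈ Icc (0 : ℝ) 1 := ⟨le_refl _, zero_le_one⟩
  have m1 : (1 : ℝ) ∈ Icc (0 : ℝ) 1 := ⟨zero_le_one, le_refl _⟩
  -- a continuous logarithm of `c`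
  obtain ⟨g, hg, hge⟩ := _root_.P153.TOP.hasLogOn_of_convex (convex_Icc (0 : ℝ) 1) c hc hc0
  have hn0 : (‖c 0‖ : ℂ) ≠ 0 := by
    exact_mod_cast (norm_pos_iff.2 (hc0 0 m0)).ne'
  set d : ℂ := g 0 - (Real.log ‖c 0‖ + t * Complex.I) with hd
  have hd1 : Complex.exp d = 1 := by
    rw [hd, Complex.exp_sub, hge 0 m0, Complex.exp_add, ← Complex.ofReal_exp,
      Real.exp_log (norm_pos_iff.2 (hc0 0 m0)), ← h0, div_self (hc0 0 m0)]
  set lam : ℝ → ℂ := fun u => g u - d with hlam
  have hle : ∀ u ∈ Icc (0 : ℝ) 1, Complex.exp (lam u) = c u := by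
    intro u hu
    rw [hlam]
    simp only
    rw [Complex.exp_sub, hd1, div_one, hge u hu]
  have hre : ∀ u ∈ Icc (0 : ℝ) 1, (lam u).re < 0 := by
    intro u hu
    have h2 := hcb u hu
    rw [mem_ball_zero_iff, ← hle u hu, Complex.norm_exp, Real.exp_lt_one_iff] at h2
    exact h2
  have hl0 : (lam 0).im = t := by
    rw [hlam, hd]
    simp
  by_cases hcase : Real.pi / m ≤ |(lam 1).im - (lam 0).im|
  · have := cross hm (lam := lam) hf hB hfB (hg.sub continuousOn_const) hre hcase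
      (fun u hu => by rw [hle u hu]; exact hρ u hu)
    exact absurd this (not_le.2 hlt)
  · rw [not_le, hl0] at hcase
    refine ⟨(lam 1).im, hcase, ?_⟩
    rw [← hle 1 m1, Complex.norm_exp, Complex.ofReal_exp, ← Complex.exp_add, Complex.re_add_im]

end Vale.Agent.P153.R2.OBSV
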