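import Vale.Agent.P153.R2.OBSV.Obs
import Vale.Agent.P153.R2.DRV.Curve
import Vale.Agent.P153.R2.POLY.Near
import Vale.Agent.P153.R2.INTF.Poly

/-!
P153, block OBSV: the inputs `S_crv` and `S_geo`.
-/

set_option autoImplicit false
set_option linter.all false

namespace Vale.Agent.P153.R2.OBSV

open Filter Topology Set Metric MeasureTheory
open Vale.Agent.P153 Vale.Agent.P153.R2
open Vale.Agent.P153.R2.INTF (PP Arcs CA Fk Rk Lk)
open Vale.Agent.P153.R2.Final (toC region circ IsUniformizer Approx IsPolygon Encloses)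
open Vale.Agent.P153.R2.FLDI (inn)
open Vale.Agent.P153.R2.DRV

/-- The curve in the half-plane. -/
theorem s_crv : S_crv := by
  intro n k p S δ ψ hδ hk hkn hp hS hU h hh
  have hc := can_of POLY.s_can hδ hk hkn hp hS hh
  exact ⟨DRV.crv hU hc, fun t ht => DRV.psi_et hU hc ht.1 ht.2⟩

/-- The geometry of the slit domains. -/
theorem s_geo : S_geo := by
  intro n k p S δ hδ hk hkn hp hS h hh j hj
  obtain ⟨m1, m2⟩ := INTF.st_mem (S := S) hp hk hkn
  refine ⟨(INTF.arcs_poly hp hS hk hkn).run hh (INTF.st_adj hp) m1 m2 j, ?_, ?_, ?_⟩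
  · intro v hv
    obtain ⟨y, hy, hd⟩ := POLY.near_of_notMem hδ hp hS h hv
    rw [dist_eq_norm] at hd
    exact ⟨y, hy, by linarith⟩
  · intro y hy
    obtain ⟨v, hv, hd⟩ := POLY.exists_near hδ hp hS h (κ := j) hy
    rw [dist_eq_norm] at hd
    exact ⟨v, hv, by linarith⟩
  · intro v hv
    exact subset_closure ((POLY.PP_inn hδ hp hS v).2 hv.1)

end Vale.Agent.P153.R2.OBSV
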