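import Vale.Agent.P153.R2.PLAN.Par
import Vale.Agent.P153.R2.Base.Basic

/-!
P153, block OBSV: a connected wall `M` is behind one exit of a connected set `W` of the domain which
does not touch it (planarity, by mod 2 cochains).
-/

set_option autoImplicit false
set_option linter.all false

namespace Vale.Agent.P153.R2.OBSV

open Set Relation
open Vale.Agent.P153 Vale.Agent.P153.R2
open Vale.Agent.P153.Topo (Conn adj_symm)
open Vale.Agent.P153.R2.PLAN (Hug hug_of_conn common cor exists_cob)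

/-- Cochains. -/
abbrev Ed := (ℤ × ℤ) → (ℤ × ℤ) → ZMod 2
/-- Triangles. -/
abbrev Trg := (ℤ × ℤ) × Bool

theorem tsum_sum {κ : Type*} (T : Finset κ) (a : κ → ZMod 2) (d : κ → Ed) (r : Trg) :
    PLAN.tsum (fun x y => ∑ k ∈ T, a k * d k x y) r = ∑ k ∈ T, a k * PLAN.tsum (d k) r := by
  obtain ⟨⟨i, j⟩, b⟩ := r
  cases b <;> simp only [PLAN.tsum] <;> rw [← Finset.sum_add_distrib, ← Finset.sum_add_distrib] <;>
    refine Finset.sum_congr rfl fun k _ => ?_ <;> ring

theorem z2' (a : ZMod 2) : a + a = 0 := by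
  revert a; decide

theorem finsum_shift (f : ℤ × ℤ → ZMod 2) (u : ℤ × ℤ) : ∑ᶠ q, f (q + u) = ∑ᶠ q, f q :=
  finsum_comp_equiv (Equiv.addRight u)

/-- The sums around the triangles of a finite cochain add up to zero. -/
theorem tsum_total {c : Ed} {A : Set (ℤ × ℤ)} (hA : A.Finite)
    (hc : ∀ x y, x ∉ A → c x y = 0) :
    ∑ᶠ q : ℤ × ℤ, (PLAN.tsum c (q, false) + PLAN.tsum c (q, true)) = 0 := by
  set f1 : ℤ × ℤ → ZMod 2 := fun q => c q (q + (1, 0)) with h1
  set f2 : ℤ × ℤ → ZMod 2 := fun q => c q (q + (0, 1)) with h2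
  set f3 : ℤ × ℤ → ZMod 2 := fun q => c (q + (1, 0)) (q + (0, 1)) with h3
  have e : ∀ q : ℤ × ℤ, PLAN.tsum c (q, false) + PLAN.tsum c (q, true) =
      (f1 q + f1 (q + (0, 1))) + (f2 q + f2 (q + (1, 0))) := by
    rintro ⟨i, j⟩
    simp only [PLAN.tsum, h1, h2, Prod.mk_add_mk, add_zero, zero_add]
    have := z2' (c (i + 1, j) (i, j + 1))
    linear_combination this
  have fin : ∀ (g : ℤ × ℤ → ZMod 2), (∀ q, q ∉ A → g q = 0) → (Function.support g).Finite :=
    fun g hg => hA.subset fun q hq => by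
      by_contra hcon
      exact hq (hg q hcon)
  have k1 : (Function.support f1).Finite := fin _ fun q hq => hc _ _ hq
  have k2 : (Function.support f2).Finite := fin _ fun q hq => hc _ _ hq
  have sh : ∀ (g : ℤ × ℤ → ZMod 2) (u : ℤ × ℤ), (Function.support g).Finite →
      (Function.support fun q => g (q + u)).Finite := fun g u hg =>
    hg.preimage ((Equiv.addRight u).injective.injOn)
  simp_rw [e]
  rw [finsum_add_distrib ((k1.union (sh f1 _ k1)).subset (Function.support_add _ _))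
    ((k2.union (sh f2 _ k2)).subset (Function.support_add _ _)),
    finsum_add_distrib k1 (sh f1 _ k1), finsum_add_distrib k2 (sh f2 _ k2), finsum_shift,
    finsum_shift, z2', z2', add_zero]

/-- Correction of a finite cochain by a cochain on the edges which touch a connected set. -/
theorem exists_corr {c : Ed} {A P : Set (ℤ × ℤ)} (hA : A.Finite) (hc : ∀ x y, x ∉ A → c x y = 0)
    (hP : Cn P) (hbad : ∀ r : Trg, PLAN.tsum c r ≠ 0 → ∃ x ∈ P, x ∈ cor r) :
    ∃ d : Ed, (∀ x y, d x y = d y x) ∧ (∀ x y, x ∉ P → y ∉ P → d x y = 0) ∧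
      ∀ r, PLAN.tsum c r = PLAN.tsum d r := by
  classical
  -- finitely many bad triangles
  have hfin : {r : Trg | PLAN.tsum c r ≠ 0}.Finite := by
    have hB : {q : ℤ × ℤ | q ∈ A ∨ q + (1, 0) ∈ A ∨ q + (0, 1) ∈ A}.Finite := by
      refine hA.union ((hA.preimage ((Equiv.addRight ((1, 0) : ℤ × ℤ)).injective.injOn)).union
        (hA.preimage ((Equiv.addRight ((0, 1) : ℤ × ℤ)).injective.injOn)))
    refine (hB.prod (Set.finite_univ (α := Bool))).subset ?_
    rintro ⟨⟨i, j⟩, b⟩ hr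
    refine ⟨?_, mem_univ _⟩
    by_contra hcon
    simp only [mem_ofPred_eq, not_or, Prod.mk_add_mk, add_zero] at hcon
    obtain ⟨a1, a2, a3⟩ := hcon
    refine hr ?_
    cases b
    · simp only [PLAN.tsum]
      rw [hc _ _ a1, hc _ _ a1, hc _ _ a2]; rfl
    · simp only [PLAN.tsum]
      rw [hc _ _ a2, hc _ _ a2, hc _ _ a3]; rfl
  set T := hfin.toFinset with hT
  have hmem : ∀ r, r ∈ T ↔ PLAN.tsum c r ≠ 0 := fun r => by rw [hT, hfin.mem_toFinset]; rfl
  -- the total
  have htot : ∑ r ∈ T, PLAN.tsum c r = 0 := by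
    have h0 := tsum_total hA hc
    have e1 : ∑ᶠ r : Trg, PLAN.tsum c r = ∑ r ∈ T, PLAN.tsum c r :=
      finsum_eq_sum_of_support_subset _ fun r hr => (hmem r).2 hr
    rw [← e1]
    have hf : ∀ b : Bool, (Function.support fun q : ℤ × ℤ => PLAN.tsum c (q, b)).Finite := fun b => by
      refine hfin.preimage (f := fun q : ℤ × ℤ => (q, b)) fun x _ y _ h => ?_
      exact (Prod.mk.inj h).1
    rw [finsum_add_distrib (hf false) (hf true)] at h0
    rw [← h0]
    have e2 : ∑ᶠ r : Trg, PLAN.tsum c r = ∑ᶠ q : ℤ × ℤ, ∑ᶠ b : Bool, PLAN.tsum c (q, b) :=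
      finsum_curry _ hfin
    rw [e2, ← finsum_add_distrib (hf false) (hf true)]
    refine finsum_congr fun q => ?_
    rw [finsum_eq_sum_of_fintype, Fintype.sum_bool, add_comm]
  rcases T.eq_empty_or_nonempty with hE | ⟨s₀, hs₀⟩
  · refine ⟨fun _ _ => 0, fun _ _ => rfl, fun _ _ _ _ => rfl, fun r => ?_⟩
    have : PLAN.tsum c r = 0 := by
      by_contra hcon
      have := (hmem r).2 hcon
      rw [hE] at this
      exact absurd this (Finset.notMem_empty _)
    rw [this]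
    obtain ⟨⟨i, j⟩, b⟩ := r
    cases b <;> simp [PLAN.tsum]
  · obtain ⟨x₀, hx₀, hx₀s⟩ := hbad s₀ ((hmem _).1 hs₀)
    have hug : ∀ r : Trg, ∃ d : Ed, r ∈ T → (∀ x y, d x y = d y x) ∧
        (∀ q, PLAN.tsum d q = PLAN.tind s₀ q + PLAN.tind r q) ∧ ∀ x y, x ∉ P → y ∉ P → d x y = 0 := by
      intro r
      by_cases hr : r ∈ T
      · obtain ⟨x, hx, hxr⟩ := hbad r ((hmem _).1 hr)
        obtain ⟨d, h1, h2, h3⟩ := hug_of_conn (hP x₀ hx₀ x hx) hx₀s hxr
        exact ⟨d, fun _ => ⟨h1, h2, h3⟩⟩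
      · exact ⟨fun _ _ => 0, fun h => absurd h hr⟩
    choose d hd using hug
    refine ⟨fun x y => ∑ r ∈ T, PLAN.tsum c r * d r x y, fun x y => ?_, fun x y hx hy => ?_, fun q => ?_⟩
    · exact Finset.sum_congr rfl fun r hr => by rw [(hd r hr).1 x y]
    · refine Finset.sum_eq_zero fun r hr => ?_
      rw [(hd r hr).2.2 x y hx hy, mul_zero]
    · rw [tsum_sum]
      have e : ∑ r ∈ T, PLAN.tsum c r * PLAN.tsum (d r) q =
          (∑ r ∈ T, PLAN.tsum c r) * PLAN.tind s₀ q + ∑ r ∈ T, PLAN.tsum c r * PLAN.tind r q := by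
        rw [Finset.sum_mul, ← Finset.sum_add_distrib]
        refine Finset.sum_congr rfl fun r hr => ?_
        rw [(hd r hr).2.1 q]
        ring
      rw [e, htot, zero_mul, zero_add]
      by_cases hq : q ∈ T
      · rw [Finset.sum_eq_single q]
        · simp [PLAN.tind]
        · intro r _ hrq
          have : PLAN.tind r q = 0 := by
            unfold PLAN.tind
            rw [if_neg fun h => hrq h.symm]
          rw [this, mul_zero]
        · exact fun h => absurd hq h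
      · have h0 : PLAN.tsum c q = 0 := by
          by_contra hcon
          exact hq ((hmem q).2 hcon)
        rw [h0, eq_comm]
        refine Finset.sum_eq_zero fun r hr => ?_
        have : PLAN.tind r q = 0 := by
          unfold PLAN.tind
          rw [if_neg]
          rintro rfl
          exact hq hr
        rw [this, mul_zero]

theorem cor_adj {r : Trg} : ∃ x y z : ℤ × ℤ, cor r = {x, y, z} ∧ Adj x y ∧ Adj x z ∧ Adj y z ∧
    ∀ c : Ed, (∀ x y, c x y = c y x) → PLAN.tsum c r = c x y + c x z + c y z := by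
  obtain ⟨⟨i, j⟩, b⟩ := r
  cases b
  · refine ⟨(i, j), (i + 1, j), (i, j + 1), rfl, ?_, ?_, ?_, fun c _ => rfl⟩ <;>
      (rw [Topo.adj_iff]; simp)
  · refine ⟨(i + 1, j), (i, j + 1), (i + 1, j + 1), rfl, ?_, ?_, ?_, fun c _ => rfl⟩ <;>
      (rw [Topo.adj_iff]; simp)

/-- **One exit.** -/
theorem one_exit {F P M W : Set (ℤ × ℤ)} (hF : F.Finite)
    (bd : ∀ x ∈ F, ∀ y, Adj x y → y ∈ F ∨ y ∈ P ∨ y ∈ M) (cP : Cn P) (cM : Cn M)
    (dPM : Disjoint P M) (dFP : Disjoint F P) (dFM : Disjoint F M) (hWF : W ⊆ F) (cW : Cn W)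
    (hWM : ∀ x ∈ W, ∀ y ∈ M, ¬ Adj x y) {u₁ u₂ w₁ w₂ e₁ e₂ m₁ m₂ : ℤ × ℤ}
    (h₁ : Conn (F \ W) u₁ e₁) (hw₁ : w₁ ∈ W) (hu₁ : Adj w₁ u₁) (hm₁ : m₁ ∈ M) (he₁ : Adj e₁ m₁)
    (h₂ : Conn (F \ W) u₂ e₂) (hw₂ : w₂ ∈ W) (hu₂ : Adj w₂ u₂) (hm₂ : m₂ ∈ M) (he₂ : Adj e₂ m₂) :
    Conn (F \ W) e₁ e₂ := by
  classical
  by_contra hne
  set E : Set (ℤ × ℤ) := {x | Conn (F \ W) e₁ x} with hE
  have hEF : ∀ x ∈ E, x ∈ F \ W := fun x hx => Conn.right_mem hx
  have hEcl : ∀ x ∈ E, ∀ y ∈ F \ W, Adj x y → y ∈ E := fun x hx y hy hxy => Conn.tail hx hxy hy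
  have hu₁E : u₁ ∈ E := h₁.symm
  have he₁E : e₁ ∈ E := Conn.refl h₁.right_mem
  have hu₂E : ∀ x, Conn (F \ W) u₂ x → x ∉ E := by
    intro x hx hxE
    exact hne ((show Conn (F \ W) e₁ x from hxE).trans (hx.symm.trans h₂))
  -- the cochain
  set c : Ed := fun x y => if (x ∈ W ∧ y ∈ E) ∨ (x ∈ E ∧ y ∈ W) then 1 else 0 with hc
  have csymm : ∀ x y, c x y = c y x := by
    intro x y
    simp only [hc]
    by_cases h : (x ∈ W ∧ y ∈ E) ∨ (x ∈ E ∧ y ∈ W)
    · rw [if_pos h, if_pos (by tauto)]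
    · rw [if_neg h, if_neg (by tauto)]
  have cfin : ∀ x y, x ∉ F → c x y = 0 := by
    intro x y hx
    simp only [hc]
    rw [if_neg]
    rintro (⟨h, _⟩ | ⟨h, _⟩)
    · exact hx (hWF h)
    · exact hx (hEF x h).1
  have hWE : ∀ x, x ∈ W → x ∉ E := fun x hx hxE => (hEF x hxE).2 hx
  have hbad : ∀ r : Trg, PLAN.tsum c r ≠ 0 → ∃ x ∈ P, x ∈ cor r := by
    intro r hr
    obtain ⟨x, y, z, hcor, hxy, hxz, hyz, hs⟩ := cor_adj (r := r)
    by_contra hcon
    push Not at hcon
    rw [hcor] at hcon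
    have nx : x ∉ P := fun h => hcon x h (by simp)
    have ny : y ∉ P := fun h => hcon y h (by simp)
    have nz : z ∉ P := fun h => hcon z h (by simp)
    -- the third vertex of a triangle with a crossing edge is in `W` or in `E`
    have third : ∀ a b d : ℤ × ℤ, a ∈ W → b ∈ E → Adj a d → Adj b d → d ∉ P → d ∈ W ∨ d ∈ E := by
      intro a b d ha hb had hbd hd
      by_cases hdW : d ∈ W
      · exact Or.inl hdW
      · right
        rcases bd a (hWF ha) d had with h | h | h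
        · exact hEcl b hb d ⟨h, hdW⟩ hbd
        · exact absurd h hd
        · exact absurd had (hWM a ha d h)
    have c1 : ∀ a b : ℤ × ℤ, a ∈ W → b ∈ E → c a b = 1 := fun a b ha hb => if_pos (Or.inl ⟨ha, hb⟩)
    have c2 : ∀ a b : ℤ × ℤ, a ∈ W → b ∈ W → c a b = 0 := fun a b ha hb => by
      have h1 := hWE a ha
      have h2 := hWE b hb
      exact if_neg (by tauto)
    have c3 : ∀ a b : ℤ × ℤ, a ∈ E → b ∈ E → c a b = 0 := fun a b ha hb => by
      have h1 : a ∉ W := fun h => hWE a h ha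
      have h2 : b ∉ W := fun h => hWE b h hb
      exact if_neg (by tauto)
    have key : ∀ a b d : ℤ × ℤ, a ∈ W → b ∈ E → Adj a d → Adj b d → d ∉ P →
        c a b + c a d + c b d = 0 := by
      intro a b d ha hb had hbd hd
      rcases third a b d ha hb had hbd hd with h | h
      · rw [c1 a b ha hb, c2 a d ha h, csymm b d, c1 d b h hb]
        decide
      · rw [c1 a b ha hb, c1 a d ha h, c3 b d hb h]
        decide
    refine hr ?_
    rw [hs c csymm]
    have s1 := adj_symm hxy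
    have s2 := adj_symm hxz
    have s3 := adj_symm hyz
    by_cases k1 : c x y = 0
    · by_cases k2 : c x z = 0
      · by_cases k3 : c y z = 0
        · rw [k1, k2, k3]; decide
        · have : (y ∈ W ∧ z ∈ E) ∨ (y ∈ E ∧ z ∈ W) := by
            by_contra hcon2
            exact k3 (if_neg hcon2)
          rcases this with ⟨h1, h2⟩ | ⟨h1, h2⟩
          · rw [csymm x y, csymm x z, ← key y z x h1 h2 s1 s2 nx]
            ring
          · rw [csymm x y, csymm x z, csymm y z, ← key z y x h2 h1 s2 s1 nx]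
            ring
      · have : (x ∈ W ∧ z ∈ E) ∨ (x ∈ E ∧ z ∈ W) := by
          by_contra hcon2
          exact k2 (if_neg hcon2)
        rcases this with ⟨h1, h2⟩ | ⟨h1, h2⟩
        · rw [csymm y z, ← key x z y h1 h2 hxy s3 ny]
          ring
        · rw [csymm x z, csymm y z, csymm x y, csymm y x, ← key z x y h2 h1 s3 hxy ny]
          ring
    · have : (x ∈ W ∧ y ∈ E) ∨ (x ∈ E ∧ y ∈ W) := by
        by_contra hcon2
        exact k1 (if_neg hcon2)
      rcases this with ⟨h1, h2⟩ | ⟨h1, h2⟩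
      · rw [← key x y z h1 h2 hxz hyz nz]
      · rw [csymm x y, ← key y x z h2 h1 hyz hxz nz]
        ring
  obtain ⟨d, dsymm, dP, dsum⟩ := exists_corr hF cfin cP hbad
  set e : Ed := fun x y => c x y + d x y with he
  have hes : ∀ x y, e x y = e y x := fun x y => by simp only [he, csymm x y, dsymm x y]
  have het : ∀ r, PLAN.tsum e r = 0 := by
    intro r
    rw [he, PLAN.tsum_add, dsum, z2']
  obtain ⟨U, hU⟩ := exists_cob e hes (fun i j => het ((i, j), false))
    (fun i j => het ((i, j), true))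
  have hflat : ∀ S : Set (ℤ × ℤ), (∀ x ∈ S, ∀ y ∈ S, e x y = 0) → ∀ x y, Conn S x y →
      U x = U y := by
    intro S hS x y hxy
    refine Conn.ind (S := S) (fun y => U x = U y) rfl (fun u v hu huv hv ih => ?_) hxy
    have h1 := hU u v huv
    rw [hS u hu.right_mem v hv] at h1
    rw [ih]
    have h2 := z2' (U v)
    have : U u = U v := by linear_combination -h1 - h2
    exact this
  have hPW : ∀ x ∈ W, x ∉ P := fun x hx hxP => Set.disjoint_left.1 dFP (hWF hx) hxP
  have hPF : ∀ x ∈ F, x ∉ P := fun x hx hxP => Set.disjoint_left.1 dFP hx hxP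
  have hPM : ∀ x ∈ M, x ∉ P := fun x hx hxP => Set.disjoint_left.1 dPM hxP hx
  have hMW : ∀ x ∈ M, x ∉ W := fun x hx hxW => Set.disjoint_left.1 dFM (hWF hxW) hx
  have hME : ∀ x ∈ M, x ∉ E := fun x hx hxE => Set.disjoint_left.1 dFM (hEF x hxE).1 hx
  have c0 : ∀ x y, ¬ ((x ∈ W ∧ y ∈ E) ∨ (x ∈ E ∧ y ∈ W)) → c x y = 0 := fun x y h => if_neg h
  -- along the walk
  have r1 : U w₁ = U w₂ := hflat W (fun x hx y hy => by
    simp only [he]
    rw [c0 x y (by have := hWE x hx; have := hWE y hy; tauto), dP x y (hPW x hx) (hPW y hy),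
      add_zero]) _ _ (cW w₁ hw₁ w₂ hw₂)
  have r2 : U m₁ = U m₂ := hflat M (fun x hx y hy => by
    simp only [he]
    rw [c0 x y (by have := hMW x hx; have := hME x hx; tauto), dP x y (hPM x hx) (hPM y hy),
      add_zero]) _ _ (cM m₁ hm₁ m₂ hm₂)
  have r3 : U u₁ = U e₁ := hflat (F \ W) (fun x hx y hy => by
    simp only [he]
    rw [c0 x y (by have := hx.2; have := hy.2; tauto), dP x y (hPF x hx.1) (hPF y hy.1),
      add_zero]) _ _ h₁
  have r4 : U u₂ = U e₂ := hflat (F \ W) (fun x hx y hy => by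
    simp only [he]
    rw [c0 x y (by have := hx.2; have := hy.2; tauto), dP x y (hPF x hx.1) (hPF y hy.1),
      add_zero]) _ _ h₂
  have q1 : U w₁ + U u₁ = 1 := by
    rw [← hU _ _ hu₁]
    simp only [he]
    have : c w₁ u₁ = 1 := if_pos (Or.inl ⟨hw₁, hu₁E⟩)
    rw [this, dP _ _ (hPW _ hw₁) (hPF _ h₁.left_mem.1), add_zero]
  have q2 : U e₁ + U m₁ = 0 := by
    rw [← hU _ _ he₁]
    simp only [he]
    rw [c0 _ _ (by
      have := hMW m₁ hm₁
      have := hME m₁ hm₁
      tauto), dP _ _ (hPF _ h₁.right_mem.1) (hPM _ hm₁), add_zero]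
  have q3 : U e₂ + U m₂ = 0 := by
    rw [← hU _ _ he₂]
    simp only [he]
    rw [c0 _ _ (by
      have := hMW m₂ hm₂
      have := hME m₂ hm₂
      tauto), dP _ _ (hPF _ h₂.right_mem.1) (hPM _ hm₂), add_zero]
  have q4 : U w₂ + U u₂ = 0 := by
    rw [← hU _ _ hu₂]
    simp only [he]
    have hn := hu₂E u₂ (Conn.refl h₂.left_mem)
    have := h₂.left_mem.2
    rw [c0 _ _ (by tauto), dP _ _ (hPW _ hw₂) (hPF _ h₂.left_mem.1), add_zero]
  have : (1 : ZMod 2) = 0 := by
    have z := z2' (U w₂)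
    have z1 := z2' (U e₁)
    have z2 := z2' (U m₂)
    have z3 := z2' (U e₂)
    rw [r1, r3] at q1
    rw [r2] at q2
    rw [r4] at q4
    linear_combination -q1 - q2 - q3 - q4 + z + z1 + z2 + z3
  exact absurd this (by decide)

end Vale.Agent.P153.R2.OBSV
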